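import Vale.Agent.P287Q.Emb.Defs
import Vale.Agent.P287Q.Pv.Fam
import Vale.Agent.P287Q.G.Vir.RD

/-!
# The vertical tangent space of an absolute family; the Jacobian criterion
-/

set_option linter.unusedSectionVars false

namespace Vale.Agent.P287Q.Emb

open Set Function Topology Filter Module MvPolynomial P269 P269.Holo P269.Vir

/-- The zero set of a submersion and its tangent space. -/
theorem tn_zero {W B : Type} [NormedAddCommGroup W] [NormedSpace ℂ W] [FiniteDimensional ℂ W]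
    [NormedAddCommGroup B] [NormedSpace ℂ B] [FiniteDimensional ℂ B] {Ψ : W → B} {y : W}
    (hΨ : AnalyticAt ℂ Ψ y) (h0 : Ψ y = 0) (hs : Surjective (fderiv ℂ Ψ y)) :
    MfdAt {s | Ψ s = 0} (finrank ℂ (LinearMap.ker (fderiv ℂ Ψ y : W →ₗ[ℂ] B))) y ∧
      tn {s | Ψ s = 0} y = LinearMap.ker (fderiv ℂ Ψ y : W →ₗ[ℂ] B) := by
  have r := LinearMap.finrank_range_add_finrank_ker (fderiv ℂ Ψ y : W →ₗ[ℂ] B)
  rw [LinearMap.range_eq_top.2 hs, finrank_top, add_comm] at r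
  have m : MfdAt {s | Ψ s = 0} (finrank ℂ (LinearMap.ker (fderiv ℂ Ψ y : W →ₗ[ℂ] B))) y :=
    (MfdAt.univ y).sub hΨ h0 (fun c _ => by
      obtain ⟨v, rfl⟩ := hs c
      have l : HasDerivAt (fun ε : ℂ => y + ε • v) v 0 := by
        simpa using ((hasDerivAt_id (0 : ℂ)).smul_const v).const_add y
      refine Submodule.subset_span ⟨fun ε => y + ε • v, ⟨by fun_prop, by simp,
        .of_forall fun _ => trivial⟩, ?_⟩
      exact (hΨ.differentiableAt.hasFDerivAt.comp_hasDerivAt_of_eq 0 l (by simp)).deriv)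
      (.of_forall fun _ => (and_iff_right trivial).symm) r
  exact ⟨m, Submodule.eq_of_le_of_finrank_eq
    (fun v hv => fderiv_eq_zero m hΨ (.of_forall fun _ e => e) hv) (finrank_tn m)⟩

variable {S Λ R J K : Type} [Fintype S] [Fintype Λ] [Fintype R] [Fintype J] [Fintype K]

theorem an_eqn (F : Fam S Λ R J K) (l : Λ → ℂ) (k : K) (y : J → ℂ) :
    AnalyticAt ℂ (fun s => F.eqn (l, s) k) y := an_eval ((F.fib l).F k) y

theorem jac_eq (F : Fam S Λ R J K) (z : (Λ → ℂ) × (J → ℂ)) (v : J → ℂ) (k : K) :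
    ∑ j, F.jac z k j * v j = fderiv ℂ (fun s => F.eqn (z.1, s) k) z.2 v := by
  have l : HasDerivAt (fun ε : ℂ => z.2 + ε • v) v 0 := by
    simpa using ((hasDerivAt_id (0 : ℂ)).smul_const v).const_add z.2
  exact (hasDerivAt_eval _ z.2 v).unique
    ((an_eqn F z.1 k z.2).differentiableAt.hasFDerivAt.comp_hasDerivAt_of_eq 0 l (by simp))

/-- The equations in `K₁` and the base fields. -/
noncomputable def eqs (F : Fam S Λ R J K) (l : Λ → ℂ) (K₁ : Set K) (s : J → ℂ) :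
    K₁ ⊕ (F.movᶜ : Set J) → ℂ := Sum.elim (fun k => F.eqn (l, s) k) fun j => s j

section

variable {F : Fam S Λ R J K} {K₁ : Set K} [Fintype K₁] [Fintype (F.movᶜ : Set J)]
  {z : (Λ → ℂ) × (J → ℂ)}

theorem eqs_crd (l : Λ → ℂ) (y : J → ℂ) (i : K₁ ⊕ (F.movᶜ : Set J)) :
    AnalyticAt ℂ (fun s => eqs F l K₁ s i) y := by
  rcases i with k | j
  exacts [an_eqn F l k y, (ContinuousLinearMap.proj j.1 : (J → ℂ) →L[ℂ] ℂ).analyticAt _]

theorem eqs_an (l : Λ → ℂ) (y : J → ℂ) : AnalyticAt ℂ (eqs F l K₁) y :=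
  analyticAt_pi_iff.2 (eqs_crd l y)

theorem eqs_zero {l : Λ → ℂ} {s : J → ℂ} : eqs F l K₁ s = 0 ↔
    (∀ k ∈ K₁, F.eqn (l, s) k = 0) ∧ ∀ j ∉ F.mov, s j = 0 := by
  simp only [funext_iff, Sum.forall, Subtype.forall]
  rfl

theorem fderiv_eqs (v : J → ℂ) : fderiv ℂ (eqs F z.1 K₁) z.2 v =
    Sum.elim (fun k : K₁ => ∑ j, F.jac z k j * v j) fun j : (F.movᶜ : Set J) => v j := by
  rw [fderiv_pi fun i => (eqs_crd z.1 z.2 i).differentiableAt]
  funext i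
  rcases i with k | j
  · exact (jac_eq F z v k).symm
  · exact congrArg (· v) (ContinuousLinearMap.proj j.1 : (J → ℂ) →L[ℂ] ℂ).fderiv

theorem ker_eqs {v : J → ℂ} : fderiv ℂ (eqs F z.1 K₁) z.2 v = 0 ↔
    (∀ k ∈ K₁, ∑ j, F.jac z k j * v j = 0) ∧ ∀ j ∉ F.mov, v j = 0 := by
  rw [fderiv_eqs]
  simp only [funext_iff, Sum.forall, Subtype.forall]
  rfl

theorem surj_eqs (h : ∀ c : K → ℂ, ∃ η : J → ℂ, (∀ j ∉ F.mov, η j = 0) ∧
    ∀ k ∈ K₁, ∑ j, F.jac z k j * η j = c k) : Surjective (fderiv ℂ (eqs F z.1 K₁) z.2) := by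
  intro c
  let v : J → ℂ := extend Subtype.val (fun j : (F.movᶜ : Set J) => c (.inr j)) 0
  obtain ⟨η, h1, h2⟩ := h fun k =>
    extend Subtype.val (fun k : K₁ => c (.inl k)) 0 k - ∑ j, F.jac z k j * v j
  refine ⟨η + v, (fderiv_eqs _).trans (funext fun i => ?_)⟩
  rcases i with k | j
  · simp only [Sum.elim_inl, Pi.add_apply, mul_add, Finset.sum_add_distrib, h2 k.1 k.2,
      sub_add_cancel, Subtype.val_injective.extend_apply]
  · simp only [Sum.elim_inr, Pi.add_apply, h1 j.1 j.2, zero_add, v,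
      Subtype.val_injective.extend_apply]

end

variable {F : Fam S Empty R J K} {A : Set (J → ℂ)} {z : (Empty → ℂ) × (J → ℂ)} {K₁ : Set K} {m : ℕ}

theorem ev_snd {p : (Empty → ℂ) × (J → ℂ) → Prop} :
    (∀ᶠ z' in 𝓝 z, p z') ↔ ∀ᶠ s in 𝓝 z.2, p (z.1, s) :=
  ⟨fun h => (continuous_const.prodMk continuous_id).continuousAt.eventually h,
    fun h => (continuous_snd.continuousAt.eventually h).mono fun x e =>
      (congrArg p (show (z.1, x.2) = x from Prod.ext (Subsingleton.elim _ _) rfl)).mp e⟩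

/-- the tangent space of the cone is vertical -/
theorem tn_le_vert (ha : F.movᶜ ⊆ F.zer) (hA : ∀ᶠ s in 𝓝 z.2, s ∈ A → (z.1, s) ∈ F.cone)
    (hm : MfdAt A m z.2) : tn A z.2 ≤ F.vert z := by
  classical
  intro v hv
  have := ker_eqs.1 (fderiv_eq_zero hm (eqs_an (F := F) (K₁ := univ) z.1 z.2)
    (hA.mono fun s e a => eqs_zero.2 ⟨fun k _ => (F.mem_cone.1 (e a)).2.2 k,
      fun j b => (F.mem_cone.1 (e a)).1.2.2 j (ha b)⟩) hv)
  exact RP.mem_vert.2 ⟨this.2, fun k => this.1 k trivial⟩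

/-- **At a regular point the cone is a manifold whose tangent space is the vertical space.** -/
theorem vert_of_regAt (hF : F.Inv) (hB : F.B = univ) (hE : F.E = univ) (ha : F.movᶜ ⊆ F.zer)
    (hA : ∀ᶠ s in 𝓝 z.2, s ∈ A ↔ (z.1, s) ∈ F.cone) (hz : z ∈ F.cone) (h : F.RegAt K₁ z) :
    MfdAt A (finrank ℂ (F.vert z)) z.2 ∧ F.vert z = tn A z.2 := by
  classical
  have h0 : ∀ {s}, (z.1, s) ∈ F.cone → eqs F z.1 K₁ s = 0 := fun e => eqs_zero.2
    ⟨fun k _ => (F.mem_cone.1 e).2.2 k, fun j b => (F.mem_cone.1 e).1.2.2 j (ha b)⟩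
  obtain ⟨h1, h2⟩ := tn_zero (eqs_an z.1 z.2) (h0 hz) (surj_eqs h.ind)
  have h3 : ∀ᶠ s in 𝓝 z.2, s ∈ {s | eqs F z.1 K₁ s = 0} ↔ s ∈ A := by
    filter_upwards [hA, ev_snd.1 h.cut, ev_snd.1 (hF.openU.mem_nhds (F.mem_cone.1 hz).2.1)]
      with s a b c
    refine ⟨fun d => ?_, fun d => h0 (a.1 d)⟩
    have e : (z.1, s) ∈ F.bs := ⟨hB ▸ trivial, hE ▸ trivial, fun j i =>
      (eqs_zero.1 d).2 j (disjoint_left.1 hF.zer_base i)⟩
    exact a.2 (F.mem_cone.2 ⟨e, c, b e (eqs_zero.1 d).1⟩)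
  have h4 := h1.congr h3
  have h5 : F.vert z = tn A z.2 := le_antisymm (fun v hv => by
    rw [← tn_congr h3, h2]
    exact ker_eqs.2 ⟨fun k _ => (RP.mem_vert.1 hv).2 k, (RP.mem_vert.1 hv).1⟩)
    (tn_le_vert ha (hA.mono fun _ e => e.1) h4)
  exact ⟨by rw [h5, finrank_tn h4]; exact h4, h5⟩

/-- **The Jacobian criterion.** -/
theorem regAt_of_le (ha : F.movᶜ ⊆ F.zer)
    (hA : ∀ᶠ s in 𝓝 z.2, s ∈ A ↔ (z.1, s) ∈ F.cone) (hm : MfdAt A m z.2)
    (hv : F.vert z ≤ tn A z.2) : ∃ K₁, F.RegAt K₁ z := by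
  classical
  obtain ⟨K₁, a, b⟩ := Finite.exists_maximal (toFinite {K₁ : Set K | ∀ c : K → ℂ, ∃ η : J → ℂ,
    (∀ j ∉ F.mov, η j = 0) ∧ ∀ k ∈ K₁, ∑ j, F.jac z k j * η j = c k})
    ⟨∅, fun _ => ⟨0, fun _ _ => rfl, fun _ e => e.elim⟩⟩
  have d : ∀ η : J → ℂ, (∀ j ∉ F.mov, η j = 0) → (∀ k ∈ K₁, ∑ j, F.jac z k j * η j = 0) →
      ∀ k, ∑ j, F.jac z k j * η j = 0 := fun η e₀ e k => by
    by_contra f
    refine f (e k (b (y := insert k K₁) (fun c => ?_) (subset_insert _ _) (mem_insert _ _)))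
    obtain ⟨η', g₀, g⟩ := a c
    refine ⟨η' + ((c k - ∑ j, F.jac z k j * η' j) / ∑ j, F.jac z k j * η j) • η,
      fun j i => by simp [g₀ j i, e₀ j i], fun k' i => ?_⟩
    simp only [Pi.add_apply, Pi.smul_apply, smul_eq_mul, mul_add, Finset.sum_add_distrib,
      mul_left_comm (F.jac z k' _), ← Finset.mul_sum]
    rcases i with rfl | i
    · rw [div_mul_cancel₀ _ f, add_sub_cancel]
    · rw [e k' i, g k' i, mul_zero, add_zero]
  have h0 : ∀ {s}, (z.1, s) ∈ F.cone → eqs F z.1 K₁ s = 0 := fun e => eqs_zero.2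
    ⟨fun k _ => (F.mem_cone.1 e).2.2 k, fun j b => (F.mem_cone.1 e).1.2.2 j (ha b)⟩
  have h6 : ∀ᶠ s in 𝓝 z.2, s ∈ A → eqs F z.1 K₁ s = 0 := hA.mono fun s e i => h0 (e.1 i)
  obtain ⟨h1, h2⟩ := tn_zero (eqs_an z.1 z.2) (h6.self_of_nhds hm.1) (surj_eqs a)
  have h3 : LinearMap.ker (fderiv ℂ (eqs F z.1 K₁) z.2).toLinearMap = tn A z.2 :=
    le_antisymm (fun v e => hv (RP.mem_vert.2 ⟨(ker_eqs.1 e).2, d v (ker_eqs.1 e).2 (ker_eqs.1 e).1⟩))
      fun v e => fderiv_eq_zero hm (eqs_an z.1 z.2) h6 e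
  rw [h3, finrank_tn hm] at h1
  refine ⟨K₁, a, ev_snd.2 ?_⟩
  filter_upwards [hA, ev_mem_of_sub h1 hm h6] with s e f i j
  exact (F.mem_cone.1 (e.1 (f (eqs_zero.2 ⟨j, fun j b => i.2.2 j (ha b)⟩)))).2.2

theorem vert_of_le (ha : F.movᶜ ⊆ F.zer) (hA : ∀ᶠ s in 𝓝 z.2, s ∈ A → (z.1, s) ∈ F.cone)
    (hm : MfdAt A m z.2) (hv : F.vert z ≤ tn A z.2) : F.vert z = tn A z.2 :=
  le_antisymm hv (tn_le_vert ha hA hm)

namespace Mdl

variable [DecidableEq R] {F : Fam Empty Empty R J K} {π : J → R} (h : Mdl F π A) {K₀ : RD R} {n : ℕ}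
include h

theorem vert' (hz : z.2 ∈ A) : MfdAt A (finrank ℂ (F.vert z)) z.2 ∧ F.vert z = tn A z.2 :=
  let ⟨_, a⟩ := h.nice.reg
  let ⟨_, b⟩ := a.loc z ((h.cone z).2 hz)
  vert_of_regAt h.nice.toInv h.B h.E h.abs (.of_forall fun s => (h.cone (z.1, s)).symm)
    ((h.cone z).2 hz) b

theorem vert_eq (l : Empty → ℂ) {y : J → ℂ} (hy : y ∈ A) : F.vert (l, y) = tn A y :=
  (h.vert' (z := (l, y)) hy).2

theorem mfdAt (hR : F.Reg K₀) {y : J → ℂ} (hy : y ∈ A) : MfdAt A K₀.n y :=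
  hR.dim (0, y) ((h.cone _).2 hy) ▸ (h.vert' (z := (0, y)) hy).1

theorem n_eq (hR : F.Reg K₀) (hA : PV π A n) (hne : A.Nonempty) : K₀.n = n + Fintype.card R :=
  let ⟨y, hy⟩ := hne
  (h.mfdAt hR hy).unique (hA.mfd y hy)

end Mdl

end Vale.Agent.P287Q.Emb
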