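import Vale.Agent.P287Q.Emb.All
import Vale.Agent.P287Q.G.Map.PresZ

/-!
# Independence of the embedding
-/

namespace Vale.Agent.P287Q.Emb

open P269

theorem det : DET := det_of St.well

theorem addh_all : ADDH := addh_of St.well St.presZ

theorem iso_all : ISO := iso_of St.well St.presZ

theorem eqv_all : EQV := eqv_of St.well St.presZ

end Vale.Agent.P287Q.Emb
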