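import Vale.Agent.P287Q.Emb.GwP
import Vale.Agent.P287Q.Emb.Fin
import Vale.Agent.P287Q.As.End
import Vale.Agent.P287Q.Pcs.St

/-!
# The invariants do not depend on the presentation
-/

namespace Vale.Agent.P287Q

open P269

theorem gwEq : GwEq := fun _ _ => Prs.gw_eq' Emb.det St.presZ St.selC

theorem Pcs.emb : Pcs.EMB := gwEq

end Vale.Agent.P287Q
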