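import Vale.Agent.P287Q.Emb.DefH
import Vale.Agent.P287Q.Us.Defs
import Vale.Agent.P287Q.G.Gen.Num

/-!
# Independence of the invariants of the embedding: statements
-/

namespace Vale.Agent.P287Q.Emb

open Set Function Topology Filter MvPolynomial P291Z P269 P269.Holo

section

variable {S Λ R J ν κ : Type}

open Classical in
/-- The fields in `T` are replaced by zero. -/
noncomputable def zf (T : Set J) (y : J → ℂ) : J → ℂ := fun j => if j ∈ T then 0 else y j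

/-- The same for abstract maps. -/
noncomputable def zm (T : Set J) (m : AM Λ R J ν κ) : AM Λ R J ν κ :=
  ⟨m.toAC, m.L, m.l, fun j z => zf T (fun i => m.y i z) j⟩

end

/-- **Holomorphically determined fields do not change the invariants.** -/
def DET : Prop :=
  ∀ {S Λ R J K K' : Type} [Fintype S] [Fintype Λ] [Fintype R] [Fintype J] [Fintype K] [Fintype K']
    [DecidableEq R] (F : Fam S Λ R J K) (F' : Fam S Λ R J K') (T : Set J) (φ : K → K') (K₀ : RD R)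
    (k : ℕ) (P P' : ∀ ν κ : Type, AM Λ R J ν κ → Prop) {A : Set _},
    F.DetH F' T φ → F'.θ = F.θ → F.Nice 0 → F'.Nice 0 → F.Reg K₀ → F'.Reg K₀ → F.Cp → F.Big k →
    F'.Big k → F.ExOk k ⟨P, 1, univ, 1⟩ → F'.ExOk k ⟨P', 1, univ, 1⟩ →
    (∀ ν κ m, m.Sol F' → (P' ν κ m ↔ P ν κ (zm T m))) → F.cone ⊆ A → ∀ d j l₁ l₂,
      F.cor k ⟨P, 1, univ, 1⟩ 0 A A d j l₁ l₂ [] = F'.cor k ⟨P', 1, univ, 1⟩ 0 F'.cone F'.cone d j
        (l₁.map (Prod.map id (F'.pb F.toWt (Prod.map id (zf T)) F'.cone))) l₂ []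

variable {R J K R' J' K' : Type} [Fintype R] [Fintype J] [Fintype K] [Fintype R'] [Fintype J']
  [Fintype K'] [DecidableEq R] [DecidableEq R']

/-- The family `F` presents the multicone `A`; some fields may be vanishing base fields. -/
structure Mdl (F : Fam Empty Empty R J K) (π : J → R) (A : Set (J → ℂ)) : Prop where
  nice : F.Nice 0
  w : F.w = bw π
  B : F.B = univ
  E : F.E = univ
  abs : F.movᶜ ⊆ F.zer
  cone : ∀ z, z ∈ F.cone ↔ z.2 ∈ A

/-- The connected invariants of `F'` in degree `d'` are those of `F` in degree `d`, the classes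
being pulled back along `f`. -/
def Cmp (F : Fam Empty Empty R J K) (k : ℕ) (d : R → ℤ) (F' : Fam Empty Empty R' J' K') (k' : ℕ)
    (d' : R' → ℤ) (f : (J → ℂ) → J' → ℂ) : Prop :=
  ∀ j l₁ l₂, F'.cor k' F'.exC 0 F'.cone F'.cone d' j l₁ l₂ [] = F.cor k F.exC 0 F.cone F.cone d j
    (l₁.map (Prod.map id (F.pb F'.toWt (Prod.map id f) F.cone))) l₂ []

/-- The connected invariants of degree `d` vanish. -/
def Van (F : Fam Empty Empty R J K) (k : ℕ) (d : R → ℤ) : Prop :=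
  ∀ j l₁ l₂, F.cor k F.exC 0 F.cone F.cone d j l₁ l₂ [] = 0

/-- The map of degrees. -/
def mv (M : R' → R → ℤ) (d : R → ℤ) : R' → ℤ := fun r' => ∑ r, M r' r * d r

/-- A holomorphic map of multicones that is equivariant for the homomorphism `M` of the tori. -/
structure Hm (π : J → R) (A : Set (J → ℂ)) (π' : J' → R') (A' : Set (J' → ℂ)) (M : R' → R → ℤ)
    (Φ : (J → ℂ) → J' → ℂ) : Prop where
  hol : ∀ y ∈ A, HolOn A Φ y
  mem : MapsTo Φ A A'
  eqv : ∀ t, IsUnit t → ∀ y ∈ A, Φ (scl π t y) = scl π' (fun r' => ∏ r, t r ^ M r' r) (Φ y)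

/-- Equations for the graph of holomorphic functions of given weights. -/
def GRQ : Prop :=
  ∀ {J R T : Type} [Fintype J] [Fintype R] [Fintype T] [DecidableEq R] {π : J → R}
    {A : Set (J → ℂ)} {n : ℕ} (w : T → R → ℤ) (σ : (J → ℂ) → T → ℂ), PV π A n →
    (∀ y ∈ A, HolOn A σ y) →
    (∀ t, IsUnit t → ∀ y ∈ A, ∀ a, σ (scl π t y) a = (∏ r, t r ^ w a r) * σ y a) →
    ∃ (k : ℕ) (χ : Fin k → R → ℤ) (g : Fin k → MvPolynomial (J ⊕ T) ℂ),
      (∀ i, WHom (Sum.elim (bw π) w) (χ i) (g i)) ∧ (∀ i, (g i).totalDegree ≠ 0) ∧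
      (∀ y ∈ A, ∀ x : T → ℂ, gv g (Sum.elim y x) = 0 ↔ x = σ y) ∧
      ∀ y ∈ A, ∀ ξ : T → ℂ, fderiv ℂ (gv g) (Sum.elim y (σ y)) (Sum.elim 0 ξ) = 0 → ξ = 0

/-- New fields `T` that are holomorphic functions `σ` on the multicone; those in `T₀` vanish. -/
def ADDH : Prop :=
  ∀ {J R K T : Type} [Fintype J] [Fintype R] [Fintype K] [Fintype T] [DecidableEq R]
    (F : Fam Empty Empty R J K) {π : J → R} {A : Set (J → ℂ)} {n : ℕ} (w : T → R → ℤ)
    (σ : (J → ℂ) → T → ℂ) (T₀ : Set T) (k : ℕ), PV π A n → Mdl F π A → F.Big k →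
    (∀ y ∈ A, HolOn A σ y) →
    (∀ t, IsUnit t → ∀ y ∈ A, ∀ a, σ (scl π t y) a = (∏ r, t r ^ w a r) * σ y a) →
    (∀ y ∈ A, ∀ a ∈ T₀, σ y a = 0) →
    ∃ (K' : Type) (_ : Fintype K') (F' : Fam Empty Empty R (J ⊕ T) K'), F'.Nice 0 ∧ F'.Big k ∧
      F'.w = Sum.elim (bw π) w ∧ F'.B = univ ∧ F'.E = univ ∧ F'.zer = F'.movᶜ ∧
      (∀ j, .inl j ∈ F'.mov ↔ j ∈ F.mov) ∧ (∀ a, .inr a ∈ F'.mov ↔ a ∉ T₀) ∧
      (∀ z, z ∈ F'.cone ↔ z.2 ∘ .inl ∈ A ∧ z.2 ∘ .inr = σ (z.2 ∘ .inl)) ∧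
      ∀ d, Cmp F' k d F k d (· ∘ .inl)

/-- Equivariantly biholomorphic multicones have the same invariants. -/
def ISO : Prop :=
  ∀ {J R K J' R' K' : Type} [Fintype J] [Fintype R] [Fintype K] [Fintype J'] [Fintype R']
    [Fintype K'] [DecidableEq R] [DecidableEq R'] (F : Fam Empty Empty R J K)
    (F' : Fam Empty Empty R' J' K') {π A π' A'} {n n' k k' : ℕ} {M N Φ Ψ}, PV π A n → PV π' A' n' →
    Mdl F π A → Mdl F' π' A' → F.Big k → F'.Big k' → Hm π A π' A' M Φ → Hm π' A' π A N Ψ →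
    (∀ y ∈ A, Ψ (Φ y) = y) → (∀ y ∈ A', Φ (Ψ y) = y) → (∀ d, mv N (mv M d) = d) →
    (∀ d, mv M (mv N d) = d) → ∀ d, Cmp F k d F' k' (mv M d) Φ

/-- The multicone with new blocks that consist of one field. -/
def prP (A : Set (J → ℂ)) (I : Type) : Set (J ⊕ I → ℂ) :=
  {w | w ∘ .inl ∈ A ∧ ∀ i, w (.inr i) ≠ 0}

/-- New blocks with one field do not change the invariants. -/
def ADDP : Prop :=
  ∀ {J R K : Type} (I : Type) [Fintype J] [Fintype R] [Fintype K] [Fintype I] [DecidableEq R]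
    [DecidableEq I] (F : Fam Empty Empty R J K) {π A} {n k : ℕ}, PV π A n → Mdl F π A → F.Big k →
    ∃ (K' : Type) (_ : Fintype K') (F' : Fam Empty Empty (R ⊕ I) (J ⊕ I) K') (k' : ℕ),
      PV (Sum.map π id) (prP A I) n ∧ Mdl F' (Sum.map π id) (prP A I) ∧ F'.Big k' ∧
      (∀ d, Cmp F k d F' k' (Sum.elim d 0) fun y => Sum.elim y 1) ∧
      ∀ d e, e ≠ 0 → Van F' k' (Sum.elim d e)

/-- **Independence of the embedding**: two multicones with holomorphic equivariant maps that induce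
inverse bijections of the varieties. -/
def EQV : Prop :=
  ∀ {J R K J' R' K' : Type} [Fintype J] [Fintype R] [Fintype K] [Fintype J'] [Fintype R']
    [Fintype K'] [DecidableEq R] [DecidableEq R'] (F : Fam Empty Empty R J K)
    (F' : Fam Empty Empty R' J' K') {π A π' A'} {n n' k k' : ℕ} {M N Φ Ψ}, PV π A n → PV π' A' n' →
    Mdl F π A → Mdl F' π' A' → F.Big k → F'.Big k' → Hm π A π' A' M Φ → Hm π' A' π A N Ψ →
    (∀ y ∈ A, Orb π y (Ψ (Φ y))) → (∀ y ∈ A', Orb π' y (Φ (Ψ y))) → ∀ d,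
      (mv N (mv M d) = d → Cmp F k d F' k' (mv M d) Φ) ∧ (mv N (mv M d) ≠ d → Van F k d)

end Vale.Agent.P287Q.Emb
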