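import Vale.Agent.P287Q.Emb.Trf
import Vale.Agent.P287Q.Emb.Defs
import Vale.Agent.P287Q.Pv.Chow

/-!
# New fields that are determined by new equations
-/

set_option linter.unusedSectionVars false

namespace Vale.Agent.P287Q.Emb

open Set Function Topology Filter MvPolynomial P291Z P269 P269.Holo P269.Vir P269.RP

variable {R J K T K' : Type} [Fintype R] [Fintype J] [Fintype K] [Fintype T] [Fintype K']
  [DecidableEq R]

theorem ren_sup {A : Type} [CommSemiring A] {φ : J → T} (h : Injective φ) {p : MvPolynomial J A}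
    {α : T →₀ ℕ} (a : α ∈ (rename φ p).support) : ∃ β ∈ p.support, (∀ j, α (φ j) = β j) ∧
      (∀ j ∉ range φ, α j = 0) ∧ ∀ f : T → ℤ, ∑ j, α j * f j = ∑ j, β j * f (φ j) := by
  obtain ⟨β, rfl, b⟩ := coeff_rename_ne_zero _ _ _ (mem_support_iff.1 a)
  exact ⟨β, mem_support_iff.2 b, Finsupp.mapDomain_apply h β,
    Finsupp.mapDomain_of_notMem_range _, fun f => (Fintype.sum_of_injective φ h _ _
      (fun j c => by rw [Finsupp.mapDomain_of_notMem_range _ _ c, Nat.cast_zero, zero_mul])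
      fun j => by rw [Finsupp.mapDomain_apply h]).symm⟩

theorem ren_deg {A : Type} [CommSemiring A] {φ : J → T} (h : Injective φ) {p : MvPolynomial J A}
    (a : p.totalDegree ≠ 0) : (rename φ p).totalDegree ≠ 0 := fun b =>
  a ((totalDegree_eq_zero_iff _ _).2 fun β c j => (Finsupp.mapDomain_apply h β j).symm.trans
    ((totalDegree_eq_zero_iff _ _).1 b _
      (mem_support_iff.2 ((coeff_rename_mapDomain _ h _ _).trans_ne (mem_support_iff.1 c))) _))

/-- An absolute target. -/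
structure Ab (F : Fam Empty Empty R J K) : Prop where
  nice : F.Nice 0
  B : F.B = univ
  abs : F.Abs

theorem Ab.of {F : Fam Empty Empty R J K} (hB : F.B = univ) (ha : F.Abs) (h : F.Good) {K₀}
    (hR : F.Reg K₀) : Ab F := ⟨⟨h, ⟨_, hR⟩,
  ⟨_, fun l => ((MfdAt.univ l.1).congr (.of_forall fun _ => by simp [hB])).isMfd l.2⟩,
  ⟨∅, nofun, ha.2.trans (eq_univ_of_forall fun _ _ e => nomatch e).symm⟩,
  0, nofun, 0, 1, nofun, linearIndependent_empty_type, nofun, fun _ a b => (b (ha.1 a)).elim,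
    fun _ _ _ => ⟨analyticAt_const, one_ne_zero⟩, fun _ a b => (b (ha.1 a)).elim,
    fun _ a b => (b (ha.1 a)).elim, fun _ _ _ _ _ =>
      iff_of_true (ha.2.ge (mem_univ _)) fun _ a b => (b (ha.1 a)).elim, fun _ _ => rfl⟩, hB, ha⟩

theorem Ab.zer {F : Fam Empty Empty R J K} (h : Ab F) (j : J) : j ∈ F.zer ↔ j ∉ F.mov :=
  ⟨fun a => disjoint_left.1 h.nice.zer_base a, fun a => h.abs.1 a⟩

theorem Ab.cp {F : Fam Empty Empty R J K} (_ : Ab F) : F.Cp :=
  have : Finite (F.Bs F.B) := Quot.finite _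
  inferInstance

theorem Ab.ok {F : Fam Empty Empty R J K} (h : Ab F) (hS : St.SelC) {k : ℕ} (hk : F.Big k) :
    F.ExOk k F.exC := (hS F k 1 univ 1 h.nice.toGood hk (subset_univ _) (one_mem _)).2

theorem act_tw (F : Wt Empty Empty R J) (t z) : (F.actT t z).2 = tw F.w t.2 z.2 :=
  funext fun j => by simp [Wt.actT, tw]

/-- The fields `T` with the equations `g` are added; those in `T₀` vanish. -/
noncomputable def addF (F : Fam Empty Empty R J K) (w : T → R → ℤ) (χ : K' → R → ℤ)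
    (g : K' → MvPolynomial (J ⊕ T) ℂ) (O : Set (J ⊕ T → ℂ)) (T₀ : Set T) :
    Fam Empty Empty R (J ⊕ T) (K ⊕ K') where
  w := Sum.elim F.w w
  wt := Sum.elim F.wt 0
  wl := F.wl
  θ := F.θ
  χ := Sum.elim F.χ χ
  wk := Sum.elim F.wk 0
  G := Sum.elim (fun k => rename .inl (F.G k)) fun k => map C (g k)
  B := univ
  U := {z | (z.1, z.2 ∘ .inl) ∈ F.U ∧ z.2 ∈ O}
  E := univ
  mov := {j | Sum.elim (· ∈ F.mov) (· ∉ T₀) j}
  zer := {j | Sum.elim (· ∈ F.mov) (· ∉ T₀) j}ᶜ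

/-- The new fields are determined by the new equations. -/
structure Add (F : Fam Empty Empty R J K) (w : T → R → ℤ) (χ : K' → R → ℤ)
    (g : K' → MvPolynomial (J ⊕ T) ℂ) (O : Set (J ⊕ T → ℂ)) (T₀ : Set T)
    (σ : (J → ℂ) → T → ℂ) : Prop where
  ab : Ab F
  hom : ∀ k, WHom (Sum.elim F.w w) (χ k) (g k)
  deg : ∀ k, (g k).totalDegree ≠ 0
  opn : IsOpen O
  inv : TInv (Sum.elim F.w w) O
  cont : ContinuousOn σ (Prod.snd '' F.cone)
  gr : ∀ z ∈ F.cone, ∀ x, (Sum.elim z.2 x ∈ O ∧ gv g (Sum.elim z.2 x) = 0 ∧ ∀ a ∈ T₀, x a = 0) ↔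
    x = σ z.2
  jac : ∀ z ∈ F.cone, ∀ ξ : T → ℂ, (∀ a ∈ T₀, ξ a = 0) →
    fderiv ℂ (gv g) (Sum.elim z.2 (σ z.2)) (Sum.elim 0 ξ) = 0 → ξ = 0

variable {F : Fam Empty Empty R J K} {w : T → R → ℤ} {χ : K' → R → ℤ}
  {g : K' → MvPolynomial (J ⊕ T) ℂ} {O : Set (J ⊕ T → ℂ)} {T₀ : Set T} {σ : (J → ℂ) → T → ℂ}
  {z : (Empty → ℂ) × (J ⊕ T → ℂ)} {k : ℕ}

theorem addF_fib (l : Empty → ℂ) (k : K') : ((addF F w χ g O T₀).fib l).F (.inr k) = g k := by
  change MvPolynomial.map (eval l) (MvPolynomial.map C (g k)) = g k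
  rw [MvPolynomial.map_map]
  exact (congrArg (MvPolynomial.map · _) (RingHom.ext fun _ => eval_C _)).trans
    (MvPolynomial.map_id _)

theorem addF_jac (z) (v : J ⊕ T → ℂ) (k : K') :
    ∑ j, (addF F w χ g O T₀).jac z (.inr k) j * v j = fderiv ℂ (gv g) z.2 v k := by
  have l : HasDerivAt (fun ε : ℂ => z.2 + ε • v) v 0 := by
    simpa using ((hasDerivAt_id (0 : ℂ)).smul_const v).const_add z.2
  simp only [Fam.jac, addF_fib, fderiv_gv]
  exact (hasDerivAt_eval (g k) z.2 v).unique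
    ((an_eval (g k) z.2).differentiableAt.hasFDerivAt.comp_hasDerivAt_of_eq 0 l (by simp))

theorem mem_addF (h : Ab F) : z ∈ (addF F w χ g O T₀).cone ↔ (z.1, z.2 ∘ .inl) ∈ F.cone ∧
    z.2 ∈ O ∧ gv g z.2 = 0 ∧ ∀ a ∈ T₀, z.2 (.inr a) = 0 := by
  have e : ∀ k, (addF F w χ g O T₀).eqn z (.inl k) = F.eqn (z.1, z.2 ∘ .inl) k := fun k => by
    simp only [Fam.eqn, Fam.fib, addF, Sum.elim_inl, map_rename, eval_rename]
  have e' : ∀ k, (addF F w χ g O T₀).eqn z (.inr k) = gv g z.2 k := fun k => by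
    rw [Fam.eqn, addF_fib]
    rfl
  simp only [Fam.mem_cone, Sum.forall, e, e', funext_iff]
  exact ⟨fun ⟨a, b, c, d⟩ => ⟨⟨⟨h.B ▸ trivial, h.abs.2 ▸ trivial, fun j i =>
    a.2.2 (.inl j) ((h.zer j).1 i)⟩, b.1, c⟩, b.2, d, fun x i => a.2.2 (.inr x) fun m => m i⟩,
    fun ⟨⟨a, b, c⟩, d, e, f⟩ => ⟨⟨trivial, trivial, Sum.rec (fun j i => a.2.2 j ((h.zer j).2 i))
      fun x i => f x (not_not.1 i)⟩, ⟨b, d⟩, c, e⟩⟩

namespace Add

variable (h : Add F w χ g O T₀ σ)
include h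

theorem finv : (addF F w χ g O T₀).Inv where
  hom k α a i := by
    cases k with
    | inl k =>
      obtain ⟨β, b, -, -, c⟩ := ren_sup Sum.inl_injective a
      exact (c _).trans (h.ab.nice.hom k β b i)
    | inr k => exact h.hom k α (support_map_subset _ _ a) i
  homS _ _ _ _ _ i := i.elim
  openU := (h.ab.nice.openU.preimage (by fun_prop)).inter (h.opn.preimage continuous_snd)
  invU t a z b := ⟨h.ab.nice.invU t a _ b.1, act_tw _ t z ▸ h.inv _ (Prod.isUnit_iff.1 a).2 _ b.2⟩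
  closedE := isClosed_univ
  invE _ _ _ _ := trivial
  baseE _ _ _ _ _ := trivial
  zer_base := disjoint_compl_left
  lcB := isClosed_univ.isLocallyClosed
  invB _ _ _ _ := trivial

theorem mem : z ∈ (addF F w χ g O T₀).cone ↔ (z.1, z.2 ∘ .inl) ∈ F.cone ∧
    z.2 ∘ .inr = σ (z.2 ∘ .inl) :=
  (mem_addF h.ab).trans (and_congr_right fun a => by
    simpa only [Sum.elim_comp_inl_inr, comp_apply] using h.gr _ a (z.2 ∘ .inr))

theorem grf : F.Grf (addF F w χ g O T₀) .inl .inl fun u => Sum.elim u.2 (σ u.2) where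
  inj := Sum.inl_injective
  w _ := rfl
  wt _ := rfl
  wl := rfl
  θ := rfl
  B := h.ab.B.symm
  E _ _ := h.ab.abs.2 ▸ trivial
  mov _ := Iff.rfl
  zer j := (h.ab.zer j).1
  new _ _ a := a
  G _ := rfl
  cone z := h.mem.trans (and_congr_right' ⟨fun a => by rw [← a, Sum.elim_comp_inl_inr],
    fun a => congrArg (· ∘ Sum.inr) a⟩)
  sec _ _ := rfl
  cont := continuousOn_pi.2 fun j => by
    cases j
    exacts [((continuous_apply _).comp continuous_snd).continuousOn, continuousOn_pi.1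
      (h.cont.comp continuousOn_snd (mapsTo_image _ _)) _]
  jac z a η b c := by
    obtain ⟨d, e⟩ := h.mem.1 a
    have f := h.jac _ d (η ∘ .inr) (fun x i => (mem_vert.1 b).1 (.inr x) fun m => m i) (by
      rw [← e, ← c, Sum.elim_comp_inl_inr, Sum.elim_comp_inl_inr]
      funext k
      rw [← addF_jac (F := F) (w := w) (χ := χ) (O := O) (T₀ := T₀)]
      exact (mem_vert.1 b).2 (.inr k))
    rw [← Sum.elim_comp_inl_inr η, c, f, Sum.elim_zero_zero]

theorem reg {K₀} (a : F.Reg K₀) : (addF F w χ g O T₀).Reg K₀ := h.grf.reg h.ab.nice.toInv h.finv a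

theorem ab' : Ab (addF F w χ g O T₀) :=
  .of rfl ⟨subset_rfl, rfl⟩ (h.grf.good h.ab.nice.toGood h.finv fun k => by
    cases k with
    | inl k => exact ren_deg Sum.inl_injective (h.ab.nice.deg k)
    | inr k =>
      change (MvPolynomial.map C (g k)).totalDegree ≠ 0
      rw [totalDegree, support_map_of_injective _ (C_injective _ _)]
      exact h.deg k) (h.reg h.ab.nice.reg.choose_spec)

theorem zero : Add F w (Empty.elim : Empty → _) Empty.elim univ univ 0 :=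
  ⟨h.ab, nofun, nofun, isOpen_univ, fun _ _ _ _ => trivial, continuousOn_const, fun _ _ _ =>
    ⟨fun a => funext fun x => a.2.2 x trivial, fun a => ⟨trivial, Subsingleton.elim _ _,
      fun _ _ => congrFun a _⟩⟩, fun _ _ _ a _ => funext fun x => a x trivial⟩

theorem zf_eq {y : J ⊕ T → ℂ} (a : ∀ x ∈ T₀, y (.inr x) = 0) :
    zf (.inr '' T₀ᶜ) y = Sum.elim (y ∘ .inl) 0 := funext fun j => by
  have _ := h
  cases j with
  | inl j => simp [zf]
  | inr x => by_cases b : x ∈ T₀ <;> simp [zf, b, a]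

theorem detH : (addF F w (Empty.elim : Empty → _) Empty.elim univ univ).DetH (addF F w χ g O T₀)
    (.inr '' T₀ᶜ) (Sum.map id Empty.elim) := by
  have n : ∀ j : J, .inl j ∉ (.inr '' T₀ᶜ : Set (J ⊕ T)) := fun j => by simp
  have n' : ∀ x ∈ T₀, .inr x ∉ (.inr '' T₀ᶜ : Set (J ⊕ T)) := fun x a => by simpa using a
  refine ⟨rfl, rfl, rfl, Set.ext ?_, Set.ext ?_, ?_, ?_, ?_, ?_, fun z a y b c => ?_,
    fun l y y' a b c => ?_, fun z a => ?_, fun z a y _ c η d => ?_, fun z a η b c =>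
      h.grf.jac z a η b (funext fun j => c _ (n j))⟩
  · rintro (j | x) <;> simp [addF]
  · rintro (j | x) <;> simp [addF]
  · rintro _ ⟨x, -, rfl⟩ a
    exact a trivial
  · rintro (k | ⟨⟨⟩⟩)
    rfl
  · rintro (k | ⟨⟨⟩⟩)
    rfl
  · rintro (k | ⟨⟨⟩⟩) α a _ ⟨x, -, rfl⟩
    exact (ren_sup Sum.inl_injective a).choose_spec.2.2.1 _ (by simp)
  · refine h.zero.mem.2 ⟨?_, funext fun x => ?_⟩
    · rw [show y ∘ .inl = z.2 ∘ .inl from funext fun j => c _ (n j)]
      exact (h.mem.1 a).1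
    · by_cases d : x ∈ T₀
      exacts [(c _ (n' x d)).trans (((mem_addF h.ab).1 a).2.2.2 x d), b _ ⟨x, d, rfl⟩]
  · rw [show y = _ from ((h.grf.cone _).1 a).2, show y' = _ from ((h.grf.cone _).1 b).2,
      show y ∘ .inl = y' ∘ .inl from funext fun j => c _ (n j)]
  · obtain ⟨Φ, b, c⟩ := h.grf.hol (h.zero.mem.1 a).1
    have t : AnalyticAt ℂ (fun x : (Empty → ℂ) × (J ⊕ T → ℂ) => (x.1, x.2 ∘ Sum.inl)) z :=
      analyticAt_fst.prod (analyticAt_pi_iff.2 fun j => analyticAt_pi_iff.1 analyticAt_snd _)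
    refine ⟨_, AnalyticAt.comp b t, (t.continuousAt.eventually c).mono fun x d e => ?_⟩
    obtain ⟨e1, e2⟩ := h.zero.mem.1 e
    have f := h.grf.up e1
    rw [comp_apply, ← d e1]
    refine ⟨?_, f⟩
    rintro (j | j) i
    exacts [rfl, (((mem_addF h.ab).1 f).2.2.2 j (not_not.1 fun m => i ⟨j, m, rfl⟩)).trans
      (congrFun e2 j).symm]
  · have e := h.zero.grf.vert_map d
    rw [show y ∘ .inl = z.2 ∘ .inl from funext fun j => c _ (n j)] at e
    obtain ⟨η', f, i⟩ := h.grf.vert_srj h.ab.nice.toInv h.finv h.ab.nice.reg.choose_spec a e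
    refine ⟨η', f, ?_⟩
    rintro (j | j) m
    exacts [congrFun i j, ((mem_vert.1 f).1 (.inr j) fun o => m ⟨j, o, rfl⟩).trans
      ((mem_vert.1 d).1 (.inr j) fun o => o trivial).symm]

theorem pres : F.Pres (addF F w (Empty.elim : Empty → _) Empty.elim univ univ) .inl
    (Empty.elim : Empty → _) (fun r => Pi.single r 1) (Sum.elim X 0) := by
  have e : ∀ u : (Empty → ℂ) × (J → ℂ), evσ (Sum.elim X 0) u = (u.1, Sum.elim u.2 (0 : T → ℂ)) :=
    fun u => Prod.ext rfl (funext fun j => by cases j <;> simp [evσ, evz])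
  refine ⟨Sum.inl_injective, rfl, h.ab.B.symm, fun _ => rfl, nofun, ?_, fun _ _ _ _ _ a => a.elim,
    fun d a => funext fun r => by simpa [Pi.single_apply] using a r,
    fun d _ => ⟨d, funext fun r => by simp [Pi.single_apply]⟩, fun _ => ⟨0, nofun⟩, fun z => ?_,
    fun _ => Iff.rfl, fun j => (h.ab.zer j).symm, fun _ _ _ _ => h.ab.abs.2 ▸ trivial,
    fun _ _ a => .inl a, fun _ _ _ _ _ => iff_of_true trivial
      ⟨1, isUnit_one, fun _ _ a b => (b a).elim⟩⟩
  · classical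
    rintro (j | j) α a r
    · obtain rfl := Finset.mem_singleton.1 (support_X.le a)
      simp [Finsupp.single_apply, Pi.single_apply, addF]
    · simp at a
  · refine ⟨fun a => ⟨1, isUnit_one, _, (h.zero.mem.1 a).1, ?_⟩, ?_⟩
    · rw [e]
      refine Eq.trans ?_ (Wt.actT_one _ _).symm
      exact Prod.ext rfl ((h.zero.grf.cone z).1 a).2
    · rintro ⟨t, a, u, b, rfl⟩
      exact h.zero.finv.cone_act (Prod.isUnit_iff.2 ⟨isUnit_one, a⟩) (e u ▸ h.zero.grf.up b)

/-- **The invariants do not change.** -/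
theorem cmp (hD : DET) (hZ : St.PresZ) (hS : St.SelC) (hk : F.Big k) (d : R → ℤ) :
    Cmp (addF F w χ g O T₀) k d F k d (· ∘ .inl) := fun j l₁ l₂ => by
  obtain ⟨K₀, r⟩ := h.ab.nice.reg
  have z := h.zero
  have k0 := z.grf.big hk
  have e1 : Tq.Eqv F.actT (addF F w (Empty.elim : Empty → _) Empty.elim univ univ).actT F.cone
      (addF F w (Empty.elim : Empty → _) Empty.elim univ univ).cone (evσ (Sum.elim X 0)) := by
    have e : evσ (Sum.elim X 0) = fun u : (Empty → ℂ) × (J → ℂ) =>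
        (u.1, Sum.elim u.2 (0 : T → ℂ)) :=
      funext fun u => Prod.ext rfl (funext fun j => by cases j <;> simp [evσ, evz])
    rw [e]
    exact ⟨fun _ a => z.grf.up a, continuousOn_fst.prodMk z.grf.cont, fun t a u b =>
      ⟨t, a, Prod.ext rfl (z.grf.σ_act z.finv a b)⟩⟩
  have e2 : Tq.Eqv (addF F w χ g O T₀).actT
      (addF F w (Empty.elim : Empty → _) Empty.elim univ univ).actT (addF F w χ g O T₀).cone
      (addF F w (Empty.elim : Empty → _) Empty.elim univ univ).cone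
      (Prod.map id (zf (.inr '' T₀ᶜ))) :=
    ⟨fun x a => h.detH.down x a _ (fun _ b => if_pos b) fun _ b => if_neg b,
      Continuous.continuousOn (continuous_id.prodMap (continuous_pi fun j => by
        unfold zf
        split_ifs
        exacts [continuous_const, continuous_apply j])), fun t a x _ => ⟨t, a, Prod.ext rfl
          (funext fun j => by by_cases b : j ∈ (.inr '' T₀ᶜ : Set (J ⊕ T)) <;>
            simp only [Prod.map, Wt.actT, zf, b, if_true, if_false, mul_zero] <;> rfl)⟩⟩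
  have a := (hZ F _ _ _ _ _ k k F.exC.P (fun _ _ m => m.Conn) 1 h.pres h.ab.abs.1
    (.of_abs z.ab'.abs.1 _) nofun h.ab.nice z.ab'.nice h.ab.cp hk k0 (h.ab.ok hS hk)
    (by rw [map_one]; exact z.ab'.ok hS k0) (fun _ _ _ _ => Iff.rfl) subset_rfl j
    (l₁.map (Prod.map id (Wt.pb _ F.toWt (Prod.map id (· ∘ .inl)) _))) l₂).1 d
  have b := hD _ _ _ _ K₀ k (fun _ _ m => m.Conn) (fun _ _ m => m.Conn) h.detH rfl z.ab'.nice
    h.ab'.nice (z.reg r) (h.reg r) z.ab'.cp k0 (h.grf.big hk) (z.ab'.ok hS k0)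
    (h.ab'.ok hS (h.grf.big hk)) (fun _ _ _ _ => Iff.rfl) subset_rfl d j
    (l₁.map (Prod.map id (Wt.pb _ F.toWt (Prod.map id (· ∘ .inl)) _))) l₂
  rw [map_one, show (fun r' => ∑ r, Pi.single (M := fun _ => ℤ) r' 1 r * d r) = d from
    funext fun r => by simp [Pi.single_apply], b, List.map_map, List.map_map] at a
  refine Eq.trans ?_ (a.symm.trans ?_)
  · refine congrArg (F.cor k _ 0 _ _ d j · l₂ []) ((List.map_id _).symm.trans
      (List.map_congr_left fun x _ => Prod.ext rfl ?_))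
    refine Eq.trans ?_ (Wt.pb_pb e1 z.grf.eqv x.2).symm
    rw [show (fun u => Prod.map id (· ∘ Sum.inl) (evσ (Sum.elim X 0 : J ⊕ T → _) u)) = id from
      funext fun u => Prod.ext rfl (funext fun j => by simp [evσ, evz]), Wt.pb_id subset_rfl,
      Wt.rs_self]
    rfl
  · refine congrArg ((addF F w χ g O T₀).cor k _ 0 _ _ d j · l₂ [])
      (List.map_congr_left fun x _ => Prod.ext rfl ?_)
    refine (Wt.pb_pb e2 z.grf.eqv x.2).trans ?_
    exact congrArg (Wt.pb _ _ · _ x.2) (funext fun u => Prod.ext rfl (funext fun j => by simp [zf]))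

end Add

/-- The statement on multicones. -/
theorem addG (hG : GRQ) (hD : DET) (hZ : St.PresZ) (hS : St.SelC) : ADDH := by
  intro J R K T _ _ _ _ _ F π A n w σ T₀ k hA hM hk h1 h2 h3
  obtain ⟨m, χ, g, a, b, c, d⟩ := hG w σ hA h1 h2
  have h : Add F w χ g univ T₀ σ := ⟨⟨hM.nice, hM.B, hM.abs, hM.E⟩, hM.w ▸ a, b, isOpen_univ,
    fun _ _ _ _ => trivial, fun y ⟨z, e, f⟩ => ((h1 y (f ▸ (hM.cone z).1 e)).tendsto
      (f ▸ (hM.cone z).1 e)).mono_left (nhdsWithin_mono _ fun _ ⟨z, e, f⟩ => f ▸ (hM.cone z).1 e),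
    fun z e x => ⟨fun f => (c _ ((hM.cone z).1 e) x).1 f.2.1, fun f => ⟨trivial,
      (c _ ((hM.cone z).1 e) x).2 f, f ▸ h3 _ ((hM.cone z).1 e)⟩⟩,
    fun z e ξ _ => d _ ((hM.cone z).1 e) ξ⟩
  exact ⟨_, inferInstance, addF F w χ g univ T₀, h.ab'.nice, h.grf.big hk, hM.w ▸ rfl, rfl, rfl,
    rfl, fun _ => Iff.rfl, fun _ => Iff.rfl, fun z => h.mem.trans (and_congr_left' (hM.cone _)),
    h.cmp hD hZ hS hk⟩

end Vale.Agent.P287Q.Emb
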