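import Vale.Agent.P287Q.Emb.AddH1

/-!
# New fields that are holomorphic functions on the multicone do not change the invariants
-/

namespace Vale.Agent.P287Q.Emb

open Set Function Topology Filter MvPolynomial P269 P269.Holo AddH

variable {J R K T I : Type} [Fintype J] [Fintype R] [Fintype K] [Fintype T] [Fintype I]
  [DecidableEq R] {F : Fam Empty Empty R J K} {π : J → R} {A : Set (J → ℂ)} {w : T → R → ℤ}
  {σ : (J → ℂ) → T → ℂ} {T₀ : Set T} {χ : I → R → ℤ} {g : I → MvPolynomial (J ⊕ T) ℂ} {k : ℕ}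

theorem Mdl.eq_addH (h : Mdl F π A) : EQ (addH F w T₀ χ g) F (· ∘ .inl) :=
  ⟨fun _ => down h, by fun_prop, fun a b _ _ => ⟨a, b, rfl⟩⟩

theorem Mdl.eq_addZ (h : Mdl F π A) : EQ F (addZ F w) (Sum.elim · 0) :=
  ⟨fun z a => (grD_zero.cone h).2 ⟨(h.cone z).1 a, rfl⟩, (continuous_id.prodMap
    (continuous_pi (Sum.rec (fun j => continuous_apply j) fun _ => continuous_const))).continuousOn,
    fun a b _ _ => ⟨a, b, Prod.ext rfl (funext (Sum.rec (fun _ => rfl) fun _ => (mul_zero _).symm))⟩⟩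

theorem GrD.eq_zf (D : GrD π A w σ T₀ χ g) (h : Mdl F π A) :
    EQ (addH F w T₀ χ g) (addZ F w) (zf (.inr '' T₀ᶜ)) := by
  refine ⟨fun z a => (D.detH h).down z a _ (fun _ b => if_pos b) fun _ b => if_neg b,
    (continuous_id.prodMap (continuous_pi fun j => ?_)).continuousOn,
    fun a b z _ => ⟨a, b, Prod.ext rfl (funext fun j => ?_)⟩⟩
  · unfold zf
    split_ifs
    exacts [continuous_const, continuous_apply j]
  · by_cases e : j ∈ Sum.inr '' T₀ᶜ
    · exact (if_pos e).trans ((congrArg (_ * ·) (if_pos e)).trans (mul_zero _)).symm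
    · exact (if_neg e).trans (congrArg (HMul.hMul _) (if_neg e)).symm

theorem GrD.cmp (hD : DET) (hZ : St.PresZ) (hS : St.SelC) (D : GrD π A w σ T₀ χ g)
    (h : Mdl F π A) (hk : F.Big k) (d : R → ℤ) : Cmp (addH F w T₀ χ g) k d F k d (· ∘ .inl) := by
  obtain ⟨K₀, hR⟩ := h.nice.reg
  have Z := grD_zero (π := π) (A := A) (w := w)
  have a : Cmp (addH F w T₀ χ g) k d (addZ F w) k d (zf (.inr '' T₀ᶜ)) :=
    hD _ _ _ _ K₀ k (fun _ _ m => m.Conn) (fun _ _ m => m.Conn) (D.detH h) rfl (Z.nice h)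
      (D.nice h) (Z.reg h hR) (D.reg h hR) cp (big h hk) (big h hk) (exOk hS (Z.good h) (big h hk))
      (exOk hS (D.good h) (big h hk)) (fun _ _ _ _ => Iff.rfl) Subset.rfl d
  have b := (cmp_of_pres hZ hS (h.pres_addZ (w := w)) h.abs Subset.rfl (·.elim) h.nice (Z.nice h)
    hk (big h hk) _ evσ_addZ).1 d
  rw [show mv (fun r => Pi.single r 1) d = d from funext fun r => by simp [mv, Pi.single_apply]] at b
  have c := a.trans (b.symm h.eq_addZ h.eq_addH fun z _ => ⟨1, isUnit_one, (F.actT_one z).symm⟩)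
    (D.eq_zf h) h.eq_addH
  rwa [show (fun y => zf (.inr '' T₀ᶜ) y ∘ .inl) = fun y : J ⊕ T → ℂ => y ∘ Sum.inl from
    funext fun _ => funext fun _ => if_neg fun ⟨_, _, e⟩ => nomatch e] at c

theorem addh (hG : GRQ) (hD : DET) (hZ : St.PresZ) (hS : St.SelC) : ADDH := by
  intro J R K T _ _ _ _ _ F π A n w σ T₀ k hA h hk h1 h2 h3
  obtain ⟨m, χ, g, a, b, c, d⟩ := hG w σ hA h1 h2
  have D : GrD π A w σ T₀ χ g := ⟨h1, h3, a, b, fun y e x _ => c y e x, fun y e ξ _ => d y e ξ⟩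
  exact ⟨_, inferInstance, addH F w T₀ χ g, D.nice h, big h hk, congrArg (Sum.elim · w) h.w, h.B,
    rfl, rfl, fun _ => Iff.rfl, fun _ => Iff.rfl, fun _ => D.cone h, D.cmp hD hZ hS h hk⟩

end Vale.Agent.P287Q.Emb
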