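import Vale.Agent.P287Q.Emb.Defs
import Vale.Agent.P287Q.G.Prj.Tgt
import Vale.Agent.P287Q.Pv.Fam

/-!
# Independence of the embedding: the calculus of `Cmp`, `Van`, `Mdl`
-/

set_option linter.unusedSectionVars false

namespace Vale.Agent.P287Q.Emb

open Set Function Topology Filter MvPolynomial P291Z P269 P269.Holo

variable {R J K R' J' K' R'' J'' K'' I : Type} [Fintype R] [Fintype J] [Fintype K] [Fintype R']
  [Fintype J'] [Fintype K'] [Fintype R''] [Fintype J''] [Fintype K''] [Fintype I] [DecidableEq R]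
  [DecidableEq R'] [DecidableEq R''] {F : Fam Empty Empty R J K} {F' : Fam Empty Empty R' J' K'}
  {F'' : Fam Empty Empty R'' J'' K''} {k k' k'' : ℕ} {d : R → ℤ} {d' : R' → ℤ} {d'' : R'' → ℤ}
  {f f' : (J → ℂ) → J' → ℂ}

/-- `f` induces a continuous map of the targets. -/
abbrev EQ (F : Fam Empty Empty R J K) (F' : Fam Empty Empty R' J' K') (f : (J → ℂ) → J' → ℂ) :
    Prop := Tq.Eqv F.actT F'.actT F.cone F'.cone (Prod.map id f)

theorem EQ.comp {g : (J' → ℂ) → J'' → ℂ} (h : EQ F F' f) (h' : EQ F' F'' g) :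
    EQ F F'' fun y => g (f y) := (Tq.Eqv.comp h h' :)

theorem EQ.pb_pb {g : (J' → ℂ) → J'' → ℂ} (h : EQ F F' f) (h' : EQ F' F'' g)
    (c : H (F''.X F''.cone)) : F.pb F'.toWt (Prod.map id f) F.cone
      (F'.pb F''.toWt (Prod.map id g) F'.cone c) =
      F.pb F''.toWt (Prod.map id fun y => g (f y)) F.cone c := Wt.pb_pb h h' c

theorem EQ.pb_congr (h : EQ F F' f) (h' : EQ F F' f')
    (e : ∀ z ∈ F.cone, ∃ t, IsUnit t ∧ Prod.map id f' z = F'.actT t (Prod.map id f z))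
    (c : H (F'.X F'.cone)) :
    F.pb F'.toWt (Prod.map id f') F.cone c = F.pb F'.toWt (Prod.map id f) F.cone c := by
  rw [Wt.pb_eq h, Wt.pb_eq h', h.qm_ext h' e]

theorem EQ.pb_pb_self {g : (J' → ℂ) → J → ℂ} (h : EQ F F' f) (h' : EQ F' F g)
    (e : ∀ z ∈ F.cone, ∃ t, IsUnit t ∧ Prod.map id g (Prod.map id f z) = F.actT t z)
    (c : H (F.X F.cone)) :
    F.pb F'.toWt (Prod.map id f) F.cone (F'.pb F.toWt (Prod.map id g) F'.cone c) = c := by
  rw [Wt.pb_pb h h', Wt.pb_eq (Tq.Eqv.comp h h')]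
  exact H.map_id ((Tq.Eqv.comp h h').qm_id e) c

theorem EQ.refl : EQ F F id := Tq.Eqv.incl Subset.rfl

theorem Cmp.refl : Cmp F k d F k d id := fun j l₁ l₂ =>
  congrArg (fun u => F.cor k F.exC 0 F.cone F.cone d j u l₂ [])
    ((List.map_id' l₁).symm.trans (congrArg (l₁.map ·) (funext fun x => Prod.ext rfl
      ((Wt.pb_id Subset.rfl x.2).trans (Wt.rs_self _ _)).symm)))

theorem Cmp.trans {g : (J' → ℂ) → J'' → ℂ} (h : Cmp F k d F' k' d' f)
    (h' : Cmp F' k' d' F'' k'' d'' g) (a : EQ F F' f) (b : EQ F' F'' g) :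
    Cmp F k d F'' k'' d'' fun y => g (f y) := fun j l₁ l₂ => by
  rw [h', h, List.map_map]
  exact congrArg (fun u => F.cor k F.exC 0 F.cone F.cone d j (l₁.map u) l₂ [])
    (funext fun x => Prod.ext rfl (a.pb_pb b x.2))

theorem Cmp.congr (h : Cmp F k d F' k' d' f) (a : EQ F F' f) (b : EQ F F' f')
    (e : ∀ z ∈ F.cone, ∃ t, IsUnit t ∧ Prod.map id f' z = F'.actT t (Prod.map id f z)) :
    Cmp F k d F' k' d' f' := fun j l₁ l₂ => by
  rw [h, funext (a.pb_congr b e)]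

theorem Cmp.symm {g : (J' → ℂ) → J → ℂ} (h : Cmp F k d F' k' d' f) (a : EQ F F' f) (b : EQ F' F g)
    (e : ∀ z ∈ F.cone, ∃ t, IsUnit t ∧ Prod.map id g (Prod.map id f z) = F.actT t z) :
    Cmp F' k' d' F k d g := fun j l₁ l₂ => by
  rw [h, List.map_map]
  exact congrArg (fun u => F.cor k F.exC 0 F.cone F.cone d j u l₂ [])
    ((List.map_id' l₁).symm.trans (congrArg (l₁.map ·)
      (funext fun x => Prod.ext rfl (a.pb_pb_self b e x.2).symm)))

theorem Cmp.van' (h : Cmp F k d F' k' d' f) (v : Van F k d) : Van F' k' d' :=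
  fun j l₁ l₂ => (h j l₁ l₂).trans (v j _ l₂)

theorem Cmp.van {g : (J' → ℂ) → J → ℂ} (h : Cmp F k d F' k' d' f) (a : EQ F F' f) (b : EQ F' F g)
    (e : ∀ z ∈ F.cone, ∃ t, IsUnit t ∧ Prod.map id g (Prod.map id f z) = F.actT t z)
    (v : Van F' k' d') : Van F k d := (h.symm a b e).van' v

theorem actT_eq {π : J → R} (hw : F.w = bw π) (t : (Empty → ℂ) × (R → ℂ))
    (z : (Empty → ℂ) × (J → ℂ)) : F.actT t z = (z.1, scl π t.2 z.2) :=
  Prod.ext (Subsingleton.elim _ _) (funext fun j => by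
    change (∏ i, t.1 i ^ F.wt j i) * (∏ r, t.2 r ^ F.w j r) * z.2 j = _
    rw [hw, prod_bw, Fintype.prod_empty, one_mul]
    rfl)

variable {π : J → R} {A : Set (J → ℂ)} {π' : J' → R'} {A' : Set (J' → ℂ)}

/-- Maps of multicones that are continuous and map orbits to orbits. -/
theorem Mdl.eq_of (h : Mdl F π A) (h' : Mdl F' π' A') (hm : MapsTo f A A') (hc : ContinuousOn f A)
    (he : ∀ t, IsUnit t → ∀ y ∈ A, Orb π' (f y) (f (scl π t y))) : EQ F F' f :=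
  ⟨fun z hz => (h'.cone _).2 (hm ((h.cone z).1 hz)), continuousOn_fst.prodMk
    (hc.comp continuousOn_snd fun z hz => (h.cone z).1 hz), fun t ht z hz => by
      obtain ⟨s, a, b⟩ := he t.2 (Prod.isUnit_iff.1 ht).2 z.2 ((h.cone z).1 hz)
      refine ⟨(1, s), Prod.isUnit_iff.2 ⟨isUnit_one, a⟩, ?_⟩
      rw [actT_eq h.w, actT_eq h'.w]
      exact Prod.ext rfl b⟩

theorem isUnit_mv (M : R' → R → ℤ) {t : R → ℂ} (ht : IsUnit t) :
    IsUnit fun r' => ∏ r, t r ^ M r' r :=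
  Pi.isUnit_iff.2 fun _ => (Finset.prod_ne_zero_iff.2 fun r _ =>
    zpow_ne_zero _ (Pi.isUnit_iff.1 ht r).ne_zero).isUnit

theorem Mdl.eq {M : R' → R → ℤ} (h : Mdl F π A) (h' : Mdl F' π' A') (m : Hm π A π' A' M f) :
    EQ F F' f :=
  h.eq_of h' m.mem (fun y hy => (m.hol y hy).tendsto hy)
    fun t ht y hy => ⟨_, isUnit_mv M ht, m.eqv t ht y hy⟩

/-- The form of the hypothesis `e` of `Cmp.symm` for models. -/
theorem Mdl.orb {g : (J' → ℂ) → J → ℂ} (h : Mdl F π A) (e : ∀ y ∈ A, Orb π y (g (f y))) :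
    ∀ z ∈ F.cone, ∃ t, IsUnit t ∧ Prod.map id g (Prod.map id f z) = F.actT t z := fun z hz =>
  let ⟨t, a, b⟩ := e z.2 ((h.cone z).1 hz)
  ⟨(1, t), Prod.isUnit_iff.2 ⟨isUnit_one, a⟩, by rw [actT_eq h.w]; exact Prod.ext rfl b⟩

/-- The form of the hypothesis `e` of `Cmp.congr` for models. -/
theorem Mdl.orb' (h : Mdl F π A) (hw : F'.w = bw π') (e : ∀ y ∈ A, Orb π' (f y) (f' y)) :
    ∀ z ∈ F.cone, ∃ t, IsUnit t ∧ Prod.map id f' z = F'.actT t (Prod.map id f z) := fun z hz =>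
  let ⟨t, a, b⟩ := e z.2 ((h.cone z).1 hz)
  ⟨(1, t), Prod.isUnit_iff.2 ⟨isUnit_one, a⟩, by rw [actT_eq hw]; exact Prod.ext rfl b⟩

theorem nice_abs (h : F.Good) (hr : ∃ K₀, F.Reg K₀) (hB : F.B = univ) (hE : F.E = univ)
    (ha : F.movᶜ ⊆ F.zer) : F.Nice 0 where
  toGood := h
  reg := hr
  sm := ⟨_, fun l => ((MfdAt.univ l.1).congr (.of_forall fun _ => by simp [hB])).isMfd l.2⟩
  pol := ⟨∅, nofun, hE.trans (eq_univ_of_forall fun _ _ e => nomatch e).symm⟩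
  sh := ⟨0, nofun, 0, 1, nofun, linearIndependent_empty_type, nofun, fun _ a b => (b (ha a)).elim,
    fun _ _ _ => ⟨analyticAt_const, one_ne_zero⟩, fun _ a b => (b (ha a)).elim,
    fun _ a b => (b (ha a)).elim, fun _ _ _ _ _ =>
      iff_of_true (hE.ge (mem_univ _)) fun _ a b => (b (ha a)).elim, fun _ _ => rfl⟩

theorem cp : F.Cp :=
  haveI : Finite (F.Bs F.B) := Finite.of_surjective _ Quot.mk_surjective
  inferInstance

theorem exOk (hS : St.SelC) (h : F.Good) (hk : F.Big k) : F.ExOk k F.exC :=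
  (hS F k 1 univ 1 h hk (subset_univ _) (one_mem _)).2

theorem cmp_of_pres (hZ : St.PresZ) (hS : St.SelC) {φ : J → J'} {s : I → J'} {M : R' → R → ℤ}
    {σ : J' → MvPolynomial J (MvPolynomial Empty ℂ)} (h : F.Pres F' φ s M σ) (ha : F.movᶜ ⊆ F.zer)
    (ha' : F'.movᶜ ⊆ F'.zer) (hs : ∀ i, s i ∉ F'.zer) (hN : F.Nice 0) (hN' : F'.Nice 0)
    (hk : F.Big k) (hk' : F'.Big k') (f : (J → ℂ) → J' → ℂ) (hf : ∀ z, evσ σ z = Prod.map id f z) :
    (∀ d, Cmp F k d F' k' (mv M d) f) ∧ ∀ d', (∀ d, d' ≠ mv M d) → Van F' k' d' := by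
  have a := hZ F F' φ s M σ k k' (fun _ _ m => m.Conn) (fun _ _ m => m.Conn) 1 h ha
    (.of_abs ha' s) hs hN hN' cp hk hk' (exOk hS hN.toGood hk)
    (by rw [map_one]; exact exOk hS hN'.toGood hk') (fun _ _ _ _ => Iff.rfl) Subset.rfl
  rw [map_one, funext hf] at a
  exact ⟨fun d j l₁ l₂ => (a j l₁ l₂).1 d, fun d' e j l₁ l₂ => (a j l₁ l₂).2 d' e⟩

theorem Mdl.of_tg (h : F.Tg) (hw : F.w = bw π) (hc : ∀ z, z ∈ F.cone ↔ z.2 ∈ A) : Mdl F π A :=
  have a : F.movᶜ ⊆ F.zer := fun _ a => (a (h.mov.ge (mem_univ _))).elim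
  ⟨nice_abs h.toGood h.reg h.B h.E a, hw, h.B, h.E, a, hc⟩

theorem mdl_fam [Nonempty J] {δ γ : R → ℤ} {g : K → MvPolynomial J ℂ} {n : ℕ}
    (h : Cut π (Ust π) A δ g) (hA : PV π A n) (hδ : ∀ r, 0 < δ r) (hg : ∀ k, g k ≠ 0)
    (hD : Det π A (n + Fintype.card R) γ) : Mdl (fam π δ g) π A :=
  .of_tg (fam_tg h hA hδ hg hD) rfl fun _ => fam_cone h

end Vale.Agent.P287Q.Emb
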