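import Vale.Agent.P287Q.Pv.Chow
import Vale.Agent.P287Q.Pv.Slc

/-!
# Polynomial equations for the graph of holomorphic equivariant fields
-/

set_option linter.unusedSectionVars false

open Set Filter Topology Function MvPolynomial

noncomputable section

namespace Vale.Agent.P287Q

open P269 P269.Holo

variable {J R S T I : Type} [Fintype J] [Fintype R] [Fintype S] [Fintype T] [Fintype I]
  {π : J → R} {A : Set (J → ℂ)} {n : ℕ} {σ : (J → ℂ) → T → ℂ} {ω : T → R → ℤ} {w v : J ⊕ T → ℂ}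

/-- The graph of `σ` over `A`. -/
def grS (A : Set (J → ℂ)) (σ : (J → ℂ) → T → ℂ) : Set (J ⊕ T → ℂ) :=
  {w | w ∘ .inl ∈ A ∧ w ∘ .inr = σ (w ∘ .inl)}

namespace Gr0

open Chow1 Classical

theorem an_crd (j : J) (y : J → ℂ) : AnalyticAt ℂ (fun y : J → ℂ => y j) y :=
  (ContinuousLinearMap.proj (R := ℂ) (φ := fun _ : J => ℂ) j).analyticAt y

theorem an_cmp (i : I → J) (y : J → ℂ) : AnalyticAt ℂ (fun y : J → ℂ => y ∘ i) y :=
  analyticAt_pi_iff.2 fun _ => an_crd _ y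

theorem hol_elim {W : Type*} [NormedAddCommGroup W] [NormedSpace ℂ W] {B : Set W} {x : W}
    {f : W → J → ℂ} {g : W → I → ℂ} (hx : x ∈ B) (h : HolOn B f x) (h' : HolOn B g x) :
    HolOn B (fun s => Sum.elim (f s) (g s)) x :=
  .pi fun j => by
    cases j
    exacts [h.comp_an hx (an_crd _ _), h'.comp_an hx (an_crd _ _)]

/-- The graph of a holomorphic map to projective space. -/
theorem pv_gr (h : PV π A n) {Φ : (J → ℂ) → I → ℂ} (h1 : ∀ y ∈ A, HolOn A Φ y)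
    (h2 : ∀ y ∈ A, Φ y ≠ 0) (h3 : ∀ t, IsUnit t → ∀ y ∈ A, ∃ c ≠ (0 : ℂ), Φ y = c • Φ (scl π t y)) :
    PV (blP I π) {u | u ∘ .inl ∈ A ∧ ∃ c ≠ (0 : ℂ), u ∘ .inr = c • Φ (u ∘ .inl)} n := by
  refine ⟨⟨?_, ?_, fun u hu hU => ?_⟩, ?_⟩
  · rintro u ⟨a, c, hc, e⟩ (_ | r)
    · obtain ⟨i, b⟩ := ne_iff.1 (h2 _ a)
      exact ⟨.inr i, rfl, (congrFun e i).trans_ne (mul_ne_zero hc b)⟩
    · obtain ⟨j, b, d⟩ := h.sub a r
      exact ⟨.inl j, congrArg some b, d⟩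
  · rintro t ht u ⟨a, c, hc, e⟩
    have b : IsUnit (t ∘ some) := unit_iff.2 fun _ => unit_iff.1 ht _
    obtain ⟨d, hd, f⟩ := h3 _ b _ a
    refine ⟨h.inv _ b _ a, t none * c * d, mul_ne_zero (mul_ne_zero (unit_iff.1 ht _) hc) hd, ?_⟩
    rw [mul_smul, mul_smul]
    exact (congrArg (t none • ·) (e.trans (congrArg (c • ·) f)) :)
  · have k : Continuous fun u : J ⊕ I → ℂ => u ∘ .inl := by fun_prop
    have a : u ∘ .inl ∈ A := h.cl _ (map_mem_closure (f := fun u : J ⊕ I → ℂ => u ∘ .inl) k hu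
      fun _ b => b.1) fun r => by
      obtain ⟨j | j, b, c⟩ := hU (some r)
      exacts [⟨j, Option.some.inj b, c⟩, (nomatch b)]
    obtain ⟨i, b⟩ := ne_iff.1 (h2 _ a)
    have := mem_closure_iff_nhdsWithin_neBot.1 hu
    have t1 := ((h1 _ a).tendsto a).comp (tendsto_inf.2 ⟨k.continuousAt.tendsto.mono_left
      nhdsWithin_le_nhds, tendsto_principal.2 (eventually_nhdsWithin_of_forall (s := {u | u ∘ .inl ∈
        A ∧ ∃ c ≠ (0 : ℂ), u ∘ .inr = c • Φ (u ∘ .inl)}) fun _ b => b.1)⟩)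
    have t2 := fun j => ((continuous_apply j).tendsto u).mono_left (nhdsWithin_le_nhds (s := {u |
      u ∘ .inl ∈ A ∧ ∃ c ≠ (0 : ℂ), u ∘ .inr = c • Φ (u ∘ .inl)}))
    have e : u ∘ .inr = (u (.inr i) / Φ (u ∘ .inl) i) • Φ (u ∘ .inl) := funext fun j => by
      rw [Pi.smul_apply, smul_eq_mul, div_mul_eq_mul_div, eq_div_iff b]
      refine tendsto_nhds_unique_of_eventuallyEq ((t2 (.inr j)).mul (tendsto_pi_nhds.1 t1 i))
        ((t2 (.inr i)).mul (tendsto_pi_nhds.1 t1 j)) (eventually_nhdsWithin_of_forall ?_)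
      rintro x ⟨-, c, -, e⟩
      exact (congrArg (· * _) (congrFun e j)).trans
        ((mul_right_comm _ _ _).trans (congrArg (· * _) (congrFun e i).symm))
    refine ⟨a, _, fun f => ?_, e⟩
    obtain ⟨j | j, c, d⟩ := hU none
    exacts [(nomatch c), d ((congrFun e j).trans (by rw [f, zero_smul]; rfl))]
  · rintro u ⟨a, c, hc, e⟩
    obtain ⟨i, b⟩ := ne_iff.1 (h2 _ a)
    have m := (h.mfd _ a).prod (MfdAt.univ c)
    have hx : (u ∘ .inl, c) ∈ A ×ˢ (univ : Set ℂ) := ⟨a, trivial⟩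
    have e0 : Sum.elim (u ∘ .inl) (c • Φ (u ∘ .inl)) = u := by rw [← e, Sum.elim_comp_inl_inr]
    have f1 : HolOn (A ×ˢ (univ : Set ℂ)) (fun x => Φ x.1) (u ∘ .inl, c) :=
      HolOn.comp (F := Prod.fst) (h1 _ a) (.of_an analyticAt_fst) hx (.of_forall fun _ b => b.1)
    have hu : u ∈ {u : J ⊕ I → ℂ | u ∘ .inl ∈ A ∧ ∃ c ≠ (0 : ℂ), u ∘ .inr = c • Φ (u ∘ .inl)} :=
      ⟨a, c, hc, e⟩
    have f2 := HolOn.comp (F := fun u : J ⊕ I → ℂ => u ∘ .inl) (h1 _ a) (.of_an (an_cmp _ u)) hu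
      (.of_forall fun _ b => b.1)
    rw [Module.finrank_self, add_assoc, ← Fintype.card_option] at m
    refine e0 ▸ m.iso' (F := fun x => Sum.elim x.1 (x.2 • Φ x.1))
      (G := fun u => (u ∘ .inl, u (.inr i) / Φ (u ∘ .inl) i))
      (hol_elim hx (.of_an analyticAt_fst) (((HolOn.of_an analyticAt_snd).prod f1).comp_an
        (G := fun x : ℂ × (I → ℂ) => x.1 • x.2) hx (analyticAt_fst.smul analyticAt_snd))) ?_ ?_ ?_
    · rw [e0]
      exact (HolOn.of_an (an_cmp _ u)).prod (((HolOn.of_an (an_crd (.inr i) u)).prod f2).comp_an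
        (G := fun x : ℂ × (I → ℂ) => x.1 / x.2 i) hu
        (analyticAt_fst.div ((an_crd i _).comp analyticAt_snd) b))
    · filter_upwards [continuousAt_snd.eventually_ne hc, f1.ev hx
        ((continuous_apply i).continuousAt.eventually_ne b)] with x a1 a2 a3
      exact ⟨⟨a3.1, x.2, a1, rfl⟩, Prod.ext rfl (mul_div_cancel_right₀ _ (a2 a3))⟩
    · rw [e0]
      filter_upwards [f2.ev hu ((continuous_apply i).continuousAt.eventually_ne b)] with x a1 a2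
      obtain ⟨a3, d, -, a4⟩ := id a2
      refine ⟨⟨a3, trivial⟩, ?_⟩
      rw [show x (.inr i) / Φ (x ∘ .inl) i = d from
        (div_eq_iff (a1 a2)).2 (congrFun a4 i), ← a4, Sum.elim_comp_inl_inr]

variable (ω) in
/-- The exponents. -/
def ex (o : Option T) (r : R) : ℕ := (∑ t, (ω t r).toNat - o.elim 0 (ω · r)).toNat

theorem ex_eq (o : Option T) (r : R) :
    (ex ω o r : ℤ) + o.elim 0 (ω · r) = (∑ t, (ω t r).toNat : ℕ) := by
  refine (congrArg (· + _) (Int.toNat_of_nonneg (sub_nonneg.2 ?_))).trans (sub_add_cancel _ _)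
  cases o with
  | none => exact Int.natCast_nonneg _
  | some t =>
    exact (Int.self_le_toNat _).trans (Nat.cast_le.2
      (Finset.single_le_sum (f := fun t => (ω t r).toNat) (by simp) (Finset.mem_univ t)))

variable (π ω) in
/-- The monomials. -/
def mo (x : Option T × Sec π) (y : J → ℂ) : ℂ := ∏ r, y (x.2.1 r) ^ ex ω x.1 r

variable (π ω) in
/-- The polynomial map to the projective closure. -/
def ps (w : J ⊕ T → ℂ) : J ⊕ Option T × Sec π → ℂ :=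
  Sum.elim (w ∘ .inl) fun x => x.1.elim 1 (w ∘ .inr) * mo π ω x (w ∘ .inl)

theorem exists_pull (P : MvPolynomial (J ⊕ Option T × Sec π) ℂ) :
    ∃ Q : MvPolynomial (J ⊕ T) ℂ, (fun w => eval w Q) = fun w => eval (ps π ω w) P :=
  ⟨bind₁ (Sum.elim (fun j => X (.inl j)) fun x => x.1.elim 1 (fun t => X (.inr t)) *
    ∏ r, X (.inl (x.2.1 r)) ^ ex ω x.1 r) P, funext fun w => by
    rw [← coe_aeval_eq_eval, ← coe_aeval_eq_eval]
    refine (aeval_bind₁ _ _ _).trans (congrArg (aeval · P) (funext ?_))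
    rintro (j | ⟨_ | t, s⟩) <;> simp [ps, mo]⟩

theorem an_mo (x : Option T × Sec π) (y : J → ℂ) : AnalyticAt ℂ (mo π ω x) y :=
  Finset.analyticAt_fun_prod _ fun _ _ => (an_crd _ y).pow _

theorem mo_ne {y : J → ℂ} {s : Sec π} (h : ∀ r, y (s.1 r) ≠ 0) (o : Option T) :
    mo π ω (o, s) y ≠ 0 := Finset.prod_ne_zero_iff.2 fun r _ => pow_ne_zero _ (h r)

theorem an_ps (w : J ⊕ T → ℂ) : AnalyticAt ℂ (ps π ω) w := analyticAt_pi_iff.2 fun j => by
  rcases j with j | ⟨_ | t, s⟩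
  exacts [an_crd _ w, analyticAt_const.mul ((an_mo _ _).comp (an_cmp _ w)),
    (an_crd _ w).mul ((an_mo _ _).comp (an_cmp _ w))]

variable (π ω A σ) in
/-- The projective closure. -/
def gr : Set (J ⊕ Option T × Sec π → ℂ) := {u | u ∘ .inl ∈ A ∧
  ∃ c ≠ (0 : ℂ), u ∘ .inr = c • ps π ω (Sum.elim (u ∘ .inl) (σ (u ∘ .inl))) ∘ .inr}

theorem ps_mem (h : w ∈ grS A σ) : ps π ω w ∈ gr π A σ ω :=
  ⟨h.1, 1, one_ne_zero, by
    rw [one_smul, show ps π ω w ∘ .inl = w ∘ .inl from rfl, ← h.2, Sum.elim_comp_inl_inr]⟩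

variable (h : PV π A n) (h1 : ∀ y ∈ A, HolOn A σ y)
  (h2 : ∀ t, IsUnit t → ∀ y ∈ A, σ (scl π t y) = tw ω t (σ y))
include h h1 h2

theorem pv : PV (blP _ π) (gr π A σ ω) n := by
  refine pv_gr h (Φ := fun y => ps π ω (Sum.elim y (σ y)) ∘ .inr) (fun y a =>
    (hol_elim a (.of_an analyticAt_id) (h1 y a)).comp_an (G := fun w => ps π ω w ∘ .inr) a
      ((an_cmp _ _).comp (an_ps _))) (fun y a e => ?_) fun t ht y a => ?_
  · obtain ⟨s, hs⟩ := exists_sec (h.sub a)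
    exact mo_ne hs none ((one_mul _).symm.trans (congrFun e (none, s)))
  · have t0 := unit_iff.1 ht
    have b : ∏ r, t r ^ ((∑ t, (ω t r).toNat : ℕ) : ℤ) ≠ 0 :=
      Finset.prod_ne_zero_iff.2 fun r _ => zpow_ne_zero _ (t0 r)
    refine ⟨_, inv_ne_zero b, (eq_inv_smul_iff₀ b).2 (funext fun ⟨o, s⟩ => ?_)⟩
    simp only [← ex_eq o, zpow_add₀ (t0 _), Finset.prod_mul_distrib, h2 t ht y a]
    cases o
    · simp [ps, mo, scl, s.2, mul_pow, Finset.prod_mul_distrib]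
    · simp [ps, mo, scl, tw, s.2, mul_pow, Finset.prod_mul_distrib]
      ring

theorem off (a : w ∘ .inl ∈ Ust π) (b : w ∉ grS A σ) :
    ∃ P : MvPolynomial (J ⊕ T) ℂ, (∀ x ∈ grS A σ, eval x P = 0) ∧ eval w P ≠ 0 := by
  obtain ⟨s, hs⟩ := exists_sec a
  obtain ⟨P, p1, p2⟩ := Chow1.off (pv h h1 h2) (y := ps π ω w) (by
    rintro (_ | r)
    · exact ⟨.inr (none, s), rfl, mul_ne_zero one_ne_zero (mo_ne hs none)⟩
    · exact ⟨.inl (s.1 r), congrArg some (s.2 r), hs r⟩) (by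
    rintro ⟨d, c, -, e⟩
    have c1 : 1 = c := mul_right_cancel₀ (mo_ne hs none)
      ((congrFun e (none, s)).trans (congrArg (c * ·) (one_mul _)))
    rw [← c1, one_smul] at e
    exact b ⟨d, funext fun t => mul_right_cancel₀ (mo_ne hs (some t)) (congrFun e (some t, s))⟩)
  obtain ⟨Q, e⟩ := exists_pull P
  exact ⟨Q, fun x hx => (congrFun e x).trans (p1 _ (ps_mem hx)), (congrFun e w).trans_ne p2⟩

theorem jac (a : w ∈ grS A σ) (b : ∀ P : MvPolynomial (J ⊕ T) ℂ, (∀ x ∈ grS A σ, eval x P = 0) →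
    fderiv ℂ (fun x => eval x P) w v = 0) : v ∈ tn (grS A σ) w := by
  obtain ⟨s, hs⟩ := exists_sec (h.sub a.1)
  have k := Chow1.jac (pv h h1 h2) (ps_mem a) (κ := fderiv ℂ (ps π ω) w v) fun P p => by
    obtain ⟨Q, e⟩ := exists_pull P
    have := b Q fun x hx => (congrFun e x).trans (p _ (ps_mem hx))
    rwa [e, fderiv_comp_an (an_eval P _) (an_ps w)] at this
  let G : (J ⊕ Option T × Sec π → ℂ) → J ⊕ T → ℂ := fun u => Sum.elim (u ∘ .inl) fun t =>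
    u (.inr (some t, s)) * mo π ω (none, s) (u ∘ .inl) /
      (u (.inr (none, s)) * mo π ω (some t, s) (u ∘ .inl))
  have m0 : ps π ω w (.inr (none, s)) ≠ 0 := mul_ne_zero one_ne_zero (mo_ne hs none)
  have aG : AnalyticAt ℂ G (ps π ω w) := analyticAt_pi_iff.2 fun j => by
    cases j
    exacts [an_crd _ _, ((an_crd _ _).mul ((an_mo _ _).comp (an_cmp _ _))).div
      ((an_crd _ _).mul ((an_mo _ _).comp (an_cmp _ _))) (mul_ne_zero m0 (mo_ne hs _))]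
  have ne : ∀ {I : Type} (u : J ⊕ I → ℂ), (∀ r, u (.inl (s.1 r)) ≠ 0) →
      ∀ᶠ x in 𝓝 u, ∀ r, (x ∘ Sum.inl) (s.1 r) ≠ 0 := fun u c =>
    eventually_all.2 fun r => (continuous_apply _).continuousAt.eventually_ne (c r)
  have l : ∀ᶠ x in 𝓝 w, G (ps π ω x) = x := (ne w hs).mono fun x c => funext fun j => by
    cases j with
    | inl j => rfl
    | inr t =>
      refine (div_eq_iff (mul_ne_zero (mul_ne_zero one_ne_zero (mo_ne c none)) (mo_ne c _))).2 ?_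
      change x _ * mo π ω _ (x ∘ _) * mo π ω _ (x ∘ _) = x _ * (1 * mo π ω _ (x ∘ _) * _)
      ring
  have := fderiv_map_tn ((pv h h1 h2).mfd _ (ps_mem a)) aG (A' := grS A σ) ?_ k
  · rwa [fderiv_leftInv aG (an_ps w) l, l.self_of_nhds] at this
  filter_upwards [ne (ps π ω w) hs] with u c ⟨d, x, x0, e⟩
  refine ⟨d, funext fun t => ?_⟩
  have e1 := congrFun e (none, s)
  have e2 := congrFun e (some t, s)
  change u _ = x * (1 * mo π ω _ (u ∘ _)) at e1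
  change u _ = x * (σ (u ∘ _) t * mo π ω _ (u ∘ _)) at e2
  change u _ * _ / (u _ * _) = σ (u ∘ .inl) t
  rw [e1, e2, div_eq_iff
    (mul_ne_zero (mul_ne_zero x0 (mul_ne_zero one_ne_zero (mo_ne c _))) (mo_ne c _))]
  ring

end Gr0

open Chow in
/-- **Equations of the graph.** -/
theorem gr_eqs [DecidableEq R] {wt : J → S → ℤ} {ωt : T → S → ℤ} (h : PV π A n) (hT : TInv wt A)
    (h1 : ∀ y ∈ A, HolOn A σ y) (h2 : ∀ t, IsUnit t → ∀ y ∈ A, σ (scl π t y) = tw ω t (σ y))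
    (h3 : ∀ τ, IsUnit τ → ∀ y ∈ A, σ (tw wt τ y) = tw ωt τ (σ y)) :
    ∃ (k : ℕ) (g : Fin k → MvPolynomial (J ⊕ T) ℂ) (χ : Fin k → R → ℤ) (κ : Fin k → S → ℤ),
      (∀ i, (g i).totalDegree ≠ 0 ∧ WHom (Sum.elim (bw π) ω) (χ i) (g i) ∧
        WHom (Sum.elim wt ωt) (κ i) (g i)) ∧
      (∀ w, w ∘ .inl ∈ A → (gv g w = 0 ↔ w ∘ .inr = σ (w ∘ .inl))) ∧
      ∀ w ∈ grS A σ, ∀ v, fderiv ℂ (gv g) w v = 0 → v ∈ tn (grS A σ) w := by
  rcases A.eq_empty_or_nonempty with rfl | ⟨y, hy⟩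
  · exact ⟨0, 0, 0, 0, fun i => i.elim0, fun _ a => a.elim, fun _ a => a.1.elim⟩
  let W : J ⊕ T → R ⊕ S → ℤ := fun j => Sum.elim (Sum.elim (bw π) ω j) (Sum.elim wt ωt j)
  have hW : TInv W (grS A σ) := fun τ hτ w ⟨a, b⟩ => by
    have u := unit_iff.1 hτ
    have u1 : IsUnit (τ ∘ .inl) := unit_iff.2 fun _ => u _
    have u2 : IsUnit (τ ∘ .inr) := unit_iff.2 fun _ => u _
    have e : tw W τ w ∘ .inl = tw wt (τ ∘ .inr) (scl π (τ ∘ .inl) (w ∘ .inl)) := funext fun j => by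
      rw [← tw_bw]
      simp only [tw, W, Fintype.prod_sum_type, Sum.elim_inl, Sum.elim_inr, comp_apply]
      ring
    refine ⟨e ▸ hT _ u2 _ (h.inv _ u1 _ a), ?_⟩
    rw [e, h3 _ u2 _ (h.inv _ u1 _ a), h2 _ u1 _ a, ← b]
    funext j
    simp only [tw, W, Fintype.prod_sum_type, Sum.elim_inl, Sum.elim_inr, comp_apply]
    ring
  obtain ⟨T₀, a1, a2⟩ := exists_gen hW
  choose a3 a4 m a5 using fun p : T₀ => a1 p p.2
  let e := (Fintype.equivFin T₀).symm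
  have a6 : ∀ w ∈ grS A σ, gv (fun i => (e i).1) w = 0 := fun w a => funext fun i => a4 _ w a
  refine ⟨_, fun i => (e i).1, fun i r => m (e i) (.inl r), fun i r => m (e i) (.inr r), fun i =>
    ⟨fun d => a3 (e i) ?_, fun α hα r => ?_, fun α hα r => ?_⟩, fun w a =>
    ⟨fun k => by_contra fun c => ?_, fun b => a6 w ⟨a, b⟩⟩, fun w a v k => ?_⟩
  · have := a4 (e i) (Sum.elim y (σ y)) ⟨hy, rfl⟩
    rw [totalDegree_eq_zero_iff_eq_C] at d
    beta_reduce at d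
    rw [d] at this ⊢
    rw [(eval_C _).symm.trans this, C_0]
  · exact a5 (e i) α hα (.inl r)
  · exact a5 (e i) α hα (.inr r)
  · obtain ⟨P, p1, p2⟩ := Gr0.off h h1 h2 (h.sub a) fun d => c d.2
    refine p2 (span_van (v := 0) (fun p hp => ⟨?_, map_zero _⟩) (a2 P p1)).1
    simpa only [gv, e.apply_symm_apply, Pi.zero_apply] using congrFun k (e.symm ⟨p, hp⟩)
  · refine Gr0.jac h h1 h2 a fun P p1 => (span_van (fun p hp => ⟨a4 ⟨p, hp⟩ w a, ?_⟩) (a2 P p1)).2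
    have := congrFun k (e.symm ⟨p, hp⟩)
    rwa [fderiv_gv, e.apply_symm_apply] at this

end Vale.Agent.P287Q
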