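import Vale.Agent.P287Q.Emb.Vert
import Vale.Agent.P287Q.Emb.Cmp
import Vale.Agent.P287Q.Emb.Gr0

/-!
# New fields that are holomorphic functions on the multicone: the families
-/

set_option linter.unusedSectionVars false

namespace Vale.Agent.P287Q.Emb

open Set Function Topology Filter MvPolynomial P269 P269.Holo

variable {J R K T I : Type} [Fintype J] [Fintype R] [Fintype K] [Fintype T] [Fintype I]
  [DecidableEq R]

/-- The family with new fields `T` of weights `w` and new equations `g`; the fields in `T₀` are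
vanishing base fields. -/
noncomputable def addH (F : Fam Empty Empty R J K) (w : T → R → ℤ) (T₀ : Set T) (χ : I → R → ℤ)
    (g : I → MvPolynomial (J ⊕ T) ℂ) : Fam Empty Empty R (J ⊕ T) (K ⊕ I) where
  w := Sum.elim F.w w
  wt := Sum.elim F.wt fun _ => Empty.elim
  wl := F.wl
  θ := F.θ
  χ := Sum.elim F.χ χ
  wk := Sum.elim F.wk fun _ => Empty.elim
  G := Sum.elim (fun k => rename .inl (F.G k)) fun i => MvPolynomial.map C (g i)
  B := F.B
  U := {z | (z.1, z.2 ∘ .inl) ∈ F.U}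
  E := univ
  mov := {j | j.elim (· ∈ F.mov) (· ∉ T₀)}
  zer := {j | j.elim (· ∈ F.mov) (· ∉ T₀)}ᶜ

/-- The family with new vanishing base fields. -/
noncomputable abbrev addZ (F : Fam Empty Empty R J K) (w : T → R → ℤ) :
    Fam Empty Empty R (J ⊕ T) (K ⊕ Empty) := addH F w univ Empty.elim Empty.elim

/-- The polynomials `g` cut out the graph of `σ`. -/
structure GrD (π : J → R) (A : Set (J → ℂ)) (w : T → R → ℤ) (σ : (J → ℂ) → T → ℂ) (T₀ : Set T)
    (χ : I → R → ℤ) (g : I → MvPolynomial (J ⊕ T) ℂ) : Prop where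
  hol : ∀ y ∈ A, HolOn A σ y
  van : ∀ y ∈ A, ∀ a ∈ T₀, σ y a = 0
  hom : ∀ i, WHom (Sum.elim (bw π) w) (χ i) (g i)
  deg : ∀ i, (g i).totalDegree ≠ 0
  zero : ∀ y ∈ A, ∀ x : T → ℂ, (∀ a ∈ T₀, x a = 0) → (gv g (Sum.elim y x) = 0 ↔ x = σ y)
  jac : ∀ y ∈ A, ∀ ξ : T → ℂ, (∀ a ∈ T₀, ξ a = 0) →
    fderiv ℂ (gv g) (Sum.elim y (σ y)) (Sum.elim 0 ξ) = 0 → ξ = 0

variable {F : Fam Empty Empty R J K} {π : J → R} {A : Set (J → ℂ)} {w : T → R → ℤ}
  {σ : (J → ℂ) → T → ℂ} {T₀ : Set T} {χ : I → R → ℤ} {g : I → MvPolynomial (J ⊕ T) ℂ} {n k : ℕ}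
  {z : (Empty → ℂ) × (J ⊕ T → ℂ)} {y : J → ℂ} {K₀ : RD R}

theorem grD_zero : GrD π A w (fun _ => 0) univ Empty.elim (Empty.elim : _ → MvPolynomial _ ℂ) :=
  ⟨fun _ _ => .of_an analyticAt_const, fun _ _ _ _ => rfl, (·.elim), (·.elim),
    fun _ _ _ a => iff_of_true (Subsingleton.elim _ _) (funext fun b => a b trivial),
    fun _ _ _ a _ => funext fun b => a b trivial⟩

namespace AddH

theorem sum_pd (p : MvPolynomial J ℂ) (y v : J → ℂ) :
    ∑ j, eval y (pderiv j p) * v j = fderiv ℂ (fun s => eval s p) y v := by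
  have l : HasDerivAt (fun ε : ℂ => y + ε • v) v 0 := by
    simpa using ((hasDerivAt_id (0 : ℂ)).smul_const v).const_add y
  exact (Vir.hasDerivAt_eval p y v).unique
    ((an_eval p y).differentiableAt.hasFDerivAt.comp_hasDerivAt_of_eq 0 l (by simp))

theorem fib_inl (l : Empty → ℂ) (k : K) :
    ((addH F w T₀ χ g).fib l).F (.inl k) = rename .inl ((F.fib l).F k) := map_rename _ _ _

theorem fib_inr (l : Empty → ℂ) (i : I) : ((addH F w T₀ χ g).fib l).F (.inr i) = g i := by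
  change MvPolynomial.map (eval l) (MvPolynomial.map C (g i)) = g i
  rw [MvPolynomial.map_map]
  exact (congrArg (MvPolynomial.map · _) (RingHom.ext fun _ => eval_C _)).trans
    (MvPolynomial.map_id _)

theorem mem_cone (h : Mdl F π A) : z ∈ (addH F w T₀ χ g).cone ↔
    z.2 ∘ .inl ∈ A ∧ (∀ a ∈ T₀, z.2 (.inr a) = 0) ∧ gv g z.2 = 0 := by
  rw [← h.cone (z.1, z.2 ∘ .inl)]
  simp only [Fam.mem_cone, Fam.eqn, Sum.forall, fib_inl, fib_inr, eval_rename, funext_iff]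
  exact ⟨fun ⟨⟨a, _, b⟩, c, d, e⟩ => ⟨⟨⟨a, h.E ▸ trivial, fun j f => b (.inl j)
      (disjoint_left.1 h.nice.zer_base f)⟩, c, d⟩, fun a f => b (.inr a) (not_not.2 f), e⟩,
    fun ⟨⟨⟨a, _, b⟩, c, d⟩, e, f⟩ => ⟨⟨a, trivial, Sum.rec (fun j i => b j (h.abs i))
      fun a i => e a (not_not.1 i)⟩, c, d, f⟩⟩

theorem mem_vert {η : J ⊕ T → ℂ} : η ∈ (addH F w T₀ χ g).vert z ↔
    η ∘ .inl ∈ F.vert (z.1, z.2 ∘ .inl) ∧ (∀ a ∈ T₀, η (.inr a) = 0) ∧
      fderiv ℂ (gv g) z.2 η = 0 := by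
  have e : ∀ p : MvPolynomial J ℂ, ∑ j, eval z.2 (pderiv j (rename Sum.inl p)) * η j =
      ∑ j, eval (z.2 ∘ .inl) (pderiv j p) * (η ∘ .inl) j := fun p =>
    (Vir.hasDerivAt_eval _ z.2 η).unique ((Vir.hasDerivAt_eval p _ (η ∘ .inl)).congr_of_eventuallyEq
      (.of_forall fun _ => eval_rename _ _ _))
  simp only [RP.mem_vert, Fam.jac, Sum.forall, fib_inl, fib_inr, e, funext_iff, fderiv_gv,
    ← sum_pd]
  exact ⟨fun ⟨⟨a, b⟩, c, d⟩ => ⟨⟨a, c⟩, fun t f => b t (not_not.2 f), d⟩,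
    fun ⟨⟨a, c⟩, b, d⟩ => ⟨⟨a, fun t f => b t (not_not.1 f)⟩, c, d⟩⟩

theorem supp {S : Type*} [CommSemiring S] {p : MvPolynomial J S} {α : J ⊕ T →₀ ℕ}
    (h : α ∈ (rename Sum.inl p).support) : ∃ β ∈ p.support, β.mapDomain .inl = α := by
  classical
  exact Finset.mem_image.1 ((support_rename_of_injective Sum.inl_injective).le h)

theorem inv (hF : F.Inv) (hw : F.w = bw π) (hg : ∀ i, WHom (Sum.elim (bw π) w) (χ i) (g i)) :
    (addH F w T₀ χ g).Inv where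
  hom := Sum.rec (fun k α a r => by
    obtain ⟨β, b, rfl⟩ := supp a
    refine Eq.trans ?_ (hF.hom k β b r)
    rw [Fintype.sum_sum_type]
    simp [addH, Finsupp.mapDomain_apply Sum.inl_injective, Finsupp.mapDomain_of_notMem_range])
    fun i α a r => (hw ▸ hg i) α (support_map_subset _ _ a) r
  homS _ _ _ _ _ i := i.elim
  openU := hF.openU.preimage (f := fun z : (Empty → ℂ) × (J ⊕ T → ℂ) => (z.1, z.2 ∘ Sum.inl))
    (by fun_prop)
  invU t ht _ hz := hF.invU t ht _ hz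
  closedE := isClosed_univ
  invE _ _ _ _ := trivial
  baseE _ _ _ _ _ := trivial
  zer_base := disjoint_compl_left
  lcB := hF.lcB
  invB := hF.invB

theorem down (h : Mdl F π A) (hz : z ∈ (addH F w T₀ χ g).cone) : (z.1, z.2 ∘ .inl) ∈ F.cone :=
  (h.cone _).2 ((mem_cone h).1 hz).1

theorem ample (h : Mdl F π A) {θ₀ N} (ha : F.Ample θ₀ N) : (addH F w T₀ χ g).Ample θ₀ N :=
  ⟨ha.1, ha.2.1, fun c hc z hz => by
    obtain ⟨α, a, b⟩ := ha.2.2 c hc _ (down h hz)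
    exact ⟨Sum.elim α 0, fun i => by simpa [addH] using a i, by simpa using b⟩⟩

theorem big (h : Mdl F π A) (hk : F.Big k) : (addH F w T₀ χ g).Big k :=
  let ⟨_, _, a, b⟩ := hk
  ⟨_, _, ample h a, b⟩

theorem mfd {m : ℕ} (h : MfdAt A m y) (hσ : HolOn A σ y) :
    MfdAt (grS A σ) m (Sum.elim y (σ y)) :=
  h.iso' (F := fun s => Sum.elim s (σ s)) (G := fun s => s ∘ .inl)
    (Gr0.hol_elim h.1 (.of_an analyticAt_id) hσ) (.of_an (an_pre _ _))
    (.of_forall fun _ a => ⟨⟨a, rfl⟩, rfl⟩)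
    (.of_forall fun s a => ⟨a.1, by rw [← a.2, Sum.elim_comp_inl_inr]⟩)

theorem lift {m : ℕ} (h : MfdAt A m y) (hσ : HolOn A σ y) {v : J → ℂ} (hv : v ∈ tn A y) :
    ∃ η ∈ tn (grS A σ) (Sum.elim y (σ y)), η ∘ .inl = v := by
  obtain ⟨Φ, a, b⟩ := hσ
  have c := an_elim (analyticAt_id (z := y)) a
  rw [b.self_of_nhds h.1]
  exact ⟨_, fderiv_map_tn h c (b.mono fun s d e => And.intro e (d e).symm) hv,
    (fderiv_pre _ _ _).symm.trans (fderiv_leftInv (an_pre Sum.inl _) c (.of_forall fun _ => rfl) v)⟩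

end AddH

open AddH

namespace GrD

variable (D : GrD π A w σ T₀ χ g) (h : Mdl F π A)
include D h

theorem cone : z ∈ (addH F w T₀ χ g).cone ↔ z.2 ∈ grS A σ :=
  (mem_cone h).trans (and_congr_right fun a => ⟨fun b => (D.zero _ a (z.2 ∘ .inr) b.1).1
    (by rw [Sum.elim_comp_inl_inr]; exact b.2), fun b =>
      have c : ∀ t ∈ T₀, z.2 (.inr t) = 0 := fun t d => (congrFun b t).trans (D.van _ a t d)
      ⟨c, Sum.elim_comp_inl_inr z.2 ▸ (D.zero _ a _ c).2 b⟩⟩)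

omit D h in
theorem eq_elim {s : J ⊕ T → ℂ} (a : s ∈ grS A σ) : s = Sum.elim (s ∘ .inl) (σ (s ∘ .inl)) := by
  rw [← a.2, Sum.elim_comp_inl_inr]

theorem good : (addH F w T₀ χ g).Good where
  toInv := inv h.nice.toInv h.w D.hom
  deg := Sum.rec (fun k e => h.nice.deg k (by
      rw [rename_injective _ Sum.inl_injective ((totalDegree_eq_zero_iff_eq_C.1 e).trans
        (rename_C _ _).symm), totalDegree_C])) fun i e => D.deg i (by
    change (MvPolynomial.map C (g i)).totalDegree = 0 at e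
    rwa [totalDegree, support_map_of_injective _ (C_injective _ _)] at e)
  freeB := h.nice.freeB
  properB := h.nice.properB
  free t ht _ hz e := h.nice.free t ht _ (down h hz) (congrArg (Prod.map id (· ∘ Sum.inl)) e)
  proper t _ _ ht hz hz' y hy H := h.nice.proper t _ _ ht (down h hz) (down h hz')
    (fun n => y n ∘ .inl) ((an_pre Sum.inl _).continuousAt.tendsto.comp hy) fun j => H (.inl j)
  cpt B' hB hc := by
    obtain ⟨C, a, b, c⟩ := h.nice.cpt B' hB hc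
    refine ⟨(fun u => (u.1, Sum.elim u.2 (σ u.2))) '' C, forall_mem_image.2 fun u hu =>
      (D.cone h (z := (u.1, Sum.elim u.2 (σ u.2)))).2 ⟨(h.cone u).1 (a hu), rfl⟩, b.image_of_continuousOn fun u hu => ?_,
      fun z hz hz' => (c _ (down h hz) hz').imp fun t d => ⟨d.1, _, d.2, Prod.ext rfl (eq_elim
        ((D.cone h).1 ((inv h.nice.toInv h.w D.hom).cone_act
          (Prod.isUnit_iff.2 ⟨isUnit_one, d.1⟩) hz))).symm⟩⟩
    have e := (h.cone u).1 (a hu)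
    exact continuousWithinAt_fst.prodMk
      (((Gr0.hol_elim e (.of_an analyticAt_id) (D.hol _ e)).tendsto e).comp
        (continuousWithinAt_snd.tendsto_nhdsWithin fun x b => (h.cone x).1 (a b)))
  ample := let ⟨_, _, a⟩ := h.nice.ample; ⟨_, _, ample h a⟩
  mov_ne := h.nice.mov_ne.elim fun j a => ⟨.inl j, a⟩

theorem inf (hz : z ∈ (addH F w T₀ χ g).cone) {η} (hη : η ∈ (addH F w T₀ χ g).vert z)
    (e : η ∘ .inl = 0) : η = 0 := by
  obtain ⟨-, a, b⟩ := mem_vert.1 hη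
  have c := (D.cone h).1 hz
  rw [eq_elim c, ← Sum.elim_comp_inl_inr η, e] at b
  rw [← Sum.elim_comp_inl_inr η, e, D.jac _ c.1 (η ∘ .inr) a b, Sum.elim_zero_zero]

theorem inj (hz : z ∈ (addH F w T₀ χ g).cone) {η η'} (a : η ∈ (addH F w T₀ χ g).vert z)
    (b : η' ∈ (addH F w T₀ χ g).vert z) (e : η ∘ .inl = η' ∘ .inl) : η = η' :=
  sub_eq_zero.1 (D.inf h hz (sub_mem a b) (sub_eq_zero.2 e))

theorem mfd (hz : z ∈ (addH F w T₀ χ g).cone) : ∃ m, MfdAt (grS A σ) m z.2 :=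
  have c := (D.cone h).1 hz
  ⟨_, (eq_elim c).symm ▸ AddH.mfd (h.vert' (z := (z.1, _)) c.1).1 (D.hol _ c.1)⟩

theorem lift (hz : z ∈ (addH F w T₀ χ g).cone) {v} (hv : v ∈ F.vert (z.1, z.2 ∘ .inl)) :
    ∃ η ∈ (addH F w T₀ χ g).vert z, η ∈ tn (grS A σ) z.2 ∧ η ∘ .inl = v := by
  have c := (D.cone h).1 hz
  obtain ⟨d, e⟩ := h.vert' (z := (z.1, _)) c.1
  obtain ⟨η, a, b⟩ := AddH.lift (y := z.2 ∘ .inl) d (D.hol _ c.1) (e.le hv)
  rw [← eq_elim c] at a
  obtain ⟨_, m⟩ := D.mfd h hz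
  exact ⟨η, tn_le_vert Subset.rfl (.of_forall fun _ => (D.cone h).2) m a, a, b⟩

theorem regAt (hz : z ∈ (addH F w T₀ χ g).cone) : ∃ K₁, (addH F w T₀ χ g).RegAt K₁ z :=
  let ⟨_, m⟩ := D.mfd h hz
  regAt_of_le Subset.rfl (.of_forall fun s => (D.cone h (z := (z.1, s))).symm) m fun _ a =>
    let ⟨_, b, c, d⟩ := D.lift h hz (mem_vert.1 a).1
    D.inj h hz b a d ▸ c

theorem reg (hR : F.Reg K₀) : (addH F w T₀ χ g).Reg K₀ :=
  hR.of_proj' (D.good h).toInv id (LinearMap.funLeft ℂ ℂ .inl) (fun _ => D.regAt h)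
    (fun _ => down h) (fun _ hz => ⟨fun _ a => (mem_vert.1 a).1, fun _ a _ b => D.inj h hz a b,
      fun _ a => let ⟨η, b, _, c⟩ := D.lift h hz a; ⟨η, b, c⟩⟩) fun _ _ _ _ => rfl

theorem nice : (addH F w T₀ χ g).Nice 0 :=
  nice_abs (D.good h) (h.nice.reg.imp fun _ => D.reg h) h.B rfl Subset.rfl

theorem detH : (addZ F w).DetH (addH F w T₀ χ g) (.inr '' T₀ᶜ) (Sum.map id Empty.elim) := by
  have n1 : ∀ j, (.inl j : J ⊕ T) ∉ Sum.inr '' T₀ᶜ := fun _ ⟨_, _, e⟩ => nomatch e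
  have n2 : ∀ a, (.inr a : J ⊕ T) ∈ Sum.inr '' T₀ᶜ ↔ a ∉ T₀ := fun _ =>
    Sum.inr_injective.mem_set_image
  have n3 : ∀ {y y' : J ⊕ T → ℂ}, (∀ j ∉ Sum.inr '' T₀ᶜ, y j = y' j) → y ∘ .inl = y' ∘ .inl :=
    fun e => funext fun j => e _ (n1 j)
  refine ⟨rfl, rfl, rfl, Set.ext (Sum.rec (fun j => (or_iff_left (n1 j)).symm) fun a =>
      ((or_iff_right (not_not.2 trivial)).trans (n2 a)).symm),
    Set.ext (Sum.rec (fun j => (and_iff_left (n1 j)).symm) fun a =>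
      ((and_iff_right (not_not.2 trivial)).trans (n2 a).not).symm),
    forall_mem_image.2 fun _ _ => not_not.2 trivial, Sum.rec (fun _ => rfl) (·.elim),
    Sum.rec (fun _ => rfl) (·.elim), Sum.rec (fun k α a => forall_mem_image.2 fun t _ => ?_) (·.elim),
    fun z hz y a b => (mem_cone h).2 ⟨(n3 b).symm ▸ ((mem_cone h).1 hz).1, fun t _ => ?_,
      Subsingleton.elim _ _⟩, fun l y y' a b c => ?_, fun z hz => ?_,
    fun z hz y _ b η c => ?_, fun z hz η a b => D.inf h hz a (n3 (y' := 0) b)⟩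
  · obtain ⟨β, -, rfl⟩ := supp a
    exact Finsupp.mapDomain_of_notMem_range _ _ fun ⟨_, e⟩ => nomatch e
  · by_cases e : t ∈ T₀
    exacts [(b _ (mt (n2 t).1 (not_not.2 e))).trans (((mem_cone h).1 hz).2.1 t e), a _ ((n2 t).2 e)]
  · rw [eq_elim (s := y) ((D.cone h).1 a), eq_elim (s := y') ((D.cone h).1 b), n3 c]
  · obtain ⟨Φ, a, b⟩ := D.hol _ ((mem_cone h).1 hz).1
    have c : AnalyticAt ℂ (fun s : (Empty → ℂ) × (J ⊕ T → ℂ) => s.2 ∘ Sum.inl) z :=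
      (an_pre Sum.inl z.2).comp analyticAt_snd
    refine ⟨fun s => Sum.elim (s.2 ∘ .inl) (Φ (s.2 ∘ .inl)), an_elim c (AnalyticAt.comp (g := Φ) a c),
      (c.continuousAt.eventually b).mono fun s d e => ?_⟩
    obtain ⟨e1, e2, -⟩ := (mem_cone h).1 e
    beta_reduce
    rw [← d e1]
    exact ⟨Sum.rec (fun _ _ => rfl) fun t f => (D.van _ e1 t (not_not.1 (mt (n2 t).2 f))).trans
      (e2 t trivial).symm, (D.cone h (z := (s.1, Sum.elim _ _))).2 ⟨e1, rfl⟩⟩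
  · obtain ⟨c1, c2, -⟩ := mem_vert.1 c
    obtain ⟨η', d, -, e⟩ := D.lift h hz (n3 b ▸ c1)
    exact ⟨η', d, Sum.rec (fun j _ => congrFun e j) fun t f =>
      ((mem_vert.1 d).2.1 t (not_not.1 (mt (n2 t).2 f))).trans (c2 t trivial).symm⟩

end GrD

theorem evσ_addZ (z : (Empty → ℂ) × (J → ℂ)) :
    evσ (Sum.elim X 0 : J ⊕ T → _) z = Prod.map id (Sum.elim · (0 : T → ℂ)) z :=
  Prod.ext rfl (funext (Sum.rec (fun j => by simp [evσ, evz]) fun a => by simp [evσ, evz]))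

theorem Mdl.pres_addZ (h : Mdl F π A) :
    F.Pres (addZ F w) .inl Empty.elim (fun r => Pi.single r 1) (Sum.elim X 0) where
  inj := Sum.inl_injective
  wl := rfl
  B := rfl
  σ_φ _ := rfl
  σ_s := (·.elim)
  hom := Sum.rec (fun j α a r => by
    classical
    rw [Sum.elim_inl, support_X, Finset.mem_singleton] at a
    simp [a, addH, Finsupp.single_apply, Pi.single_apply]) fun _ _ a => nomatch a
  homS _ _ _ _ _ := (·.elim)
  lat_inj d e := funext fun r => by simpa [Pi.single_apply] using e r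
  lat_ker d _ := ⟨d, funext fun r => by simp [Pi.single_apply]⟩
  lat_onto _ := ⟨0, (·.elim)⟩
  cone z := ⟨fun a => ⟨1, isUnit_one, _, down h a, (congrArg (Prod.mk z.1)
      (GrD.eq_elim ((grD_zero.cone h).1 a))).trans
      ((Wt.actT_one _ _).trans (evσ_addZ (z.1, z.2 ∘ .inl))).symm⟩,
    fun ⟨_, a, u, b, c⟩ => c ▸ (grD_zero.good h).toInv.cone_act (Prod.isUnit_iff.2 ⟨isUnit_one, a⟩)
      (mem_of_eq_of_mem (evσ_addZ u) ((grD_zero.cone h).2 ⟨(h.cone u).1 b, rfl⟩))⟩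
  mov _ := Iff.rfl
  zer _ := ⟨fun a => h.abs a, fun a => disjoint_left.1 h.nice.zer_base a⟩
  E _ _ _ _ := h.E.ge trivial
  drop _ _ a := .inl a
  E' _ _ _ _ _ := iff_of_true trivial ⟨1, isUnit_one, fun _ _ a b => (b a).elim⟩

end Vale.Agent.P287Q.Emb
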