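import Vale.Agent.P287Q.Emb.Cmp
import Vale.Agent.P287Q.Pv.Fam
import Vale.Agent.P287Q.G.Vir.RD

/-!
# New blocks that consist of one field
-/

set_option linter.unusedSectionVars false

namespace Vale.Agent.P287Q.Emb

open Set Function Topology Filter MvPolynomial P291Z P269 P269.Holo P269.Vir

variable {J R K : Type} (I : Type) [Fintype J] [Fintype R] [Fintype K] [Fintype I] [DecidableEq R]
  [DecidableEq I]

/-- The family with the new blocks `I`. -/
noncomputable def addP (F : Fam Empty Empty R J K) (π : J → R) :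
    Fam Empty Empty (R ⊕ I) (J ⊕ I) K where
  w := bw (Sum.map π id)
  wt := fun _ => Empty.elim
  wl := Empty.elim
  θ := Sum.elim F.θ 3
  χ k := Sum.elim (F.χ k) 0
  wk := fun _ => Empty.elim
  G k := rename .inl (F.G k)
  B := univ
  U := {z | (z.1, z.2 ∘ .inl) ∈ F.U ∧ ∀ i, z.2 (.inr i) ≠ 0}
  E := univ
  mov := {j | Sum.elim (· ∈ F.mov) (fun _ => True) j}
  zer := {j | Sum.elim (· ∈ F.zer) (fun _ => False) j}

variable {I} {F : Fam Empty Empty R J K} {π : J → R} {A : Set (J → ℂ)} {n : ℕ}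

/-- The global hypotheses for a family that presents a closed multicone. -/
theorem ap_good (h : F.Inv) (hw : F.w = bw π) (hA : MC π A) (hc : ∀ z, z ∈ F.cone ↔ z.2 ∈ A)
    (deg : ∀ k, (F.G k).totalDegree ≠ 0) (amp : ∃ θ₀ N, F.Ample θ₀ N) (ne : F.mov.Nonempty) :
    F.Good where
  toInv := h
  deg := deg
  freeB _ _ _ _ _ := Subsingleton.elim _ _
  properB _ _ _ _ _ _ _ _ _ _ := ⟨0, fun _ i => i.elim⟩
  free t _ z hz e := by
    rw [actT_eq hw] at e
    exact scl_inj (hA.sub ((hc z).1 hz)) ((congrArg Prod.snd e).trans (scl_one _).symm)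
  proper t z z' _ hz hz' y hy H := by
    obtain ⟨c, c2, e⟩ := tendsto_gauge (a := t) (y' := z'.2) (hA.sub ((hc z).1 hz)) hy
      (tendsto_pi_nhds.2 fun j => (H j fun r => by
        rw [hw]
        by_cases e : r = π j <;> simp [bw, e]).congr fun n => by rw [actT_eq hw])
    have c1 := unit_iff.1 (unit_of_mem (e ▸ hA.sub ((hc z').1 hz')))
    have c3 := tendsto_pi_nhds.1 c2
    refine ⟨max (‖c‖ + 1) (‖c⁻¹‖ + 1), eventually_all.2 fun r => ?_⟩
    filter_upwards [(c3 r).norm.eventually_le_const ((norm_le_pi_norm c r).trans_lt (lt_add_one _)),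
      ((c3 r).inv₀ (c1 r)).norm.eventually_le_const
        ((norm_le_pi_norm c⁻¹ r).trans_lt (lt_add_one _))] with n a b
    exact ⟨le_max_of_le_left a, le_max_of_le_right b⟩
  cpt _ _ _ := by
    obtain ⟨C, a, b, c⟩ := hA.exists_cpt
    refine ⟨univ ×ˢ C, fun z hz => (hc z).2 (a hz.2), isCompact_univ.prod b, fun z hz _ => ?_⟩
    obtain ⟨t, d, e⟩ := c _ ((hc z).1 hz)
    exact ⟨t, d, trivial, by rwa [actT_eq hw]⟩
  ample := amp
  mov_ne := ne

theorem ap_scl_inl (t : R ⊕ I → ℂ) (w : J ⊕ I → ℂ) :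
    scl (Sum.map π id) t w ∘ .inl = scl π (t ∘ .inl) (w ∘ .inl) := rfl

theorem ap_unit_inl {t : R ⊕ I → ℂ} (h : IsUnit t) : IsUnit (t ∘ Sum.inl) :=
  unit_iff.2 fun _ => unit_iff.1 h _

theorem ap_an_inl (w : J ⊕ I → ℂ) : AnalyticAt ℂ (fun w : J ⊕ I → ℂ => w ∘ Sum.inl) w :=
  analyticAt_pi_iff.2 fun j =>
    (ContinuousLinearMap.proj (R := ℂ) (φ := fun _ : J ⊕ I => ℂ) (.inl j)).analyticAt w

theorem ap_an_inr (w : J ⊕ I → ℂ) : AnalyticAt ℂ (fun w : J ⊕ I → ℂ => w ∘ Sum.inr) w :=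
  analyticAt_pi_iff.2 fun j =>
    (ContinuousLinearMap.proj (R := ℂ) (φ := fun _ : J ⊕ I => ℂ) (.inr j)).analyticAt w

theorem ap_mc (h : MC π A) : MC (Sum.map π id) (prP A I) where
  sub w hw := by
    rintro (r | i)
    · obtain ⟨j, rfl, b⟩ := h.sub hw.1 r
      exact ⟨.inl j, rfl, b⟩
    · exact ⟨.inr i, rfl, hw.2 i⟩
  inv t ht w hw := ⟨h.inv _ (ap_unit_inl ht) _ hw.1,
    fun i => mul_ne_zero (unit_iff.1 ht _) (hw.2 i)⟩
  cl w hw hu := by
    refine ⟨h.cl _ (map_mem_closure (f := fun w : J ⊕ I → ℂ => w ∘ Sum.inl) (by fun_prop) hw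
      fun _ a => a.1) fun r => ?_, fun i => ?_⟩
    · obtain ⟨j | j, a, b⟩ := hu (.inl r)
      · exact ⟨j, Sum.inl_injective a, b⟩
      · cases a
    · obtain ⟨j | j, a, b⟩ := hu (.inr i)
      · cases a
      · cases a
        exact b

theorem ap_pv (h : PV π A n) : PV (Sum.map π id) (prP A I) n where
  toMC := ap_mc h.toMC
  mfd w hw := by
    have h1 := ((h.mfd _ hw.1).prod (MfdAt.univ (w ∘ Sum.inr))).iso (S' := prP A I)
      (F := fun p => Sum.elim p.1 p.2) (G := fun w => (w ∘ .inl, w ∘ .inr))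
      (analyticAt_pi_iff.2 fun j => by
        rcases j with j | j
        exacts [analyticAt_pi_iff.1 analyticAt_fst j, analyticAt_pi_iff.1 analyticAt_snd j])
      ((ap_an_inl _).prod (ap_an_inr _)) ?_
      (.of_forall fun s a => ⟨⟨a.1, trivial⟩, Sum.elim_comp_inl_inr s⟩)
    · rwa [Sum.elim_comp_inl_inr, Module.finrank_fintype_fun_eq_card, add_assoc,
        ← Fintype.card_sum] at h1
    · filter_upwards [continuous_snd.continuousAt.eventually
        (eventually_unit (unit_iff.2 hw.2 : IsUnit (w ∘ Sum.inr)))] with s a b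
      exact ⟨⟨b.1, unit_iff.1 a⟩, rfl⟩

theorem ap_fib (l : Empty → ℂ) (k : K) :
    ((addP I F π).fib l).F k = rename .inl ((F.fib l).F k) := map_rename _ _ _

theorem ap_eqn (z : (Empty → ℂ) × (J ⊕ I → ℂ)) (k : K) :
    (addP I F π).eqn z k = F.eqn (z.1, z.2 ∘ .inl) k :=
  (congrArg _ (ap_fib _ _)).trans (eval_rename _ _ _)

theorem ap_jac (z : (Empty → ℂ) × (J ⊕ I → ℂ)) (k : K) (η : J ⊕ I → ℂ) :
    ∑ j, (addP I F π).jac z k j * η j = ∑ j, F.jac (z.1, z.2 ∘ .inl) k j * η (.inl j) := by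
  have h1 : ∀ j, (addP I F π).jac z k (.inl j) = F.jac (z.1, z.2 ∘ .inl) k j := fun j => by
    rw [Fam.jac, ap_fib, pderiv_rename Sum.inl_injective, eval_rename]
    rfl
  have h2 : ∀ i, (addP I F π).jac z k (.inr i) = 0 := fun i => by
    classical
    rw [Fam.jac, ap_fib, pderiv_eq_zero_of_notMem_vars fun a => ?_, map_zero]
    simpa using vars_rename _ _ a
  simp [h1, h2]

theorem ap_bs (h : Mdl F π A) {z : (Empty → ℂ) × (J ⊕ I → ℂ)} :
    z ∈ (addP I F π).bs ↔ (z.1, z.2 ∘ .inl) ∈ F.bs :=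
  ⟨fun a => ⟨h.B.ge trivial, h.E.ge trivial, fun j b => a.2.2 (.inl j) b⟩,
    fun a => ⟨trivial, trivial, Sum.rec a.2.2 fun _ b => b.elim⟩⟩

theorem ap_cone (h : Mdl F π A) {z : (Empty → ℂ) × (J ⊕ I → ℂ)} :
    z ∈ (addP I F π).cone ↔ (z.1, z.2 ∘ .inl) ∈ F.cone ∧ ∀ i, z.2 (.inr i) ≠ 0 := by
  simp only [Fam.mem_cone, ap_eqn, ap_bs h]
  exact ⟨fun a => ⟨⟨a.1, a.2.1.1, a.2.2⟩, a.2.1.2⟩, fun a => ⟨a.1.1, ⟨a.1.2.1, a.2⟩, a.1.2.2⟩⟩

theorem ap_cone' (h : Mdl F π A) (z : (Empty → ℂ) × (J ⊕ I → ℂ)) :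
    z ∈ (addP I F π).cone ↔ z.2 ∈ prP A I := (ap_cone h).trans (and_congr_left' (h.cone _))

theorem ap_w_inl (j : J) : bw (Sum.map π (id : I → I)) (.inl j) = Sum.elim (bw π j) 0 :=
  funext fun r => by cases r <;> simp [bw, Pi.single_apply]

theorem ap_w_inr (i : I) :
    bw (Sum.map π (id : I → I)) (.inr i) = Sum.elim (0 : R → ℤ) (Pi.single i 1) :=
  funext fun r => by cases r <;> simp [bw, Pi.single_apply]

theorem ap_inv (h : Mdl F π A) : (addP I F π).Inv where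
  hom k α hα r := by
    classical
    obtain ⟨β, b, rfl⟩ := Finset.mem_image.1 ((support_rename_of_injective Sum.inl_injective).le hα)
    have e := h.nice.hom k β b
    rw [h.w] at e
    cases r <;> simp [addP, ap_w_inl, Finsupp.mapDomain_apply Sum.inl_injective,
      Finsupp.mapDomain_of_notMem_range, e]
  homS _ _ _ _ _ i := i.elim
  openU := by
    refine (h.nice.openU.preimage (f := fun z : (Empty → ℂ) × (J ⊕ I → ℂ) => (z.1, z.2 ∘ Sum.inl))
      (by fun_prop)).inter (t := {z | ∀ i, z.2 (.inr i) ≠ 0}) ?_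
    simp only [ofPred_forall]
    exact isOpen_iInter_of_finite fun i => isOpen_ne_fun (by fun_prop) continuous_const
  invU t ht z hz := by
    have a := (Prod.isUnit_iff.1 ht).2
    have b := h.nice.invU (1, t.2 ∘ .inl) (Prod.isUnit_iff.2 ⟨isUnit_one, ap_unit_inl a⟩) _ hz.1
    rw [actT_eq h.w] at b
    rw [actT_eq (π := Sum.map π id) rfl]
    exact ⟨b, fun i => mul_ne_zero (unit_iff.1 a _) (hz.2 i)⟩
  closedE := isClosed_univ
  invE _ _ _ _ := trivial
  baseE _ _ _ _ _ := trivial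
  zer_base := disjoint_left.2 (Sum.rec (disjoint_left.1 h.nice.zer_base) fun _ a => a.elim)
  lcB := isClosed_univ.isLocallyClosed
  invB _ _ _ _ := trivial

theorem ap_ample (h : Mdl F π A) {θ₀ N} (ha : F.Ample θ₀ N) :
    (addP I F π).Ample (Sum.elim θ₀ 1) N := by
  refine ⟨funext fun r => by cases r <;> simp [addP, ha.1], ha.2.1, fun c hc z hz => ?_⟩
  have h0 : ∀ i, 0 ≤ c (.inr i) := fun i => by
    have := ha.2.1
    rcases hc with rfl | ⟨r, rfl | rfl⟩ <;> simp [Pi.single_apply] <;> split_ifs <;> omega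
  obtain ⟨α, a, b⟩ := ha.2.2 (c ∘ .inl) (by
    rcases hc with rfl | ⟨r | r, rfl | rfl⟩
    · exact .inl rfl
    · exact .inr ⟨r, .inl (funext fun s => by simp [Pi.single_apply])⟩
    · exact .inr ⟨r, .inr (funext fun s => by simp [Pi.single_apply])⟩
    · exact .inl (funext fun s => by simp)
    · exact .inl (funext fun s => by simp)) _ ((ap_cone h).1 hz).1
  rw [h.w] at a
  refine ⟨Sum.elim α fun i => (c (.inr i)).toNat, fun r => ?_, ?_⟩
  · cases r <;> simp [addP, ap_w_inl, ap_w_inr, Pi.single_apply, a, h0]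
  · rw [Fintype.prod_sum_type]
    exact mul_ne_zero b (Finset.prod_ne_zero_iff.2 fun i _ => pow_ne_zero _ (((ap_cone h).1 hz).2 i))

theorem ap_loc (h : Mdl F π A) {z : (Empty → ℂ) × (J ⊕ I → ℂ)} {K₁ : Set K}
    (hr : F.RegAt K₁ (z.1, z.2 ∘ .inl)) : (addP I F π).RegAt K₁ z := by
  refine ⟨fun c => ?_, ?_⟩
  · obtain ⟨η, a, b⟩ := hr.ind c
    exact ⟨Sum.elim η 0, Sum.rec a fun _ _ => rfl, fun k e => (ap_jac _ _ _).trans (b k e)⟩
  · filter_upwards [(show Continuous fun z : (Empty → ℂ) × (J ⊕ I → ℂ) => (z.1, z.2 ∘ Sum.inl) by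
      fun_prop).continuousAt.eventually hr.cut] with s a b
    simp only [ap_eqn]
    exact a ((ap_bs h).1 b)

theorem ap_reg (h : Mdl F π A) : ∃ K₀, (addP I F π).Reg K₀ := by
  obtain ⟨K₀, hK⟩ := h.nice.reg
  refine ⟨⟨_, _⟩, hK.free (fun r => Pi.single (.inl r) 1) id (· ∘ .inl) .inl .inr
    (fun z hz => (hK.loc _ ((ap_cone h).1 hz).1).imp fun _ => ap_loc h) ap_an_inl (fun j r => ?_)
    (fun _ _ _ => rfl) Sum.inl_injective Sum.inr_injective (by simp)
    (fun z hz => ((ap_cone h).1 hz).1) (fun z _ η => ?_) rfl fun _ => rfl⟩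
  · cases r <;> simp [addP, ap_w_inl, h.w, Pi.single_apply]
  · simp only [RP.mem_vert, ap_jac]
    refine ⟨fun a => ⟨fun j b c => ?_, η ∘ .inl, ⟨fun j => a.1 (.inl j), a.2⟩, fun _ _ => rfl⟩,
      fun ⟨_, η₀, a, b⟩ => ?_⟩
    · cases j
      · exact (b ⟨_, rfl⟩).elim
      · exact (c ⟨_, rfl⟩).elim
    · have e : ∀ j, η (.inl j) = η₀ j := fun j => b j (by simp)
      simp only [e]
      exact ⟨Sum.rec (fun j c => (e j).trans (a.1 j c)) fun _ c => (c trivial).elim, a.2⟩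

theorem ap_abs (h : Mdl F π A) : (addP I F π).movᶜ ⊆ (addP I F π).zer :=
  Sum.rec (fun _ a => h.abs a) fun _ a => a trivial

theorem ap_mdl (hA : MC π A) (h : Mdl F π A) : Mdl (addP I F π) (Sum.map π id) (prP A I) where
  nice := nice_abs (ap_good (ap_inv h) rfl (ap_mc hA) (ap_cone' h)
    (fun k => by
      have e := totalDegree_rename_le (Sum.elim id fun _ => h.nice.mov_ne.choose)
        ((addP I F π).G k)
      rw [show (addP I F π).G k = rename .inl (F.G k) from rfl, rename_rename, Sum.elim_comp_inl,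
        rename_id_apply] at e
      exact fun a => h.nice.deg k (Nat.le_zero.1 (e.trans_eq a)))
    (let ⟨_, _, a⟩ := h.nice.ample; ⟨_, _, ap_ample h a⟩)
    (let ⟨j, a⟩ := h.nice.mov_ne; ⟨.inl j, a⟩)) (ap_reg h) rfl rfl (ap_abs h)
  w := rfl
  B := rfl
  E := rfl
  abs := ap_abs h
  cone := ap_cone' h

theorem ap_mv (d : R → ℤ) :
    mv (Sum.elim (fun r => Pi.single r 1) 0 : R ⊕ I → R → ℤ) d = Sum.elim d 0 :=
  funext fun r => by cases r <;> simp [mv, Pi.single_apply]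

theorem ap_ev (z : (Empty → ℂ) × (J → ℂ)) : evσ (Sum.elim X 1 : J ⊕ I → _) z =
    Prod.map id (fun y => Sum.elim y (1 : I → ℂ)) z :=
  Prod.ext rfl (funext fun j => by cases j <;> simp [evσ, evz])

theorem ap_pres (hA : MC π A) (h : Mdl F π A) : F.Pres (addP I F π) .inl .inr
    (Sum.elim (fun r => Pi.single r 1) 0) (Sum.elim X 1) where
  inj := Sum.inl_injective
  wl := Subsingleton.elim _ _
  B := h.B.symm
  σ_φ _ := rfl
  σ_s _ := rfl
  hom := by
    classical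
    rintro (j | i) α hα r
    · obtain rfl : α = Finsupp.single j 1 := by simpa [support_X] using hα
      simp [addP, ap_w_inl, h.w, Pi.single_apply, Finsupp.single_apply]
    · obtain rfl : α = 0 := by simpa [coeff_one, eq_comm] using hα
      simp [addP, ap_w_inr]
  homS _ _ _ _ _ a := a.elim
  lat_inj d e := funext fun r => (congrFun (ap_mv (I := I) d) (.inl r)).symm.trans (e _)
  lat_ker d e := ⟨d ∘ .inl, Eq.trans (funext fun r => by
    cases r
    · rfl
    · simpa [addP, ap_w_inr, Pi.single_apply] using e _) (ap_mv _).symm⟩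
  lat_onto m := ⟨Sum.elim 0 m, fun i => by simp [addP, ap_w_inr, Pi.single_apply]⟩
  cone z := by
    simp only [ap_cone' h, ap_ev, actT_eq (F := addP I F π) (π := Sum.map π id) rfl]
    refine ⟨fun a => ⟨Sum.elim 1 (z.2 ∘ .inr), unit_iff.2 (Sum.rec (fun _ => one_ne_zero) a.2),
      (z.1, z.2 ∘ .inl), (h.cone _).2 a.1, Prod.ext rfl (funext fun j => ?_)⟩, ?_⟩
    · cases j <;> simp [scl]
    · rintro ⟨t, a, y, b, rfl⟩
      exact (ap_mc hA).inv t a _ ⟨(h.cone _).1 b, fun _ => one_ne_zero⟩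
  mov _ := Iff.rfl
  zer _ := Iff.rfl
  E _ _ _ _ := h.E.ge trivial
  drop := Sum.rec (fun _ a => (a ⟨_, rfl⟩).elim) fun _ _ a => (a trivial).elim
  E' _ _ _ _ _ := iff_of_true trivial ⟨1, isUnit_one,
    Sum.rec (fun _ a => (a ⟨_, rfl⟩).elim) fun _ _ a => (a trivial).elim⟩

/-- **New blocks with one field do not change the invariants.** -/
theorem addp (hZ : St.PresZ) (hS : St.SelC) : ADDP := by
  intro J R K I _ _ _ _ _ _ F π A n k hA h hk
  have h' := ap_mdl (I := I) hA.toMC h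
  have hk' : (addP I F π).Big k := let ⟨_, _, a, b⟩ := hk; ⟨_, _, ap_ample h a, b⟩
  obtain ⟨a, b⟩ := cmp_of_pres hZ hS (ap_pres (I := I) hA.toMC h) h.abs h'.abs (fun _ => id)
    h.nice h'.nice hk hk' _ ap_ev
  refine ⟨K, inferInstance, addP I F π, k, ap_pv hA, h', hk', fun d => ap_mv (I := I) d ▸ a d,
    fun d e he => b _ fun d' c => he (funext fun i => ?_)⟩
  exact congrFun (c.trans (ap_mv d')) (.inr i)

end Vale.Agent.P287Q.Emb
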