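import Vale.Agent.P269.Gen.Defs

/-!
# Movable fields that are holomorphic functions of the other fields (definition)
-/

namespace Vale.Agent.P269

open Set Function Topology Filter MvPolynomial

variable {S Λ R J K K' : Type} [Fintype S] [Fintype Λ] [Fintype R] [Fintype J] [Fintype K]
  [Fintype K']

/-- The vanishing base fields `T` of `F` are movable in `F'`, where they are holomorphic functions
of the other fields. -/
structure Fam.DetH (F : Fam S Λ R J K) (F' : Fam S Λ R J K') (T : Set J) (φ : K → K') : Prop where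
  wt : F'.toWt = F.toWt
  B : F'.B = F.B
  E : F'.E = F.E
  mov : F'.mov = F.mov ∪ T
  zer : F'.zer = F.zer \ T
  sub : T ⊆ F.zer
  wk : ∀ k, F'.wk (φ k) = F.wk k
  G : ∀ k, F'.G (φ k) = F.G k
  free : ∀ k, ∀ α ∈ (F.G k).support, ∀ j ∈ T, α j = 0
  down : ∀ z ∈ F'.cone, ∀ y : J → ℂ, (∀ j ∈ T, y j = 0) → (∀ j ∉ T, y j = z.2 j) →
    (z.1, y) ∈ F.cone
  uniq : ∀ l y y', (l, y) ∈ F'.cone → (l, y') ∈ F'.cone → (∀ j ∉ T, y j = y' j) → y = y'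
  hol : ∀ z ∈ F.cone, ∃ Φ : (Λ → ℂ) × (J → ℂ) → J → ℂ, AnalyticAt ℂ Φ z ∧
    ∀ᶠ w in 𝓝 z, w ∈ F.cone → (∀ j ∉ T, Φ w j = w.2 j) ∧ (w.1, Φ w) ∈ F'.cone
  tan : ∀ z ∈ F'.cone, ∀ y : J → ℂ, (∀ j ∈ T, y j = 0) → (∀ j ∉ T, y j = z.2 j) →
    ∀ η ∈ F.vert (z.1, y), ∃ η' ∈ F'.vert z, ∀ j ∉ T, η' j = η j
  inf : ∀ z ∈ F'.cone, ∀ η ∈ F'.vert z, (∀ j ∉ T, η j = 0) → η = 0

end Vale.Agent.P269
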