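import Mathlib

/-!
# Solutions of injective linear systems with analytic coefficients are analytic
-/

namespace Vale.Agent.P287Q.Emb

open Set Function Topology Filter

theorem an_solve {P E F : Type} [NormedAddCommGroup P] [NormedSpace ℂ P] [NormedAddCommGroup E]
    [NormedSpace ℂ E] [FiniteDimensional ℂ E] [NormedAddCommGroup F] [NormedSpace ℂ F]
    [FiniteDimensional ℂ F] {M : P → E →L[ℂ] F} {a : P → E} {b : P → F} {p : P}
    (hM : AnalyticAt ℂ M p) (hi : Injective (M p)) (hb : AnalyticAt ℂ b p) :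
    ∃ c : P → E, AnalyticAt ℂ c p ∧ ∀ᶠ t in 𝓝 p, M t (a t) = b t → a t = c t := by
  have := FiniteDimensional.complete ℂ E
  obtain ⟨L, hL⟩ := (M p).toLinearMap.exists_leftInverse_of_injective (LinearMap.ker_eq_bot.2 hi)
  let L' : F →L[ℂ] E := LinearMap.toContinuousLinearMap L
  let N : P → E →L[ℂ] E := fun t => L' ∘L M t
  have h1 : AnalyticAt ℂ N p :=
    ((ContinuousLinearMap.compL ℂ E F E L').analyticAt _).comp hM
  have h2 : N p = (1 : (E →L[ℂ] E)ˣ) := ContinuousLinearMap.ext fun v => LinearMap.congr_fun hL v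
  have h3 : AnalyticAt ℂ (fun t => Ring.inverse (N t)) p :=
    (analyticAt_inverse (𝕜 := ℂ) (1 : (E →L[ℂ] E)ˣ)).comp_of_eq h1 h2
  have h4 : ∀ᶠ t in 𝓝 p, IsUnit (N t) :=
    h1.continuousAt.eventually (Units.isOpen.mem_nhds (h2 ▸ Units.isUnit _))
  refine ⟨fun t => Ring.inverse (N t) (L' (b t)),
    ((ContinuousLinearMap.id ℂ (E →L[ℂ] E)).analyticAt_bilinear _).comp₂ h3
      ((L'.analyticAt _).comp hb), h4.mono fun t ht e => ?_⟩
  have := DFunLike.congr_fun (Ring.inverse_mul_cancel _ ht) (a t)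
  exact this.symm.trans (congrArg (fun v => Ring.inverse (N t) (L' v)) e)

variable {J K : Type} [Fintype J] [Fintype K]

/-- a matrix as a continuous linear map -/
noncomputable def matL : (K → J → ℂ) →L[ℂ] (J → ℂ) →L[ℂ] K → ℂ :=
  LinearMap.toContinuousLinearMap
    { toFun := fun M => LinearMap.toContinuousLinearMap
        { toFun := fun η k => ∑ j, M k j * η j
          map_add' := fun _ _ => funext fun k => by simp [mul_add, Finset.sum_add_distrib]
          map_smul' := fun _ _ => funext fun k => by simp [Finset.mul_sum, mul_left_comm] }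
      map_add' := fun _ _ => ContinuousLinearMap.ext fun _ => funext fun k => by
        simp [add_mul, Finset.sum_add_distrib]
      map_smul' := fun _ _ => ContinuousLinearMap.ext fun _ => funext fun k => by
        simp [Finset.mul_sum, mul_assoc] }

theorem matL_apply (M : K → J → ℂ) (η : J → ℂ) (k : K) : matL M η k = ∑ j, M k j * η j := rfl

theorem an_solve_mat {M : ℂ → K → J → ℂ} {a : ℂ → J → ℂ} {T : Set J}
    (hM : ∀ k j, AnalyticAt ℂ (M · k j) 0) (ha : ∀ t, ∀ j ∉ T, a t j = 0)
    (hi : ∀ η : J → ℂ, (∀ j ∉ T, η j = 0) → (∀ k, ∑ j, M 0 k j * η j = 0) → η = 0)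
    (hb : ∀ k, AnalyticAt ℂ (fun t => ∑ j, M t k j * a t j) 0) (j : J) :
    AnalyticAt ℂ (a · j) 0 := by
  classical
  let M' : ℂ → K ⊕ J → J → ℂ := fun t => Sum.elim (M t) fun i i' => if i ∉ T ∧ i' = i then 1 else 0
  have h1 : ∀ (η : J → ℂ) t i, matL (M' t) η (.inr i) = if i ∉ T then η i else 0 := fun η t i => by
    by_cases h : i ∈ T <;> simp [matL_apply, M', h]
  have h0 : AnalyticAt ℂ M' 0 := analyticAt_pi_iff.2 fun k => analyticAt_pi_iff.2 fun i => by
    rcases k with k | k
    exacts [hM k i, analyticAt_const]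
  obtain ⟨c, a1, a2⟩ := an_solve (M := fun t => matL (M' t)) (a := a)
    (b := fun t => Sum.elim (fun k => ∑ j, M t k j * a t j) 0) (p := 0)
    (((matL (J := J) (K := K ⊕ J)).analyticAt (M' 0)).comp (f := M') h0)
    ((injective_iff_map_eq_zero _).2 fun η e => hi η
      (fun i h => by simpa [h1, h] using congrFun e (.inr i)) fun k => congrFun e (.inl k))
    (analyticAt_pi_iff.2 fun k => by
      rcases k with k | k
      exacts [hb k, analyticAt_const])
  refine (analyticAt_pi_iff.1 a1 j).congr (a2.mono fun t e => (congrFun (e (funext fun k => ?_)) j).symm)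
  rcases k with k | k
  · rfl
  · rw [h1]
    split_ifs with h
    exacts [rfl, ha t k h]

end Vale.Agent.P287Q.Emb
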