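import Vale.Agent.P287Q.G.Map.E5
import Vale.Agent.P287Q.G.Vir.RP
import Vale.Agent.P287Q.Emb.DefH
import Vale.Agent.P287Q.Emb.Sol

/-!
# Movable fields that are holomorphic functions of the other fields
-/

set_option linter.unusedSectionVars false

namespace Vale.Agent.P269

open P291Z Set Function Topology Filter Module Vir Base Cv
open MvPolynomial hiding funext

variable {S Λ R J K K' ι ν κ : Type} [Fintype S] [Fintype Λ] [Fintype R] [Fintype J] [Fintype K]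
  [Fintype K'] [Fintype ι] [DecidableEq ι] [Fintype ν] [Fintype κ]

namespace Fam.DetH

variable {F : Fam S Λ R J K} {F' : Fam S Λ R J K'} {T : Set J} {φ : K → K'} (h : F.DetH F' T φ)
  {l : Λ → ℂ} {y η : J → ℂ}
include h

theorem not_mov {j : J} : j ∉ F'.mov ↔ j ∉ F.mov ∧ j ∉ T := by rw [h.mov, mem_union, not_or]

theorem zc_cone (hy : (l, y) ∈ F'.cone) : (l, zc T y) ∈ F.cone :=
  h.down _ hy _ (fun _ => zc_mem y) fun _ => zc_not y

theorem up (z) (hz : z ∈ F.cone) : ∃ y : J → ℂ, (∀ j ∉ T, y j = z.2 j) ∧ (z.1, y) ∈ F'.cone :=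
  let ⟨_, _, a⟩ := h.hol z hz
  ⟨_, a.self_of_nhds hz⟩

theorem val (hy : (l, y) ∈ F'.cone) : ∃ Φ : (Λ → ℂ) × (J → ℂ) → J → ℂ,
    AnalyticAt ℂ Φ (l, zc T y) ∧ ∀ᶠ w in 𝓝 (l, zc T y), ∀ y', (w.1, y') ∈ F'.cone →
      zc T y' = w.2 → y' = Φ w :=
  (h.hol _ (h.zc_cone hy)).imp fun _ a => ⟨a.1, a.2.mono fun w b y' c d =>
    have e := b (mem_of_eq_of_mem (show w = (w.1, zc T y') from Prod.ext rfl d.symm) (h.zc_cone c))
    h.uniq _ _ _ c e.2 fun j f => (zc_not y' f).symm.trans ((congrFun d j).trans (e.1 j f).symm)⟩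

theorem sum_jac (k : K) :
    ∑ j, F'.jac (l, y) (φ k) j * η j = ∑ j, F.jac (l, zc T y) k j * zc T η j := by
  refine (Vir.hasDerivAt_eval _ _ _).unique ((Vir.hasDerivAt_eval _ _ _).congr_of_eventuallyEq
    (.of_forall fun ε => ?_))
  simp only [fib, h.G, MvPolynomial.eval_eq']
  exact Finset.sum_congr rfl fun β hβ => congrArg _ (prod_pow_congr
    (h.free k β (MvPolynomial.support_map_subset _ _ hβ)) fun i a => by rw [zc_not y a, zc_not η a])

theorem tan' (z) (hz : z ∈ F'.cone) (η : J → ℂ) (h1 : ∀ j ∉ F.mov, η j = 0)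
    (h2 : ∀ k, ∑ j, F'.jac z (φ k) j * η j = 0) :
    ∃ η' : J → ℂ, (∀ j ∉ T, η' j = η j) ∧ ∀ k, ∑ j, F'.jac z k j * η' j = 0 := by
  obtain ⟨η', a, b⟩ := h.tan z hz _ (fun _ => zc_mem z.2) (fun _ => zc_not z.2) (zc T η)
    (RP.mem_vert.2 ⟨fun j a => by
      by_cases b : j ∈ T
      exacts [zc_mem η b, (zc_not η b).trans (h1 j a)], fun k => (h.sum_jac k).symm.trans (h2 k)⟩)
  exact ⟨η', fun j c => (b j c).trans (zc_not η c), (RP.mem_vert.1 a).2⟩

theorem inf' (z) (hz : z ∈ F'.cone) (h1 : ∀ j ∉ T, η j = 0)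
    (h2 : ∀ k, ∑ j, F'.jac z k j * η j = 0) : η = 0 :=
  h.inf z hz η (RP.mem_vert.2 ⟨fun j a => h1 j (h.not_mov.1 a).2, h2⟩) h1

end Fam.DetH

namespace Ch

variable {ch : Ch ι J} {T : Set J} {x : ch.WF ν κ Λ} {W : Wt S Λ R J}
  {F : Fam S Λ R J K} {F' : Fam S Λ R J K'} {φ : K → K'} {e : K' → ι → ℕ} {K₀ : RD R}
  {K₀' : RD R} {ℓ : R → ι → ℤ} {S₀ : Set (ch.WF ν κ Λ)} {u : ν → J → ℕ} {z : ch.Pt}

section div

variable {X : Type} [TopologicalSpace X] [T2Space X] [CompactSpace X] {Q : RS X}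
  {N : Finset (X × X)} {A : ι → LB Q} {π : X → V ch.M} {u : X → ∀ l, ch.E l →L[ℂ] ℂ}
  {p : Mk ν κ → X} {ξ : X → ℂ} (hx : Cr N A x.2 π u p ξ)
include hx

theorem pt_node {n : X × X} (hn : n ∈ N) : ((π n.1, u n.1) : ch.Pt) = (π n.2, u n.2) :=
  Prod.ext (node_eq hx.par.sec hn)
    (funext fun l => ContinuousLinearMap.ext fun v => (hx.u_mem l v).2 n hn)

/-- **division**: thickened fields given pointwise by an injective linear system are holomorphic -/
theorem Std.sec_divs (h : ch.Std F' e K₀' ℓ) {w : ch.P K'} (hw : w ∈ ch.polF F' e)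
    {Y : X → ∀ j, ch.Th j →ₗ[ℂ] ℂ} (h0 : ∀ t, ∀ j ∉ T, Y t j = 0)
    (h1 : ∀ t, (pd F' e x (π t, u t)).dEq pwT (Y t) = evZ (π t, u t) w) (t : X)
    {ζ : ch.Zt} (hζ : ∀ i, ζ i (π t i) = 1) (h2 : ∀ η : J → ℂ, (∀ j ∉ T, η j = 0) →
      (∀ k, ∑ j, (pd F' e x (π t, u t)).D k ζ j * η j = 0) → η = 0) (j : J) (μ : ch.Th j) :
    (bz A fun i => ch.a (some j) i).Sec (fun t => Y t j μ) t := by
  have a := (map_polF h.inv h.fits h.wt h.cuts.ne hx).le ⟨w, hw, rfl⟩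
  have b : (bz A fun i => ch.a (some j) i).Sec (fun t => Y t j (pwT ζ j)) t := by
    refine P287Q.Emb.an_solve_mat (T := T)
      (M := fun s k j => ((bz A fun i => F'.dk ℓ k i + e k i) / bz A fun i => ch.a (some j) i).loc
        (fun y => (pd F' e x (π y, u y)).D k ζ j) t s)
      (a := fun s j => (bz A fun i => ch.a (some j) i).loc (fun t => Y t j (pwT ζ j)) t s)
      (fun k j => (h.D_mem hx k j ζ).1 t) (fun s j c => ?_) (fun η c d => h2 η c fun k => ?_)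
      (fun k => AnalyticAt.congr ((a.2.2.1 k ζ).1 t) (.of_forall fun s => ?_)) j
    · simp only [LB.loc, h0 _ j c, LinearMap.zero_apply, zero_div]
    · simpa only [LB.loc_zero] using d k
    · refine (congrArg (· / _) (congrFun (congrFun (congrArg Prod.snd (h1 _)) k) ζ).symm).trans
        ((Finset.sum_div _ _ _).trans (Finset.sum_congr rfl fun j _ => ?_))
      simp only [LB.loc, LB.div_φ]
      field_simp [LB.ne]
  have c := (Cv.val_mem hx.par.sec (pwT ζ j)).1 t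
  have d : val (pwT ζ j) (π t) ≠ 0 := by
    rw [show val (pwT ζ j) (π t) = _ from tvZ_pwT _ _ _]
    simp [hζ]
  have f := (a.1 j (μ, pwT ζ j)).1 t
  rw [show (bz A fun i => (ch.a (some j) i + ch.b j i : ℤ)) = _ from Cv.bz_add _ _ _] at f
  have g := (f.add (b.mul ((Cv.val_mem hx.par.sec μ).1 t))).div c d
  rw [mul_div_cancel_right] at g
  refine g.congr ((c.ev_ne d).mono fun s hs => div_eq_of_eq_mul hs ?_)
  refine (congrArg (· + _) (congrFun (congrFun (congrArg Prod.fst (h1 s)) j) _).symm).trans ?_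
  change val (pwT ζ j) (π s) * Y s j μ - val μ (π s) * Y s j (pwT ζ j) +
    Y s j (pwT ζ j) * val μ (π s) = Y s j μ * val (pwT ζ j) (π s)
  ring

end div

variable (h : F.DetH F' T φ)
include h

theorem dh_not {j : J} : j ∉ F'.mov ↔ j ∉ F.mov ∧ j ∉ T := by rw [h.mov, mem_union, not_or]

theorem dh_adm (hF : F'.Inv) : x ∈ ch.adm ν κ F' ↔ zr T x ∈ ch.adm ν κ F := by
  refine ⟨fun ⟨a, b, c, d, f⟩ => ⟨h.B ▸ a, fun j hj y hy => ?_, fun y hy => h.E ▸ hF.baseE _ _ _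
    (fun j hj => (fld_kill ((dh_not h).1 hj).2 y).symm) (c y hy), fun j hj => ?_, fun j hj q => ?_⟩,
    fun ⟨a, b, c, d, f⟩ => ⟨h.B.symm ▸ a, fun j hj y hy => ?_, fun y hy => hF.baseE _ _ _
      (fun j hj => fld_kill ((dh_not h).1 hj).2 y) (h.E.symm ▸ c y hy), fun j hj => ?_,
      fun j hj q => ?_⟩⟩
  · by_cases g : j ∈ T
    · exact ⟨0, fun v _ μ => by simp [kill_X' g]⟩
    · exact val_zr x g ▸ b j ((dh_not h).2 ⟨hj, g⟩) y hy
  · by_cases g : j ∈ T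
    exacts [kill_X' g, (kill_X g).trans (d j (h.zer.ge ⟨hj, g⟩))]
  · by_cases g : j ∈ T
    · exact (fld_of_zero (x := (zr T x).2) (a.2.1.2.2.2.1 _).1 (kill_X' g)).trans
        (fld_of_zero (x := (zr T x).2) (a.2.1.2.2.2.1 _).1 (kill_X' g)).symm
    · exact (fld_kill g _).trans ((f j ((dh_not h).2 ⟨hj, g⟩) q).trans (fld_kill g _).symm)
  · exact val_zr x ((dh_not h).1 hj).2 ▸ b j ((dh_not h).1 hj).1 y hy
  · exact (kill_X (h.zer.le hj).2).symm.trans (d j (h.zer.le hj).1)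
  · obtain ⟨g, g'⟩ := (dh_not h).1 hj
    exact (fld_kill g' _).symm.trans ((f j g q).trans (fld_kill g' _))

theorem dh_main (hF : F'.Inv) : x ∈ ch.main κ F' u ↔ zr T x ∈ ch.main κ F u :=
  and_congr (dh_adm h hF) ⟨fun a j b c γ d =>
    have g : j ∉ T := fun g => c (h.sub g)
    (congrArg (analyticOrderAt · 0) (funext fun _ => fld_kill g _)).trans
      (a j ((dh_not h).2 ⟨b, g⟩) (fun f => c (h.zer.le f).1) γ d), fun a j b c γ d =>
    have g := (dh_not h).1 b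
    (congrArg (analyticOrderAt · 0) (funext fun _ => fld_kill g.2 _)).symm.trans
      (a j g.1 (fun f => c (h.zer.ge ⟨f, g.2⟩)) γ d)⟩

theorem dh_maps : MapsTo (zr T) (ch.solF ν κ F') (ch.solF ν κ F) := fun x hx =>
  ⟨h.B ▸ hx.1, hx.2.1, fun z hz =>
    let ⟨y, a, b⟩ := exists_cone hx hz
    ⟨zc T y, (h.down _ a _ (fun _ => zc_mem y) fun _ => zc_not y).2, fun j μ => by
      by_cases g : j ∈ T
      · simp [kill_X' g, zc_mem y g]
      · rw [kill_X g, zc_not y g]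
        exact LinearMap.congr_fun (b j) μ⟩⟩

theorem dh_eqM (S₀ : Set (ch.WF ν κ Λ)) : EqM (actF F.toWt) (actF F.toWt)
    (ch.solF ν κ F' ∩ zr T ⁻¹' S₀) (ch.solF ν κ F ∩ S₀) id (zr T) :=
  .same (fun _ a => ⟨dh_maps h a.1, a.2⟩) continuous_kill.continuousOn fun s _ _ _ => kill_actF s

theorem dh_D (k : K) (ζ : ch.Zt) (j : J) :
    (pd F' e x z).D (φ k) ζ j = (pd F (fun k => e (φ k)) (zr T x) z).D k ζ j := by
  rw [D_eq, D_eq, h.G]
  exact Finset.sum_congr rfl fun β a => congrArg (_ * ·) (congrArg (· * _) (prod_pow_congr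
    (fun i b => by simp [h.free k β a i b]) fun i b => by rw [yv_zr z b]))

theorem dh_dEq (Y : ∀ j, ch.Th j →ₗ[ℂ] ℂ) (k : K) (ζ : ch.Zt) :
    ((pd F' e x z).dEq pwT Y).2 (φ k) ζ = ((pd F' e x z).dEq pwT (zY T Y)).2 (φ k) ζ :=
  Finset.sum_congr rfl fun j _ => by
    by_cases a : j ∈ T
    · rw [D_zero fun β b => h.free k β (h.G k ▸ b) j a, zero_mul, zero_mul]
    · rw [zY_not Y a]

theorem dh_pol {w : ch.P K'} (hw : w ∈ ch.polF F' e) :
    BT T φ w ∈ ch.polF F fun k => e (φ k) :=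
  mem_polS.2 ⟨fun j => by
    by_cases a : j ∈ T
    · exact mem_of_eq_of_mem (BT_mem w a) (zero_mem _)
    · exact mem_of_eq_of_mem (BT_not w a) ((mem_polS.1 hw).1 j), fun k => Submodule.span_mono (by
      rintro _ ⟨β, a, b⟩
      exact ⟨β, (congrArg (β ∈ MvPolynomial.support ·) (h.G k)).mp a, b⟩) ((mem_polS.1 hw).2 (φ k))⟩

theorem dh_lin (O : Set (ch.WF ν κ Λ)) :
    (ch.kd ν κ F' e).Lin (ch.kd ν κ F fun k => e (φ k)) id (zr T) O (BT T φ) := by
  refine ⟨fun _ => dh_pol h, fun s _ w _ => P_ext (fun j z m => ?_) fun k z ζ => ?_,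
    fun x _ w hw => mem_vanM.2 ⟨dh_pol h hw.1, fun z hz => ?_⟩,
    fun x _ => mem_of_eq_of_mem (sub_eq_zero.2 (P_ext (fun j z m => ?_) fun k z ζ => ?_))
      (zero_mem _), fun x _ _ w hw => mem_obsM.2 ⟨dh_pol h hw.1, fun z hz => ?_⟩⟩
  · change (BT T φ (ρF F' s w)).1 j z m = (ρF F s (BT T φ w)).1 j z m
    by_cases a : j ∈ T
    · rw [ρF_fst, BT_mem _ a, BT_mem _ a]
      exact (mul_zero _).symm
    · rw [ρF_fst, BT_not _ a, BT_not _ a, ρF_fst, h.wt]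
  · exact (ρF_snd s w _ z ζ).trans (h.wk k ▸ rfl)
  · have b := ((mem_vanM (x := x)).1 hw).2 z hz
    refine Prod.ext (funext fun j => ?_) (funext fun k => congrFun (congrArg Prod.snd b) (φ k))
    by_cases a : j ∈ T
    · exact congrFun (BT_mem (φ := φ) w a) z
    · exact (congrFun (BT_not (φ := φ) w a) z).trans (congrFun (congrArg Prod.fst b) j)
  · change (BT T φ (sctF F' e x)).1 j z m = kos (tvZ z.1 j) (yv (zr T x).2 z j) m
    by_cases a : j ∈ T
    · rw [BT_mem _ a, yv_zr' z a, kos_zero]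
      rfl
    · rw [BT_not _ a, yv_zr z a]
      rfl
  · refine (sctF_snd x _ z ζ).trans (Eq.trans ?_ (sctF_snd _ k z ζ).symm)
    rw [eval_hp, eval_hp, h.G]
    exact Finset.sum_congr rfl fun β a => congrArg (· * _) (congrArg (_ * ·) (prod_pow_congr
      (h.free k β a) fun i b => by rw [kill_X b]))
  · obtain ⟨Y, a, b⟩ := PD.mem_Im.1 (((mem_obsM (x := x)).1 hw).2 z hz)
    refine PD.mem_Im.2 ⟨zY T Y, fun j hj => ?_, Prod.ext (funext fun j => ?_)
      (funext₂ fun k ζ => ?_)⟩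
    · by_cases c : j ∈ T
      exacts [zY_mem Y c, (zY_not Y c).trans (a j ((dh_not h).2 ⟨hj, c⟩))]
    · change kos _ (zY T Y j) = (BT T φ w).1 j z
      by_cases c : j ∈ T
      · rw [zY_mem Y c, BT_mem w c]
        exact funext kos_zero
      · rw [zY_not Y c, BT_not w c]
        exact congrFun (congrArg Prod.fst b) j
    · exact (Finset.sum_congr rfl fun j _ => congrArg (· * _) (dh_D h k ζ j).symm).trans
        ((dh_dEq h Y k ζ).symm.trans (congrFun (congrFun (congrArg Prod.snd b) _) ζ))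

theorem dh_injOn : InjOn (zr T) (ch.solF ν κ F') := fun x hx x' hx' a => by
  have b : ∀ j ∉ T, x.2.X j = x'.2.X j := fun j c =>
    (kill_X c).symm.trans ((congrArg (·.2.X j) a).trans (kill_X c))
  have c : x.1 = x'.1 := (congrArg Prod.fst a :)
  refine Prod.ext c (W.ext (fun l => (congrArg (·.2.Q l) a :)) (fun n => (congrArg (·.2.p n) a :))
    (congrArg (·.2.Ξ) a :) fun j => ?_)
  refine ContinuousLinearMap.ext fun μ => sub_eq_zero.1 (gr_inj hx.2.1 fun z hz => ?_)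
  obtain ⟨y, a1, a2⟩ := exists_cone hx hz
  obtain ⟨y', b1, b2⟩ := exists_cone hx' ((congrArg (gr ·.2) a).le hz)
  have g := h.uniq x.1 y y' a1 (c ▸ b1) fun i hi => tvZ_cancel hz.1
    ((a2 i).symm.trans (Eq.trans (by rw [yv, yv, b i hi]) (b2 i)))
  rw [map_sub, sub_eq_zero]
  exact (LinearMap.congr_fun (a2 j) μ).trans ((congrArg (· * _) (congrFun g j)).trans
    (LinearMap.congr_fun (b2 j) μ).symm)

theorem dh_zero (hx : x ∈ ch.solF ν κ F) {j : J} (hj : j ∈ T) : x.2.X j = 0 :=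
  ContinuousLinearMap.ext fun μ => gr_inj hx.2.1 fun _ hz =>
    let ⟨_, a, b⟩ := hx.2.2 _ hz
    (b j μ).trans (mul_eq_zero_of_left (a.1.2.2 j (h.sub hj)) _)

theorem dh_rel (hf : ch.Fits F' e) {y : J → ℂ} (hy : ∀ j, yv x.2 z j = y j • tvZ z.1 j) (k : K')
    (ζ : ch.Zt) {j : J} (hj : j ∈ T) : (pd F' e x z).D k ζ j * tvZ z.1 j (pwT ζ j) =
      F'.jac (x.1, y) k j * ∏ i, ζ i (z.1 i) ^ e k i := hf.rel hy k ζ j (h.mov.ge (Or.inr hj))

theorem dh_surjOn (hs : ch.Std F' e K₀' ℓ) :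
    SurjOn (zr T) (ch.solF ν κ F') (ch.solF ν κ F) := fun x hx => by
  classical
  obtain ⟨X, _, _, _, Q, N, A, π, u, p, ξ, hc⟩ := exists_cr hx.1.2.1
  choose y a1 a2 using fun t => exists_cone hx (hc.gr t)
  choose y' b1 b2 using fun t => h.up _ (a1 t)
  have m : ∀ j ∉ T, (fun t => y' t j) ∈ H0 N (bz A fun i => ch.a (some j) i - ch.b j i) :=
    fun j hj => hc.field_mem (F := x.2.X j) fun t μ =>
      (LinearMap.congr_fun (a2 t j) μ).trans (congrArg (· * _) (b1 t j hj).symm)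
  have c : ∀ j, ∃ v : ch.Th j →L[ℂ] ch.E (some j), (j ∉ T → v = x.2.X j) ∧
      ∀ t μ, u t (some j) (v μ) = y' t j * val μ (π t) := fun j => by
    by_cases hj : j ∈ T
    swap
    · exact ⟨_, fun _ => rfl, fun t μ => b1 t j hj ▸ LinearMap.congr_fun (a2 t j) μ⟩
    refine (hc.exists_field (hs.cuts.ne _) ⟨fun t => ?_, fun n hn => congrFun
      (h.uniq _ _ _ (b2 n.1) (b2 n.2) fun i hi => (m i hi).2 n hn) j⟩).imp
        fun _ g => ⟨fun f => absurd hj f, g⟩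
    let v : ℂ → J → ℂ := fun s i =>
      (bz A fun r => ch.a (some i) r - ch.b i r).loc (fun t => y' t i) t s
    have v1 : ∀ s, (x.1, v s) ∈ F'.cone := fun s => by
      have := hs.wt.cone_smul hs.inv (t := fun r => ((A r).φ t (Q.i t s))⁻¹)
        (fun r => inv_ne_zero ((A r).ne _ _)) (b2 (Q.i t s))
      refine mem_of_eq_of_mem ?_ this
      refine Prod.ext rfl (funext fun i => ?_)
      simp only [v, LB.loc, bz_φ, inv_zpow, Finset.prod_inv_distrib, div_eq_inv_mul, wd]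
    have v2 : AnalyticAt ℂ (fun s => (x.1, zc T (v s))) 0 :=
      analyticAt_const.prod (analyticAt_pi_iff.2 fun i => by
        by_cases g : i ∈ T
        · simp only [zc_mem _ g]
          exact analyticAt_const
        · simp only [zc_not _ g]
          exact (m i g).1 t)
    obtain ⟨Φ, d1, d2⟩ := h.val (v1 0)
    exact (analyticAt_pi_iff.1 (d1.comp_of_eq v2 rfl) j).congr
      ((v2.continuousAt.eventually d2).mono fun s g => (congrFun (g _ (v1 s) rfl) j).symm)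
  choose v c1 c2 using c
  refine ⟨(x.1, W.mk' x.2.Q x.2.p x.2.Ξ v), ⟨h.B.symm ▸ hx.1, (hc.setX v).mem_sol.2
    ⟨fun j t => y' t j, c2, fun t s a => (hs.wt.cone_smul hs.inv a (b2 t)).2⟩⟩,
    Prod.ext rfl (W.ext (fun _ => rfl) (fun _ => rfl) rfl fun j => ?_)⟩
  by_cases hj : j ∈ T
  exacts [(kill_X' hj).trans (dh_zero h hx hj).symm, (kill_X hj).trans (c1 j hj)]

theorem dh_pinj (hf : ch.Fits F' e) (hx : x ∈ ch.solF ν κ F') (hz : z ∈ gr x.2)
    {Y : ∀ j, ch.Th j →ₗ[ℂ] ℂ} (h0 : ∀ j ∉ T, Y j = 0) (h1 : (pd F' e x z).dEq pwT Y = 0) :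
    Y = 0 := by
  obtain ⟨y, a1, a2⟩ := exists_cone hx hz
  obtain ⟨η, c1, rfl⟩ := PD.exists_eta (d := pd F' e x z) (pw := pwT) (mov := T)
    (fun j _ => tvZ_ne hz.1 j) h0 (congrArg Prod.fst h1)
  obtain ⟨ζ, d⟩ := exists_Zt (ch := ch) hz.1
  rw [(hf.rel a2).dEq_tv fun j hj => c1 j ((dh_not h).1 hj).2] at h1
  obtain rfl := h.inf' _ a1 c1 fun k => by
    simpa [PD.nrm, pd, d] using congrFun (congrFun (congrArg Prod.snd h1) k) ζ
  exact funext fun j => zero_smul _ _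

theorem dh_inj (hf : ch.Fits F' e) (hx : x ∈ ch.solF ν κ F') (v : ch.Fm T ch.hf)
    (hv : dT F' e T x v ∈ vanM F' e x) : v = 0 :=
  funext fun j => ContinuousLinearMap.ext fun μ => gr_inj hx.2.1 fun z hz =>
    (uZ_mem v z j.2 μ).symm.trans (LinearMap.congr_fun (congrFun (dh_pinj h hf hx hz
      (fun _ => uZ_not v z) ((mem_vanM.1 hv).2 z hz)) j) μ)

theorem dh_pt (hf : ch.Fits F' e) (hx : x ∈ ch.solF ν κ F') (hz : z ∈ gr x.2) {w : ch.P K'}
    (hw : w ∈ obsM F' e x) (h0 : evZ z (BT T φ w) = 0) :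
    ∃ Y, (∀ j ∉ T, Y j = 0) ∧ (pd F' e x z).dEq pwT Y = evZ z w := by
  obtain ⟨y, a1, a2⟩ := exists_cone hx hz
  obtain ⟨Y, b1, b2⟩ := PD.mem_Im.1 ((mem_obsM.1 hw).2 z hz)
  obtain ⟨η, c1, c2⟩ := PD.exists_eta (d := pd F' e x z) (pw := pwT) (mov := F.mov) (Y := zY T Y)
    (fun j _ => tvZ_ne hz.1 j) (fun j hj => by
      by_cases c : j ∈ T
      exacts [zY_mem Y c, (zY_not Y c).trans (b1 j ((dh_not h).2 ⟨hj, c⟩))]) (funext fun j => by
      change kos _ (zY T Y j) = 0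
      by_cases c : j ∈ T
      · rw [zY_mem Y c]
        exact funext kos_zero
      · rw [zY_not Y c]
        exact (congrFun (congrArg Prod.fst b2) j).trans ((congrFun (BT_not (φ := φ) w c) z).symm.trans
          (congrFun (congrArg Prod.fst h0) j)))
  obtain ⟨ζ, d⟩ := exists_Zt (ch := ch) hz.1
  obtain ⟨η', f1, f2⟩ := h.tan' _ a1 η c1 fun k => by
    have := (dh_dEq h Y k ζ).symm.trans ((congrFun (congrFun (congrArg Prod.snd b2) _) ζ).trans
      (congrFun (congrFun (congrArg Prod.snd h0) k) ζ))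
    rw [c2, (hf.rel a2).dEq_tv fun j hj => c1 j ((dh_not h).1 hj).1] at this
    simpa [PD.nrm, pd, d] using this
  refine ⟨Y - fun j => η' j • (pd F' e x z).tv j, fun j hj => sub_eq_zero.2 ?_, ?_⟩
  · exact (zY_not Y hj).symm.trans ((congrFun c2 j).trans (congrArg (· • _) (f1 j hj).symm))
  · rw [map_sub, (hf.rel a2).dEq_tv fun j hj => (f1 j ((dh_not h).1 hj).2).trans
      (c1 j ((dh_not h).1 hj).1), funext f2, b2]
    exact sub_eq_self.2 (map_zero _)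

theorem dh_ker (hs : ch.Std F' e K₀' ℓ) (hx : x ∈ ch.solF ν κ F') {w : ch.P K'}
    (hw : w ∈ obsM F' e x) (h0 : BT T φ w ∈ vanM F (fun k => e (φ k)) (zr T x)) :
    ∃ v, w - dT F' e T x v ∈ vanM F' e x := by
  obtain ⟨X, _, _, _, Q, N, A, π, u, p, ξ, hc⟩ := exists_cr hx.1.2.1
  choose Y a b using fun t => dh_pt h hs.fits hx (hc.gr t) hw ((mem_vanM.1 h0).2 _ (hc.gr t))
  have c : ∀ j : T, ∃ v : ch.Th j →L[ℂ] ch.E (some j), ∀ t μ, u t (some j) (v μ) = Y t j μ :=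
    fun j => exists_lift (v := fun t => (Y t j).toContinuousLinearMap) fun μ =>
      hc.u_surj (hs.cuts.ne _) ⟨fun t => by
        obtain ⟨ζ, d⟩ := exists_Zt (ch := ch) (hc.gr t).1
        obtain ⟨y, f, g⟩ := exists_cone hx (hc.gr t)
        refine hs.sec_divs hc hw.1 a b t d (fun η c1 c2 => h.inf' _ f c1 fun k =>
          (Finset.sum_congr rfl fun i _ => ?_).trans (c2 k)) j μ
        by_cases hi : i ∈ T
        · exact congrArg (· * _) (by simpa [tvZ_pwT, d] using (dh_rel h hs.fits g k ζ hi).symm)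
        · rw [c1 i hi, mul_zero, mul_zero], fun n hn => by
        have f := b n.2
        rw [← pt_node hc hn] at f
        exact LinearMap.congr_fun (congrFun (sub_eq_zero.1 (dh_pinj h hs.fits hx (hc.gr n.1)
          (Y := Y n.1 - Y n.2) (fun i hi => sub_eq_zero.2 ((a _ i hi).trans (a _ i hi).symm))
          (by rw [map_sub, f, b, sub_self]))) j) μ⟩
  choose v c using c
  refine ⟨v, (mem_vanM_iff hs.inv hs.fits hc).2 ⟨sub_mem hw.1 (dT_mem hs.fits x v),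
    ext_evG fun t => ?_⟩⟩
  rw [evG_resC, map_sub, ← b t, map_zero, sub_eq_zero]
  refine congrArg ((pd F' e x (π t, u t)).dEq pwT) (funext fun j => ?_)
  by_cases hj : j ∈ T
  · exact LinearMap.ext fun μ => (c ⟨j, hj⟩ t μ).symm.trans (uZ_mem (z := (π t, u t)) v hj μ).symm
  · exact (a t j hj).trans (uZ_not _ _ hj).symm

/-- the fields in `T` of a solution depend continuously on the other data -/
theorem dh_tendsto (hc : ch.Cuts) {α : Type} {l : Filter α} {y : α → ch.WF ν κ Λ}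
    (hy : ∀ᶠ a in l, y a ∈ ch.solF ν κ F') (hx : x ∈ ch.solF ν κ F')
    (h1 : Tendsto (fun a => zr T (y a)) l (𝓝 (zr T x))) :
    Tendsto (fun a => qF T (y a)) l (𝓝 (qF T x)) := by
  refine tendsto_pi_nhds.2 fun j => ?_
  refine tendsto_clm_pt fun μ => tendsto_of_tests (u₀ := fun z : gr x.2 => z.1.2 (some j))
    (fun _ a => gr_inj hx.2.1 fun z b => a ⟨z, b⟩) fun z₀ => ?_
  obtain ⟨z, a, b⟩ := hc.exists_gr (x := fun a => (zr T (y a)).2) (x₀ := (zr T x).2)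
    (hy.mono fun _ a => a.2.1) hx.2.1 h1.snd_nhds z₀.2
  obtain ⟨c₀, c1, c2⟩ := exists_cone hx z₀.2
  obtain ⟨c, f⟩ := skolem.1 ((hy.and a).mono fun _ c => exists_cone c.1 c.2)
  have g : ∀ {x : ch.WF ν κ Λ} {z : ch.Pt} {c : J → ℂ}, (∀ i, yv x.2 z i = c i • tvZ z.1 i) →
      ∀ i, yv (zr T x).2 z i = zc T c i • tvZ z.1 i := fun a i => by
    by_cases b : i ∈ T
    · rw [yv_zr' _ b, zc_mem _ b, zero_smul]
    · rw [yv_zr _ b, zc_not _ b, a]
  have t := tendsto_coef h1 b z₀.2.1 (f.mono fun _ a => g a.2) (g c2)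
  obtain ⟨Φ, d1, d2⟩ := h.val c1
  have t' := (tendsto_pi_nhds.1 (d1.continuousAt.tendsto.comp t) j).mul (tendsto_tvZ b j μ)
  refine ⟨fun a => (z a).2 (some j), tendsto_pi_nhds.1 b.snd_nhds _, ?_⟩
  rw [show z₀.1.2 (some j) (qF T x j μ) = _ from LinearMap.congr_fun (c2 j) μ,
    d2.self_of_nhds c₀ c1 rfl]
  exact t'.congr' ((f.and (t.eventually d2)).mono fun _ a =>
    (congrArg (· * _) (congrFun (a.2 _ a.1.1 rfl) j).symm).trans
      (LinearMap.congr_fun (a.1.2 j) μ).symm)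

theorem dh_bij (hs : ch.Std F' e K₀' ℓ) : BijOn (zr T) (ch.solF ν κ F') (ch.solF ν κ F) :=
  ⟨dh_maps h, dh_injOn h, dh_surjOn h hs⟩

theorem dh_ζ (hx : x ∈ ch.solF ν κ F') : ζT T F' (zr T x) = qF T x :=
  congrArg (qF T) ((dh_injOn h).leftInvOn_invFunOn hx)

theorem dh_lift (hs : ch.Std F' e K₀' ℓ) (hx : zr T x ∈ ch.solF ν κ F) :
    zr T x + ιF T (ζT T F' (zr T x)) ∈ ch.solF ν κ F' := by
  obtain ⟨y, a, b⟩ := dh_surjOn h hs hx
  rwa [← b, dh_ζ h a, zr_add]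

theorem dh_cont (hs : ch.Std F' e K₀' ℓ) : ContinuousOn (ζT T F') (ch.solF ν κ F) := fun _ hx =>
  have a := (dh_bij h hs).invOn_invFunOn.2
  have b := (dh_surjOn h hs).mapsTo_invFunOn
  dh_tendsto h hs.cuts (eventually_mem_nhdsWithin.mono fun _ c => b c) (b hx)
    ((a hx).symm ▸ (tendsto_id.mono_left nhdsWithin_le_nhds).congr'
      (eventually_mem_nhdsWithin.mono fun _ c => (a c).symm))

/-- the data of the comparison -/
theorem dh_tt (hs : ch.Std F' e K₀' ℓ) (S₀ O : Set (ch.WF ν κ Λ)) :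
    KD.Tt (ch.kd ν κ F' e) (ch.kd ν κ F fun k => e (φ k)) (actF F.toWt) (ρT F.toWt T) (zr T) (qF T)
      (ch.solF ν κ F' ∩ zr T ⁻¹' S₀) (ch.solF ν κ F ∩ S₀) O (BT T φ) (dT F' e T) (ζT T F') := by
  refine ⟨dh_lin h O, fun x => ⟨fun a => ⟨⟨dh_maps h a.1, a.2⟩, (dh_ζ h a.1).symm⟩,
    fun a => ⟨?_, a.1.2⟩⟩, (dh_cont h hs).mono inter_subset_left, fun x _ => dT_mem hs.fits x,
    fun v => (continuous_dT v).continuousOn, fun x _ s a v => h.wt ▸ dT_act hs.inv a v,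
    fun x hx v w y c u a1 a2 a3 a4 => ?_, fun x a => dh_inj h hs.fits a.1,
    fun x a w => dh_ker h hs a.1⟩
  · have := dh_lift h hs a.1.1
    rwa [← a.2, zr_add] at this
  have p : ∀ᶠ n in atTop, c n • sctF F' e (y n) + u n ∈ ch.polF F' e :=
    .of_forall fun n => add_mem (Submodule.smul_mem _ _ (hs.fits.sctF_mem _)) (a1 n).2.2.1
  have p0 : w ∈ ch.polF F' e := isClosed_polS.mem_of_tendsto a4 p
  refine mem_vanM.2 ⟨sub_mem p0 (dT_mem hs.fits x v), fun z₀ hz => ?_⟩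
  obtain ⟨z, b1, b2⟩ := hs.cuts.exists_gr (x := fun n => (y n).2)
    (.of_forall fun n => (a1 n).2.1.1.2.1) hx.1.2.1 a2.snd_nhds hz
  have t1 := (continuous_kill (T := T).tendsto x).comp a2
  have t2 : Tendsto (fun n => ζT T F' (zr T (y n))) atTop (𝓝 (qF T x)) :=
    dh_ζ h hx.1 ▸ (dh_cont h hs _ (dh_maps h hx.1)).tendsto.comp
      (tendsto_nhdsWithin_iff.2 ⟨t1, .of_forall fun n => (a1 n).2.1.1⟩)
  have t3 := t1.add (((ιF T : _ →L[ℂ] ch.WF ν κ Λ).continuous.tendsto _).comp t2)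
  rw [zr_add] at t3
  have t4 := (((qF T : ch.WF ν κ Λ →L[ℂ] _).continuous.tendsto x).comp a2).sub t2
  rw [sub_self] at t4
  rw [map_sub, sub_eq_zero]
  refine tendsto_nhds_unique_of_eventuallyEq (tendsto_evZ p p0 a4 b2) (tendsto_dT t3 b2 t4 a3)
    (b1.mono fun n b => ?_)
  have f := (mem_vanM.1 (sctF_mem_vanM hs.fits (dh_lift h hs (a1 n).2.1.1))).2 _
    (show z n ∈ gr _ from ⟨b.1, fun l μ => (congrArg (fun q => (z n).2 l (q μ))
      (add_zero ((y n).2.Q l))).trans (b.2 l μ)⟩)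
  simp only [comp_apply, map_add, map_sub, map_smul, (mem_vanM.1 (a1 n).2.2).2 _ b, f,
    add_add_sub_cancel, zr_add, add_zero, sub_zero]

open Classical in
theorem dh_rk (hs : ch.Std F (fun k => e (φ k)) K₀ ℓ) (hr : ch.rk F' ℓ K₀' = ch.rk F ℓ K₀ +
      ∑ j with j ∈ T, finrank ℂ (ch.Th j) * ch.eu fun i => ch.a (some j) i)
    (hx : x ∈ ch.solF ν κ F') :
    (ch.rk F' ℓ K₀').toNat = finrank ℂ (ch.Fm T ch.hf) + (ch.rk F ℓ K₀).toNat := by
  let _ := Fintype.ofFinite T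
  have a : finrank ℂ (ch.Fm T ch.hf) = ∑ j : T, finrank ℂ (ch.Th j) * ch.hf j :=
    (finrank_pi_clm (fun j : T => ch.Th j) fun j => ch.E (some j)).trans (by simp)
  have b := hs.rk_nonneg (dh_maps h hx)
  have c : ∑ j with j ∈ T, finrank ℂ (ch.Th j) * ch.eu (fun i => ch.a (some j) i) =
      finrank ℂ (ch.Fm T ch.hf) := by
    rw [a, Finset.sum_subtype (p := (· ∈ T)) _ (by simp), Nat.cast_sum]
    exact Finset.sum_congr rfl fun j _ => by
      rw [Nat.cast_mul, h_eq₁ hx.2.1 (hs.cuts.ne _)]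
      rfl
  omega

variable (hs : ch.Std F (fun k => e (φ k)) K₀ ℓ) (hs' : ch.Std F' e K₀' ℓ)
include hs hs'

theorem dh_bijOn : BijOn (zr T) (ch.solF ν κ F') (ch.solF ν κ F) := dh_bij h hs'

open Classical in
/-- **determined fields do not change the virtual class** -/
theorem dh_isW (hr : ch.rk F' ℓ K₀' = ch.rk F ℓ K₀ +
      ∑ j with j ∈ T, finrank ℂ (ch.Th j) * ch.eu fun i => ch.a (some j) i)
    (hA : S₀ ⊆ ch.adm ν κ F) (hi : Ivt (actF F.toWt) S₀) (hl : IsLocallyClosed S₀) {d : ℕ}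
    [Nice (ModS F S₀)] {v : BM (ModS F S₀)}
    (hv : (ch.kd ν κ F fun k => e (φ k)).IsW (actF F.toWt) _ S₀ d v) :
    IsHomeomorph (dh_eqM h S₀).map ∧ ∃ d', (ch.kd ν κ F' e).IsW (actF F.toWt) _ (zr T ⁻¹' S₀) d'
      (res (dh_eqM h S₀).map v) := by
  obtain ⟨_, a⟩ := hs.reg' hA hi hl
  obtain ⟨_, b⟩ := hs'.reg' (S₀ := zr T ⁻¹' S₀) (fun _ b => (dh_adm h hs'.inv).2 (hA b))
    (h.wt ▸ fun s c x b => (mem_of_eq_of_mem (kill_actF s) (hi s c _ b) :))
    (hl.preimage continuous_kill)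
  rw [h.wt] at b
  exact (hv.tot (spt F.toWt T) (fun x c => funext fun j => (hA c).2.2.2.1 j (h.sub j.2)) b a
    (dh_tt h hs' S₀ _) (fun ⟨_, c⟩ => dh_rk h hs hr c.1) fun _ => rfl).imp_right fun c => ⟨_, c⟩

end Ch

end Vale.Agent.P269
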