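import Vale.Agent.P287Q.G.Map.DetD
import Vale.Agent.P287Q.Emb.Det

set_option linter.unusedSectionVars false
set_option linter.style.haveILetI false

/-!
# Holomorphically determined fields and the matched solutions
-/

namespace Vale.Agent.P269

open P291Z Set Function Topology Filter Base Holo

variable {S Λ R J K K' ι ν κ : Type} [Fintype S] [Fintype Λ] [Fintype R] [Fintype J] [Fintype K]
  [Fintype K'] [Fintype ι] [DecidableEq ι] [Fintype ν] [Fintype κ]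

namespace Fam.DetH

variable {F : Fam S Λ R J K} {F' : Fam S Λ R J K'} {T : Set J} {φ : K → K'} (h : F.DetH F' T φ)
  {l : Λ → ℂ} {y η : J → ℂ}
include h

theorem vert_zc (a : η ∈ F'.vert (l, y)) : zc T η ∈ F.vert (l, zc T y) :=
  mem_vert.2 ⟨fun j b => by
    by_cases c : j ∈ T
    exacts [zc_mem η c, (zc_not η c).trans ((mem_vert.1 a).1 j (h.not_mov.2 ⟨b, c⟩))],
    fun k => (h.sum_jac k).symm.trans ((mem_vert.1 a).2 _)⟩

theorem vert_inj (hy : (l, y) ∈ F'.cone) (a : η ∈ F'.vert (l, y)) (b : zc T η = 0) : η = 0 :=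
  h.inf _ hy η a fun j c => (zc_not η c).symm.trans (congrFun b j)

theorem vert_srj (hF : F.Inv) (hy : (l, y) ∈ F'.cone) (a : η ∈ F.vert (l, zc T y)) :
    ∃ η' ∈ F'.vert (l, y), zc T η' = η := by
  obtain ⟨a1, a2⟩ := mem_vert.1 a
  have b : ∀ {η'}, (∀ j ∉ T, η' j = η j) → zc T η' = η := fun {η'} e => funext fun j => by
    by_cases c : j ∈ T
    exacts [(zc_mem η' c).trans (a1 j (disjoint_left.1 hF.zer_base (h.sub c))).symm,
      (zc_not η' c).trans (e j c)]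
  obtain ⟨η', c1, c2⟩ := h.tan' _ hy η a1 fun k => by rw [h.sum_jac, b fun _ _ => rfl, a2]
  exact ⟨η', mem_vert.2 ⟨fun j d => (c1 j (h.not_mov.1 d).2).trans
    (a1 j (h.not_mov.1 d).1), c2⟩, b c1⟩

end Fam.DetH

namespace Ch

variable {ch : Ch ι J} {F : Fam S Λ R J K} {F' : Fam S Λ R J K'} {T : Set J} {φ : K → K'}
  {e : K' → ι → ℕ} {K₀ : RD R} {K₀' : RD R} {ℓ : R → ι → ℤ} {x : ch.WF ν κ Λ}
  (h : F.DetH F' T φ) (hs' : ch.Std F' e K₀' ℓ)
include h hs'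

theorem dh_dia (hx : x ∈ ch.solF ν κ F') : Dia (zr T x) ↔ Dia x := by
  have _ := hs'
  refine forall_congr' fun q => ?_
  rw [vl_zr hx.1.2.1, vl_zr hx.1.2.1]
  exact ⟨fun a => Prod.ext rfl (h.uniq _ _ _ (vl_mem hx _) (vl_mem hx _) fun j c =>
    (zc_not _ c).symm.trans ((congrFun (Prod.ext_iff.1 a).2 j).trans (zc_not _ c))),
    fun a => by rw [a]⟩

theorem dh_bijM : BijOn (zr T) (ch.zM ν κ F') (ch.zM ν κ F) :=
  ⟨fun _ a => ⟨dh_maps h a.1, (dh_main h hs'.inv).1 a.2⟩, (dh_injOn h).mono inter_subset_left,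
    fun _ a => let ⟨y, b, c⟩ := dh_surjOn h hs' a.1
      ⟨y, ⟨b, (dh_main h hs'.inv).2 (c ▸ a.2)⟩, c⟩⟩

theorem dh_bijD : BijOn (zr T) (ch.zD ν κ F') (ch.zD ν κ F) :=
  ⟨fun _ a => ⟨(dh_bijM h hs').mapsTo a.1, (dh_dia h hs' a.1.1).2 a.2⟩,
    (dh_bijM h hs').injOn.mono inter_subset_left, fun _ a =>
      let ⟨y, b, c⟩ := (dh_bijM h hs').surjOn a.1
      ⟨y, ⟨b, (dh_dia h hs' b.1).1 (c ▸ a.2)⟩, c⟩⟩

theorem dh_eqD : EqM (actF F.toWt) (actF F.toWt) (ch.zD ν κ F') (ch.zD ν κ F) id (zr T) :=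
  .same (dh_bijD h hs').mapsTo continuous_kill.continuousOn fun s _ _ _ => kill_actF s

open Classical in
/-- **determined fields do not change the virtual class of the matched solutions** -/
theorem dh_isD (hs : ch.Std F (fun k => e (φ k)) K₀ ℓ) (hr : ch.rk F' ℓ K₀' = ch.rk F ℓ K₀ +
      ∑ j with j ∈ T, Module.finrank ℂ (ch.Th j) * ch.eu fun i => ch.a (some j) i)
    (hl : IsLocallyClosed (ch.main κ F (0 : ν → J → ℕ)))
    [Nice (Quo (actF F.toWt) (ch.zD ν κ F))] {w : BM (Quo (actF F.toWt) (ch.zD ν κ F))}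
    (hw : IsD F (fun k => e (φ k)) (actF F.toWt) _ w) :
    IsHomeomorph (dh_eqD (ν := ν) (κ := κ) h hs').map ∧
      IsD F' e (actF F.toWt) _ (res (dh_eqD h hs').map w) := by
  obtain ⟨d, -, -, v, hv, ⟨k, -⟩, rfl⟩ := hw
  haveI := k.isAct
  haveI := k.nice
  obtain ⟨m, a, d', b⟩ : ∃ m : EqM (actF F.toWt) (actF F.toWt)
      (ch.solF ν κ F' ∩ ch.main κ F' (0 : ν → J → ℕ)) (ch.zM ν κ F) id (zr T), IsHomeomorph m.map ∧
      ∃ d', (ch.kd ν κ F' e).IsW (actF F.toWt) _ (ch.main κ F' 0) d' (res m.map v) := by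
    rw [show ch.main κ F' (0 : ν → J → ℕ) = zr T ⁻¹' ch.main κ F 0 from
      Set.ext fun _ => dh_main h hs'.inv]
    exact ⟨_, dh_isW h hs hs' hr (fun _ a => a.1) (fun _ a _ => actF_mem_main hs.inv a) hl hv⟩
  have k₀ := hs.gd_kdQ (fun _ a => ⟨a.1, a.2.1⟩) k.orb
  obtain ⟨_, _, _, g, -⟩ := id b
  have k₁ : (ch.kdQ ν κ F').Gd (actF F.toWt) (ch.zD ν κ F') (ch.zM ν κ F') 0
      (Fintype.card κ * F'.dv K₀') := by
    have a : ∀ W, F'.toWt = W → ∀ [IsAct (actF W) (ch.zM ν κ F')],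
        Orb.Orb (ch.AF ν κ S)ˣ (Holo.Sp (actF W) (ch.zM ν κ F')) → (ch.kdQ ν κ F').Gd (actF W)
          (ch.zD ν κ F') (ch.zM ν κ F') 0 (Fintype.card κ * F'.dv K₀') := by
      rintro _ rfl _
      exact hs'.gd_kdQ fun _ a => ⟨a.1, a.2.1⟩
    exact @a _ h.wt g.isActZ g.orbZ
  have hL : (ch.kdQ ν κ F').Lin (ch.kdQ ν κ F) (ContinuousLinearMap.id ℂ _) (zr T) (ch.zM ν κ F')
      ((zc T).compLeft κ) :=
    ⟨fun _ _ => trivial, fun s _ w _ => funext₂ fun q j => by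
      change zc T _ j = _ * zc T _ j
      by_cases f : j ∈ T
      · rw [zc_mem _ f, zc_mem _ f, mul_zero]
      · rw [zc_not _ f, zc_not _ f, ← h.wt]
        rfl,
      fun _ _ _ a => mem_of_eq_of_mem ((congrArg _ a).trans (map_zero _)) (zero_mem _),
      fun x hx => mem_of_eq_of_mem (sub_eq_zero.2 (funext fun q => by
        simp only [vl_zr hx.1.1.2.1]; exact map_sub (zc T) _ _)) (zero_mem _),
      fun x hx _ w hw q _ => (congrArg F.vert (vl_zr hx.1.1.2.1 _)).ge (h.vert_zc (hw q trivial))⟩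
  have hi : (ch.kdQ ν κ F').Inj (ch.kdQ ν κ F) (zr T) (ch.zD ν κ F') ((zc T).compLeft κ) :=
    fun x hx w hw a => funext fun q => h.vert_inj (vl_mem hx.1.1 _) (hw q trivial) (congrFun a q)
  obtain ⟨p, q⟩ := k₁.vr_pull k₀ (θ := .id ℂ _) ⟨rfl, fun _ _ => rfl, surjective_id,
      fun b a => ⟨b, a, rfl⟩, m.maps, fun x _ => ⟨_, (zr T).analyticAt x, .of_forall fun _ => rfl⟩,
      m.eqv, fun x hx y hy a => ⟨1, isUnit_one, rfl, (g.isActZ.one x hx).trans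
        (dh_injOn h hx.1 hy.1 a)⟩, fun _ _ _ _ a _ => a⟩ hL hi
    (k₁.rank_eq k₀ m.maps hL hi fun x hx w hw => by
      choose η a1 a2 using fun q => h.vert_srj hs.inv (vl_mem hx.1.1 _)
        ((congrArg F.vert (vl_zr hx.1.1.2.1 _)).le (hw q trivial))
      exact ⟨η, fun q _ => a1 q, sub_eq_zero.2 (funext a2)⟩)
    (dh_bijD h hs').mapsTo a.isOpenEmbedding (fun _ => rfl) (Φ := (dh_eqD h hs').map) fun _ => rfl
  refine ⟨⟨p.continuous, p.isOpenMap, p.injective, fun z => Quot.inductionOn z fun y => ?_⟩,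
    d', _, _, _, b, k₁, q v⟩
  obtain ⟨x, a1, a2⟩ := (dh_bijD h hs').surjOn y.2
  exact ⟨Quo.mk _ ⟨x, a1⟩, congrArg (Quo.mk _) (Subtype.ext a2)⟩

end Ch

end Vale.Agent.P269
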