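import Vale.Agent.P287Q.G.Map.Nd
import Vale.Agent.P287Q.G.Map.JD
import Vale.Agent.P287Q.G.Bas.FibV
import Vale.Agent.P287Q.G.Bas.NumB
import Vale.Agent.P287Q.G.Bas.BC
import Vale.Agent.P287Q.G.Prj.Tgt
import Vale.Agent.P287Q.Emb.DetD
import Vale.Agent.P287Q.Emb.Defs

set_option linter.unusedSectionVars false
set_option linter.style.haveILetI false

/-!
# Holomorphically determined fields do not change the invariants
-/

namespace Vale.Agent.P287Q.Emb

open P291Z Set Function Topology Filter P269 P269.Base P269.Holo P269.Ch MvPolynomial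
open scoped Classical

variable {S Λ R J K K' ι ν κ : Type} [Fintype S] [Fintype Λ] [Fintype R] [Fintype J] [Fintype K]
  [Fintype K'] [Fintype ι] [DecidableEq ι] [Fintype ν] [Fintype κ] {F : Fam S Λ R J K}
  {F' : Fam S Λ R J K'} {T : Set J} {φ : K → K'} {ch : Ch ι J} {ℓ : R → ι → ℤ} {K₀ : RD R}
  {Q Q' : AM Λ R J ν κ → Prop} {fs : List (Fac F.toWt ν κ)} {fs' : List (Fac F'.toWt ν κ)}

theorem intg_rs {X Y : Type} [TopologicalSpace X] [TopologicalSpace Y] [Nice X] [Nice Y]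
    [CompactSpace X] [CompactSpace Y] {Φ : C(X, Y)} (h : IsHomeomorph Φ) (w : BM Y) (a : H Y) :
    Loc.intg w a = Loc.intg (res Φ w) (H.map Φ a) := by
  rw [← Loc.intg_push, push_res_homeo h]

theorem valD_unique {z z' : ℂ} (h : ch.ValD F ℓ Q fs z) (h' : ch.ValD F ℓ Q fs z') : z = z' := by
  obtain ⟨_, a, -, -, rfl⟩ := h
  obtain ⟨_, a', -, -, rfl⟩ := h'
  rw [a.unique a']

theorem zf_eq (T : Set J) (y : J → ℂ) : zf T y = zc T y := rfl

variable (F F' T) in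
/-- Corresponding factors. -/
inductive FR : Fac F'.toWt ν κ → Fac F.toWt ν κ → Prop
  | psi (n) : FR (.psi n) (.psi n)
  | ev (n A a) (hA : F.cone ⊆ A) :
    FR (.ev n F'.cone (F'.pb F.toWt (Prod.map id (zf T)) F'.cone a)) (.ev n A a)
  | par : FR (.par univ 1) (.par univ 1)
  | dg (q) : FR (.dg q) (.dg q)
  | tw : FR (.tw 1) (.tw 1)

theorem rep_zr {x : ch.WF ν κ Λ} {m : AM Λ R J ν κ} (h : Rep ℓ univ x m) :
    Rep ℓ univ (zr T x) (zm T m) := by
  obtain ⟨a, B, π, b, c, d⟩ := h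
  refine ⟨a, B, π, ⟨b.par, b.mark, b.triv, b.xi⟩, c, fun j _ z u hu μ => ?_⟩
  change _ = zc T (fun i => m.y i z) j * _
  by_cases e : j ∈ T
  · rw [kill_X' e, zc_mem _ e, zero_mul]
    exact map_zero _
  · rw [kill_X e, zc_not _ e]
    exact d j trivial z u hu μ

theorem dh_rkD (h : F.DetH F' T φ) (hF : F.Inv) : ch.rk F' ℓ K₀ = ch.rk F ℓ K₀ +
    ∑ j with j ∈ T, Module.finrank ℂ (ch.Th j) * ch.eu fun i => ch.a (some j) i := by
  rw [rk, rk, sub_add_eq_add_sub, ← Finset.sum_union (Finset.disjoint_filter.2 fun j _ a b =>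
    disjoint_left.1 hF.zer_base (h.sub b) a), ← Finset.filter_or]
  congr 2
  ext j
  simp [h.mov]

theorem crv_zr (x : ch.WF ν κ Λ) : crv (zr T x).2 = crv x.2 := rfl

theorem p_zr (x : ch.WF ν κ Λ) : (zr T x).2.p = x.2.p := rfl

theorem cn_eq (h : F.DetH F' T φ) {Z Z' : Set (ch.WF ν κ Λ)} (z₁ : GZ F ℓ Z) (z₂ : GZ F' ℓ Z')
    (m : EqM (actF F'.toWt) (actF F.toWt) Z' Z id (zr T)) {f : Fac F.toWt ν κ}
    {f' : Fac F'.toWt ν κ} (a : FR F F' T f' f) : H.map m.map (F.cn Z f) = F'.cn Z' f' := by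
  haveI := z₁.act
  haveI := z₂.act
  cases a with
  | psi n =>
    change H.map _ (F.cl _ _) = F'.cl _ _
    rw [z₁.cl_psi, z₂.cl_psi, map_neg, ((z₂.psi n).pull_id (z₁.psi n) z₂.orb z₁.orb m
      (fun _ _ => by simp only [crv_zr, p_zr]) (fun _ _ => by simp only [p_zr])
      fun _ _ _ _ _ _ => rfl).1]
  | ev n A a hA =>
    have k : Tq.Eqv F'.actT F.actT F'.cone A (Prod.map id (zf T)) :=
      ⟨fun z b => hA (h.zc_cone (l := z.1) (y := z.2) b),
        (continuous_id.prodMap (zc T).continuous_of_finiteDimensional).continuousOn,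
        fun t b z _ => ⟨t, b, h.wt ▸ Prod.ext rfl (funext fun j => by
          change zc T (F'.actT t z).2 j = _ * zc T z.2 j
          by_cases c : j ∈ T
          · rw [zc_mem _ c, zc_mem _ c, mul_zero]
          · rw [zc_not _ c, zc_not _ c]
            rfl)⟩⟩
    change H.map _ (F.cl _ _) = F'.cl _ _
    rw [z₁.cl_ev n fun x hx => hA (vl_mem (z₁.sol hx) n), z₂.cl_ev n fun x hx => vl_mem (z₂.sol hx) n,
      Wt.pb_eq k, H.map_map, H.map_map]
    exact congrArg (H.map · a) (ContinuousMap.ext fun z => Quot.inductionOn z fun x =>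
      congrArg (Quo.mk _) (Subtype.ext (vl_zr (z₂.base _ x.2) n)))
  | par =>
    change H.map _ (F.cl _ _) = F'.cl _ _
    rw [z₁.cl_par_one fun _ _ => mem_univ _, z₂.cl_par_one fun _ _ => mem_univ _, map_one]
  | dg q => exact map_one _
  | tw =>
    change H.map _ (F.cl _ _) = F'.cl _ _
    rw [Fam.cl_tw_one, Fam.cl_tw_one, map_one]

theorem valD (h : F.DetH F' T φ) (hs : ch.Std F (F.tdeg ch) K₀ ℓ)
    (hs' : ch.Std F' (F'.tdeg ch) K₀ ℓ) (hl : IsLocallyClosed (ch.main κ F (0 : ν → J → ℕ)))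
    (hL : ch.Lat F'.toWt ℓ) (hQ : AM.Ivt F.toWt Q) (hQ' : AM.Ivt F'.toWt Q')
    (e : ∀ m, m.Sol F' → (Q' m ↔ Q (zm T m))) (hf : List.Forall₂ (FR F F' T) fs' fs) {z : ℂ}
    (hz : ch.ValD F ℓ Q fs z) : ch.ValD F' ℓ Q' fs' z := by
  obtain ⟨w, h₁, a1, a2, rfl⟩ := hz
  have z₁ := h₁.gz hs
  haveI := h₁.nice
  have et : F.tdeg ch = fun k => F'.tdeg ch (φ k) := funext₂ fun k i => by
    simp only [Fam.tdeg, h.G]
  rw [et] at hs h₁
  obtain ⟨p, h₂⟩ := dh_isD h hs' hs (dh_rkD h hs.inv) hl h₁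
  have hW := h.wt
  cases F'
  subst hW
  have z₂ := h₂.gz hs'
  haveI := h₂.nice
  haveI := p.homeomorph.symm.compactSpace
  have a4 := selQ_ext (U := (dh_eqD h hs').map ⁻¹' selQ F.toWt ℓ (ch.zD ν κ F) Q) hL z₂.sol hQ'
    fun x m g => (mem_selQ (x := ⟨_, (dh_eqD h hs').maps x.2⟩) z₁.wt z₁.base hQ (rep_zr g)).trans
      (e m ((g.mem_solF (z₂.base _ x.2) hs'.inv z₂.wt).1 (z₂.sol x.2))).symm
  refine ⟨_, h₂, ‹_›, a4 ▸ a2.preimage p.continuous, ?_⟩
  rw [intg_rs (Φ := ⟨_, p.continuous⟩) p, map_mul (H.map _), H.map_hcls _ (cocycle_ind' a2),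
    pull_ind, a4, map_list_prod, List.map_map]
  refine congrArg (fun l => Loc.intg _ (_ * List.prod l)) ?_
  exact List.forall₂_eq_eq_eq.le _ _ (List.forall₂_map_left_iff.2 (List.forall₂_map_right_iff.2
    (hf.flip.imp fun _ _ a => cn_eq h z₁ z₂ (dh_eqD h hs') a)))

variable [DecidableEq R] {k : ℕ} {g : ℤ} {d : R → ℤ} {u u' : ν → ℕ}

theorem ev_valD (hW : St.Well) (h : F.Iv 0 k g d u Q fs) (hn : (fs.filterMap Fac.dq).Nodup) :
    ∀ᶠ D in atTop, F.BigD k D ∧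
      (F.sch ν κ k D g d).ValD F ℓs Q fs (F.inv k g d (fun n => u n • 0) Q fs) := by
  filter_upwards [h.lvl, h.well hW] with D a1 a2
  obtain ⟨w, b1, b2, b3⟩ := h.nice.exists_isD ν κ h.cp h.big a1.big g d
  rw [show (fun n => u n • (0 : J → ℕ)) = 0 from funext fun _ => smul_zero _] at a1 a2 ⊢
  exact ⟨a1.big, w, b1, b2, (b3 Q fs h.sel.1 a1 hn).imp_right a2.trans⟩

theorem inv_eq (hW : St.Well) (hD : F.DetH F' T φ) (hθ : F'.θ = F.θ) (hR : F.Reg K₀) (hR' : F'.Reg K₀)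
    (h : F.Iv 0 k g d u Q fs) (h' : F'.Iv 0 k g d u' Q' fs') (hn : (fs.filterMap Fac.dq).Nodup)
    (hn' : (fs'.filterMap Fac.dq).Nodup) (e : ∀ m, m.Sol F' → (Q' m ↔ Q (zm T m)))
    (hf : List.Forall₂ (FR F F' T) fs' fs) :
    F.inv k g d (fun n => u n • 0) Q fs = F'.inv k g d (fun n => u' n • 0) Q' fs' := by
  obtain ⟨D, ⟨a1, a2⟩, b1, b2⟩ := ((ev_valD hW h hn).and (ev_valD hW h' hn')).exists
  obtain ⟨b, c⟩ := h.nice.sm
  obtain ⟨U, o⟩ := h.nice.toGood.ok' ν κ hR c h.big a1 g d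
  have s := Fam.chart_std (g := g) (n := Fintype.card (Mk ν κ)) (d := d) h'.nice.toGood hR' b1
  have l := Fam.chart_lat (g := g) (n := Fintype.card (Mk ν κ)) (d := d) b1
  have ec : F'.chart g (Fintype.card (Mk ν κ)) d k D = F.sch ν κ k D g d := by
    simp only [Fam.chart, hθ, hD.wt]
  rw [Fam.sch] at b2
  rw [ec] at s l b2
  exact valD_unique (valD hD o.toStd s (o.num.lc_main o.inv c) l h.sel.1 h'.sel.1 e hf a2) b2

/-- **holomorphically determined fields do not change the invariants** -/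
theorem det_of (hW : St.Well) : DET := by
  intro S Λ R J K K' _ _ _ _ _ _ _ F F' T φ K₀ k P P' A h hθ hF hF' hR hR' hc hk hk' he he' hP hA
    d j l₁ l₂
  have hc' : F'.Cp := by
    change CompactSpace (Quo F'.actL F'.B)
    rw [h.B, h.wt]
    exact hc
  have n : ∀ {n : ℕ} {α : Type} (v : Fin n → α), ((List.ofFn fun i => (i, v i)).map Prod.fst).Nodup :=
    fun v => by rw [List.map_ofFn]; exact List.nodup_ofFn.2 injective_id
  rw [F.cor_eq_corF (c := 0) _ _ _ _ _ _ _ rfl rfl rfl,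
    show ([] : List (ℕ × H (F'.X F'.cone))) = ([] : List (ℕ × H (F.X A))).map
      (Prod.map id (F'.pb F.toWt (Prod.map id (zf T)) F'.cone)) from rfl, F'.cor_map]
  refine inv_eq hW h hθ hR hR' (Fam.iv_fsC hF hc hk he hA (fun _ b => hA b.1) _ _)
    (Fam.iv_fsC hF' hc' hk' he' subset_rfl (fun _ b => b.1) _ _) ?_ ?_ (hP _ _) ?_
  · rw [Wt.fsC_eq_fsW, Wt.dq_fsW]
    exact n _
  · rw [Wt.fsC_eq_fsW, Wt.dq_fsW]
    exact n _
  · exact forall₂_fsC .tw .par .psi .dg (fun _ => .ev _ _ _ hA) fun _ => .ev _ _ _ hA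

end Vale.Agent.P287Q.Emb
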