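import Vale.Agent.P287Q.Emb.Eqv0
import Vale.Agent.P287Q.Emb.Cmp

/-!
# Independence of the embedding
-/

set_option linter.unusedSectionVars false

namespace Vale.Agent.P287Q.Emb

open Set Function Topology Filter P269 P269.Holo Eqv

variable {R J K R' J' K' : Type} [Fintype R] [Fintype J] [Fintype K] [Fintype R'] [Fintype J']
  [Fintype K'] [DecidableEq R] [DecidableEq R']

theorem Eqv.inv_act {F : Fam Empty Empty R J K} {π : J → R} {A : Set (J → ℂ)} (h : Mdl F π A)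
    {f : (J → ℂ) → J' → ℂ} {g : (J' → ℂ) → J → ℂ} (e : ∀ y ∈ A, g (f y) = y) :
    ∀ z ∈ F.cone, ∃ t, IsUnit t ∧ Prod.map id g (Prod.map id f z) = F.actT t z := fun z hz =>
  ⟨1, isUnit_one, by
    rw [actT_eq h.w]
    exact Prod.ext rfl ((e _ ((h.cone z).1 hz)).trans (scl_one _).symm)⟩

theorem eqv (hI : ISO) (hP : ADDP) : EQV := by
  intro J R K J' R' K' _ _ _ _ _ _ _ _ F F' π A π' A' n n' k k' M N Φ Ψ hA hA' m m' b b' hΦ hΨ o o' d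
  obtain ⟨K₁, _, F₁, k₁, p₁, m₁, b₁, c₁, -⟩ := hP R' F hA m b
  obtain ⟨K₂, _, F₂, k₂, p₂, m₂, b₂, c₂, v₂⟩ := hP R F' hA' m' b'
  obtain ⟨τ, hτ⟩ := exists_tau o
  obtain ⟨τ', hτ'⟩ := exists_tau o'
  have H₁ := xt_hm hA.toMC hA'.toMC hΦ hΨ hτ
  have H₂ := xt_hm hA'.toMC hA.toMC hΨ hΦ hτ'
  have i₁ : ∀ w ∈ prP A R', _ := fun w hw => xt_xt hA'.toMC hΦ hΨ hτ hτ' hw
  have h₂ := hI F₁ F₂ p₁ p₂ m₁ m₂ b₁ b₂ H₁ H₂ i₁ (fun w hw => xt_xt hA.toMC hΨ hΦ hτ' hτ hw)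
    (mv_xm_xm M N) (mv_xm_xm N M) (Sum.elim d 0)
  rw [mv_xm, add_zero] at h₂
  have q₁ := m.eq m₁ (hm_add R')
  have q₂ := m'.eq m₂ (hm_add R)
  have r₁ := m₁.eq m (hm_proj (i := .inl) (ρ := .inl) (fun _ => rfl) fun _ h => h.1)
  have r₂ := m₂.eq m' (hm_proj (i := .inl) (ρ := .inl) (fun _ => rfl) fun _ h => h.1)
  refine ⟨fun h => ?_, fun h => ?_⟩
  · rw [h, sub_self] at h₂
    have h₃ := (c₂ (mv M d)).symm q₂ r₂ (inv_act m' fun _ _ => rfl)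
    have h₄ := (c₁ d).trans (h₂.trans h₃ (m₁.eq m₂ H₁) r₂) q₁
      (m₁.eq m' (M := fun r => xm M N (.inl r)) ⟨fun w hw => (H₁.hol w hw).comp_an hw
        (analyticAt_pi_iff.2 fun j => analyticAt_pi_iff.1 analyticAt_id (.inl j)),
        fun w hw => (H₁.mem hw).1, fun t ht w hw => by rw [H₁.eqv t ht w hw]; rfl⟩)
    have e : (fun y => xt π' N Φ τ (Sum.elim y 1) ∘ Sum.inl) = Φ := funext fun y => scl_one _
    exact e ▸ h₄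
  · exact (c₁ d).van q₁ r₁ (inv_act m fun _ _ => rfl)
      (h₂.van (m₁.eq m₂ H₁) (m₂.eq m₁ H₂) (inv_act m₁ i₁)
        (v₂ _ _ (sub_ne_zero.2 (Ne.symm h))))

theorem emb_sct (hE : EQV) {J₀ R₀ K₀ : Type} [Fintype J₀] [Fintype R₀] [Fintype K₀]
    [DecidableEq R₀] {F₀ : Fam Empty Empty R₀ J₀ K₀} {F : Fam Empty Empty R J K} {π₀ : J₀ → R₀}
    {A₀ : Set (J₀ → ℂ)} {π : J → R} {A : Set (J → ℂ)} {n₀ n k₀ k : ℕ} (h₀ : PV π₀ A₀ n₀)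
    (h : PV π A n) (m₀ : Mdl F₀ π₀ A₀) (m : Mdl F π A) (b₀ : F₀.Big k₀) (b : F.Big k)
    {i : J₀ → J} {ρ : R₀ → R} (hi : ∀ j, π (i j) = ρ (π₀ j)) (hm : ∀ w ∈ A, w ∘ i ∈ A₀)
    {s : (J₀ → ℂ) → J → ℂ} (hs : Sct π₀ π A i A₀ s) (hne : A₀.Nonempty) :
    ∃ M, Hm π₀ A₀ π A M s ∧ (∀ r, M (ρ r) = Pi.single r 1) ∧
      (∀ d, Cmp F₀ k₀ d F k (mv M d) s) ∧ (∀ d, Cmp F k (mv M d) F₀ k₀ d (· ∘ i)) ∧
      ∀ d', d' ≠ mv M (d' ∘ ρ) → Van F k d' := by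
  obtain ⟨M, hM⟩ := hs.eqv
  have H : Hm π₀ A₀ π A M s := ⟨hs.hol, hs.mem, hM⟩
  have H' := hm_proj hi hm
  have hρ : ∀ r, M (ρ r) = Pi.single r 1 := by
    obtain ⟨x, hx⟩ := hne
    refine fun r => eq_single fun t ht => ?_
    have e1 := hs.inv _ (h₀.inv t ht x hx)
    have e2 : scl π (tp M t) (s x) ∘ i = scl π₀ (tp M t ∘ ρ) (s x ∘ i) :=
      funext fun j => by simp only [scl, comp, hi]
    rw [hM t ht x hx] at e1
    have e3 := e2.symm.trans e1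
    rw [hs.inv x hx] at e3
    exact congrFun (scl_inj (h₀.sub hx) e3) r
  have hd : ∀ d, mv M d ∘ ρ = d := fun d => funext fun r => by
    simp only [comp, mv, hρ, sum_single]
  have o : ∀ x ∈ A₀, Orb π₀ x (s x ∘ i) := fun x hx =>
    ⟨1, isUnit_one, (hs.inv x hx).trans (scl_one _).symm⟩
  have o' : ∀ w ∈ A, Orb π w (s (w ∘ i)) := fun w hw => orb_symm (hs.orb w hw (hm w hw))
  refine ⟨M, H, hρ, fun d => (hE F₀ F h₀ h m₀ m b₀ b H H' o o' d).1 ?_, fun d => ?_,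
    fun d' hd' => (hE F F₀ h h₀ m m₀ b b₀ H' H o' o d').2 ?_⟩
  · rw [mv_single, hd]
  · have := (hE F F₀ h h₀ m m₀ b b₀ H' H o' o (mv M d)).1 (by rw [mv_single, hd])
    rwa [mv_single, hd] at this
  · rw [mv_single]
    exact hd'.symm

end Vale.Agent.P287Q.Emb
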