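import Vale.Agent.P287Q.Emb.Grq
import Vale.Agent.P287Q.Emb.Defs

/-!
# The equations of a graph
-/

namespace Vale.Agent.P287Q.Emb

theorem grq : GRQ := fun w σ h a b => exists_grq h w σ a b

end Vale.Agent.P287Q.Emb
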