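import Vale.Agent.P287Q.Emb.Cmp

/-!
# Equivariantly biholomorphic multicones have the same invariants
-/

set_option linter.unusedSectionVars false

namespace Vale.Agent.P287Q.Emb

open Set Function Topology Filter MvPolynomial P291Z P269 P269.Holo

variable {R J K R' J' K' K₁ K₂ : Type} [Fintype R] [Fintype J] [Fintype K] [Fintype R']
  [Fintype J'] [Fintype K'] [Fintype K₁] [Fintype K₂] [DecidableEq R] [DecidableEq R']
  {π : J → R} {π' : J' → R'} {A : Set (J → ℂ)} {A' : Set (J' → ℂ)} {M : R' → R → ℤ}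
  {N : R → R' → ℤ} {Φ : (J → ℂ) → J' → ℂ} {Ψ : (J' → ℂ) → J → ℂ}

theorem iso_act (G : Fam Empty Empty R J K) (t : (Empty → ℂ) × (R → ℂ))
    (z : (Empty → ℂ) × (J → ℂ)) (j : J) : (G.actT t z).2 j = (∏ r, t.2 r ^ G.w j r) * z.2 j := by
  change (∏ i, t.1 i ^ G.wt j i) * (∏ r, t.2 r ^ G.w j r) * z.2 j = _
  rw [Fintype.prod_empty, one_mul]

theorem iso_bw (t : R → ℂ) (j : J) : ∏ r, t r ^ bw π j r = t (π j) := by
  rw [Finset.prod_eq_single (π j) (fun r _ h => by simp [bw, h]) (by simp)]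
  simp [bw]

/-- The graph of `Φ`. -/
structure Gph (F : Fam Empty Empty R J K) (G : Fam Empty Empty R (J ⊕ J') K₁) (π : J → R)
    (A : Set (J → ℂ)) (π' : J' → R') (M : R' → R → ℤ) (Φ : (J → ℂ) → J' → ℂ) : Prop where
  w : G.w = Sum.elim (bw π) fun j' => M (π' j')
  cone : ∀ z, z ∈ G.cone ↔ z.2 ∘ .inl ∈ A ∧ z.2 ∘ .inr = Φ (z.2 ∘ .inl)

variable {F : Fam Empty Empty R J K} {F' : Fam Empty Empty R' J' K'}
  {G : Fam Empty Empty R (J ⊕ J') K₁} {G' : Fam Empty Empty R' (J' ⊕ J) K₂}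

theorem Gph.dn (g : Gph F G π A π' M Φ) (m : Mdl F π A) : EQ G F (· ∘ .inl) :=
  ⟨fun z hz => (m.cone _).2 ((g.cone z).1 hz).1, by fun_prop, fun a ha z _ =>
    ⟨a, ha, Prod.ext (Subsingleton.elim _ _) (funext fun j =>
      (iso_act G a z _).trans (by rw [iso_act, g.w, m.w]; rfl))⟩⟩

theorem Gph.up (g : Gph F G π A π' M Φ) (m : Mdl F π A) (h : Hm π A π' A' M Φ) :
    EQ F G fun y => Sum.elim y (Φ y) := by
  refine ⟨fun z hz => (g.cone _).2 ⟨(m.cone z).1 hz, rfl⟩, ?_, fun a ha z hz =>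
    ⟨a, ha, Prod.ext (Subsingleton.elim _ _) (funext fun j => ?_)⟩⟩
  · have c : ContinuousOn (fun z : (Empty → ℂ) × (J → ℂ) => Φ z.2) F.cone :=
      ContinuousOn.comp (t := A) (fun y hy => (h.hol y hy).tendsto hy) continuousOn_snd
        fun z hz => (m.cone z).1 hz
    refine continuousOn_fst.prodMk (continuousOn_pi.2 fun j => ?_)
    rcases j with j | j
    · exact ((continuous_apply j).comp continuous_snd).continuousOn
    · exact continuousOn_pi.1 c j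
  · have e : (F.actT a z).2 = scl π a.2 z.2 := funext fun j => by
      rw [iso_act, m.w, iso_bw]; rfl
    rw [iso_act, g.w]
    change Sum.elim (F.actT a z).2 (Φ (F.actT a z).2) j = _
    rw [e, h.eqv _ (Prod.isUnit_iff.1 ha).2 _ ((m.cone z).1 hz)]
    rcases j with j | j
    · exact congrArg (· * z.2 j) (iso_bw a.2 j).symm
    · rfl

theorem iso_NM (h : ∀ d, mv N (mv M d) = d) (r s : R) :
    ∑ r', N r r' * M r' s = (Pi.single r 1 : R → ℤ) s := by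
  have := congrFun (h (Pi.single s 1)) r
  simp only [mv, Pi.single_apply, mul_ite, mul_one, mul_zero, Finset.sum_ite_eq',
    Finset.mem_univ, if_true] at this
  rw [this, Pi.single_apply]
  simp only [eq_comm]

theorem iso_hom (g : Gph F G π A π' M Φ) (g' : Gph F' G' π' A' π N Ψ)
    (h : ∀ d, mv N (mv M d) = d) (j : J' ⊕ J) (r : R) :
    G.w j.swap r = ∑ r', G'.w j r' * M r' r := by
  rw [g.w, g'.w]
  rcases j with j | j
  · simp [bw, Pi.single_apply]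
  · exact (iso_NM h (π j) r).symm

theorem iso_sw (g : Gph F G π A π' M Φ) (g' : Gph F' G' π' A' π N Ψ) (h : Hm π A π' A' M Φ)
    (e : ∀ y ∈ A, Ψ (Φ y) = y) {z : (Empty → ℂ) × (J ⊕ J' → ℂ)} (hz : z ∈ G.cone) :
    (z.1, z.2 ∘ Sum.swap) ∈ G'.cone := by
  obtain ⟨a, b⟩ := (g.cone z).1 hz
  refine (g'.cone _).2 ?_
  change z.2 ∘ .inr ∈ A' ∧ z.2 ∘ .inl = Ψ (z.2 ∘ .inr)
  rw [b]
  exact ⟨h.mem a, (e _ a).symm⟩

theorem iso_eq (g : Gph F G π A π' M Φ) (g' : Gph F' G' π' A' π N Ψ) (h : Hm π A π' A' M Φ)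
    (e : ∀ y ∈ A, Ψ (Φ y) = y) (hd : ∀ d, mv N (mv M d) = d) : EQ G G' (· ∘ Sum.swap) := by
  refine ⟨fun z hz => iso_sw g g' h e hz, by fun_prop, fun a ha z _ =>
    ⟨(1, fun r' => ∏ r, a.2 r ^ M r' r), ?_, Prod.ext (Subsingleton.elim _ _)
      (funext fun j => (iso_act G a z _).trans ?_)⟩⟩
  all_goals have u := Pi.isUnit_iff.1 (Prod.isUnit_iff.1 ha).2
  · exact Prod.isUnit_iff.2 ⟨isUnit_one, Pi.isUnit_iff.2 fun r' =>
      (Finset.prod_ne_zero_iff.2 fun r _ => zpow_ne_zero _ (u r).ne_zero).isUnit⟩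
  · rw [iso_act]
    refine congrArg₂ (· * ·) ?_ rfl
    simp only [iso_hom g g' hd, ← Finset.prod_zpow, ← zpow_mul]
    rw [Finset.prod_comm]
    refine Finset.prod_congr rfl fun r _ => ?_
    lift a.2 r to ℂˣ using u r with v
    simp only [← Units.val_zpow_eq_zpow_val, ← Units.coe_prod, mul_comm (M _ r)]
    exact congrArg _ (map_prod (zpowersHom ℂˣ v)
      (fun r' => Multiplicative.ofAdd (G'.w j r' * M r' r)) Finset.univ ▸ rfl)

theorem iso_ev (z : (Empty → ℂ) × (J ⊕ J' → ℂ)) :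
    evσ (fun j : J' ⊕ J => X j.swap) z = Prod.map id (· ∘ Sum.swap) z :=
  Prod.ext rfl (funext fun j => by simp [evσ, evz])

theorem iso_pres (g : Gph F G π A π' M Φ) (g' : Gph F' G' π' A' π N Ψ) (h : Hm π A π' A' M Φ)
    (h' : Hm π' A' π A N Ψ) (e : ∀ y ∈ A, Ψ (Φ y) = y) (e' : ∀ y ∈ A', Φ (Ψ y) = y)
    (hd : ∀ d, mv N (mv M d) = d) (hd' : ∀ d, mv M (mv N d) = d) (f1 : G'.Inv) (g4 : G.B = univ)
    (f4 : G'.B = univ) (g5 : G.E = univ) (f5 : G'.E = univ) (g6 : G.zer = G.movᶜ)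
    (f6 : G'.zer = G'.movᶜ) (mov : ∀ j : J ⊕ J', j.swap ∈ G'.mov ↔ j ∈ G.mov) :
    G.Pres G' Sum.swap (Empty.elim : Empty → _) M fun j => X j.swap where
  inj := Sum.swap_leftInverse.injective
  wl := Subsingleton.elim _ _
  B := f4.trans g4.symm
  σ_φ j := by rw [Sum.swap_swap]
  σ_s i := i.elim
  hom j α hα r := by
    rw [support_X, Finset.mem_singleton] at hα
    rw [← iso_hom g g' hd, hα, Finset.sum_eq_single j.swap (fun i _ a => by simp [a]) (by simp)]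
    simp
  homS _ _ _ _ _ a := a.elim
  lat_inj d a := by
    rw [← hd d, show mv M d = 0 from funext a]
    exact funext fun r => by simp [mv]
  lat_ker d' _ := ⟨mv N d', (hd' d').symm⟩
  lat_onto _ := ⟨0, fun i => i.elim⟩
  cone z := ⟨fun a => ⟨1, isUnit_one, _, iso_sw g' g h' e' a, by
      rw [iso_ev]
      refine Eq.trans ?_ (G'.actT_one _).symm
      exact Prod.ext rfl (funext fun j => by rcases j with j | j <;> rfl)⟩,
    fun ⟨t, ht, y, hy, a⟩ => by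
      rw [a, iso_ev]
      exact f1.cone_act (Prod.isUnit_iff.2 ⟨isUnit_one, ht⟩) (iso_sw g g' h e hy)⟩
  mov := mov
  zer j := by rw [f6, g6, mem_compl_iff, mem_compl_iff, mov]
  E _ _ _ _ := g5 ▸ trivial
  drop j a := (a ⟨j.swap, j.swap_swap⟩).elim
  E' _ _ _ _ _ := iff_of_true (f5 ▸ trivial)
    ⟨1, isUnit_one, fun j a => (a ⟨j.swap, j.swap_swap⟩).elim⟩

theorem iso (hA : ADDH) (hZ : St.PresZ) (hS : St.SelC) : ISO := by
  intro J R K J' R' K' _ _ _ _ _ _ _ _ F F' π A π' A' n n' k k' M N Φ Ψ hV hV' m m' b b' h h' e e'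
    hd hd' d
  obtain ⟨K₁, _, G, g1, g2, g3, g4, g5, g6, g7, g8, g9, g10⟩ := hA F (fun j' => M (π' j')) Φ
    F'.movᶜ k hV m b h.hol (fun t ht y hy a => congrFun (h.eqv t ht y hy) a) fun y hy a ha =>
      ((m'.cone (0, Φ y)).2 (h.mem hy)).2.1.2.2 a (m'.abs ha)
  obtain ⟨K₂, _, G', f1, f2, f3, f4, f5, f6, f7, f8, f9, f10⟩ := hA F' (fun j => N (π j)) Ψ
    F.movᶜ k' hV' m' b' h'.hol (fun t ht y hy a => congrFun (h'.eqv t ht y hy) a) fun y hy a ha =>
      ((m.cone (0, Ψ y)).2 (h'.mem hy)).2.1.2.2 a (m.abs ha)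
  have g : Gph F G π A π' M Φ := ⟨g3, g9⟩
  have g' : Gph F' G' π' A' π N Ψ := ⟨f3, f9⟩
  have p := iso_pres g g' h h' e e' hd hd' f1.toGood.toInv g4 f4 g5 f5 g6 f6 (by
    rintro (j | j)
    · exact (f8 j).trans (not_not.trans (g7 j).symm)
    · exact (f7 j).trans (not_not.symm.trans (g8 j).symm))
  have c1 := (cmp_of_pres hZ hS p g6.ge f6.ge (fun i => i.elim) g1 f1 g2 f2 _ iso_ev).1 d
  have c2 := Cmp.symm (g10 d) (g.dn m) (g.up m h) fun z hz => ⟨1, isUnit_one, by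
    rw [G.actT_one]
    refine Prod.ext rfl ?_
    change Sum.elim (z.2 ∘ .inl) (Φ (z.2 ∘ .inl)) = z.2
    rw [← ((g9 z).1 hz).2, Sum.elim_comp_inl_inr]⟩
  have q := iso_eq g g' h e hd
  have c3 := Cmp.trans c2 c1 (g.up m h) q
  have q' : EQ F G' fun y => Sum.elim y (Φ y) ∘ Sum.swap := (g.up m h).comp q
  have c4 := Cmp.trans c3 (f10 _) q' (g'.dn m')
  have e4 : (fun y => (Sum.elim y (Φ y) ∘ Sum.swap) ∘ Sum.inl) = Φ := rfl
  exact e4 ▸ c4

end Vale.Agent.P287Q.Emb
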