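import Vale.Agent.P287Q.Emb.AddG
import Vale.Agent.P287Q.Emb.AddP
import Vale.Agent.P287Q.Emb.Iso
import Vale.Agent.P287Q.Emb.Eqv
import Vale.Agent.P287Q.Emb.GrqM
import Vale.Agent.P287Q.Emb.DetC
import Vale.Agent.P287Q.G.Bas.Supp

/-!
# Independence of the embedding from the independence of the chart and of the presentation
-/

namespace Vale.Agent.P287Q.Emb

open P269

theorem addh_of (hW : St.Well) (hZ : St.PresZ) : ADDH := addG grq (det_of hW) hZ St.selC

theorem iso_of (hW : St.Well) (hZ : St.PresZ) : ISO := iso (addh_of hW hZ) hZ St.selC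

theorem eqv_of (hW : St.Well) (hZ : St.PresZ) : EQV := eqv (iso_of hW hZ) (addp hZ St.selC)

end Vale.Agent.P287Q.Emb
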