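import Vale.Agent.P287Q.Emb.Defs
import Vale.Agent.P287Q.Pv.Slc

/-!
# Independence of the embedding: the isomorphism after adding blocks with one field
-/

set_option linter.unusedSectionVars false

namespace Vale.Agent.P287Q.Emb

open Set Function Topology Filter P269 P269.Holo

namespace Eqv

variable {R J R' J' : Type} [Fintype R] [Fintype J] [Fintype R'] [Fintype J'] [DecidableEq R]
  [DecidableEq R']

/-- The homomorphism of tori given by an integral matrix. -/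
noncomputable def tp (M : R' → R → ℤ) (t : R → ℂ) : R' → ℂ := fun r' => ∏ r, t r ^ M r' r

theorem tp_unit (M : R' → R → ℤ) {t : R → ℂ} (h : IsUnit t) : IsUnit (tp M t) :=
  unit_iff.2 fun _ => Finset.prod_ne_zero_iff.2 fun r _ => zpow_ne_zero _ (unit_iff.1 h r)

theorem tp_mul (M : R' → R → ℤ) (a b : R → ℂ) : tp M (a * b) = tp M a * tp M b := by
  funext r
  simp [tp, mul_zpow, Finset.prod_mul_distrib]

theorem tp_inv (M : R' → R → ℤ) (a : R → ℂ) : tp M a⁻¹ = (tp M a)⁻¹ := by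
  funext r
  simp [tp]

theorem prod_zpow_sum {a : ℂ} (h : a ≠ 0) {ι : Type} (s : Finset ι) (f : ι → ℤ) :
    a ^ (∑ i ∈ s, f i) = ∏ i ∈ s, a ^ f i := by
  classical
  induction s using Finset.induction_on with
  | empty => simp
  | insert i s hi ih => rw [Finset.sum_insert hi, Finset.prod_insert hi, zpow_add₀ h, ih]

theorem tp_tp (M : R' → R → ℤ) (N : R → R' → ℤ) {t : R → ℂ} (h : IsUnit t) (r : R) :
    tp N (tp M t) r = ∏ r₂, t r₂ ^ ∑ r', N r r' * M r' r₂ := by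
  simp only [tp, ← Finset.prod_zpow, prod_zpow_sum (unit_iff.1 h _), ← zpow_mul]
  rw [Finset.prod_comm]
  exact Finset.prod_congr rfl fun _ _ => Finset.prod_congr rfl fun _ _ => by rw [mul_comm]

theorem prod_single (t : R → ℂ) (r : R) : ∏ r₂, t r₂ ^ (Pi.single r 1 : R → ℤ) r₂ = t r := by
  rw [Finset.prod_eq_single r (fun b _ hb => by simp [hb]) (by simp)]
  simp

theorem sum_single (d : R → ℤ) (r : R) : ∑ r₂, (Pi.single r 1 : R → ℤ) r₂ * d r₂ = d r := by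
  rw [Finset.sum_eq_single r (fun b _ hb => by simp [hb]) (by simp)]
  simp

/-- The matrix of the extended map. -/
def xm (M : R' → R → ℤ) (N : R → R' → ℤ) : R' ⊕ R → R ⊕ R' → ℤ :=
  Sum.elim (fun r' => Sum.elim (M r') (Pi.single r' 1))
    fun r => Sum.elim (fun r₂ => (Pi.single r 1 : R → ℤ) r₂ - ∑ r', N r r' * M r' r₂) (-N r)

theorem mv_add (M : R' → R → ℤ) (d e : R → ℤ) : mv M (d + e) = mv M d + mv M e := by
  funext r
  simp [mv, mul_add, Finset.sum_add_distrib]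

theorem mv_xm (M : R' → R → ℤ) (N : R → R' → ℤ) (d : R → ℤ) (e : R' → ℤ) :
    mv (xm M N) (Sum.elim d e) = Sum.elim (mv M d + e) (d - mv N (mv M d + e)) := by
  funext r
  rcases r with r | r
  · simp only [mv, xm, Fintype.sum_sum_type, Sum.elim_inl, Sum.elim_inr, sum_single, Pi.add_apply]
  · simp only [mv, xm, Fintype.sum_sum_type, Sum.elim_inl, Sum.elim_inr, sum_single, Pi.add_apply,
      Pi.sub_apply, sub_mul, Finset.sum_sub_distrib, Pi.neg_apply, neg_mul, Finset.sum_neg_distrib,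
      mul_add, Finset.sum_add_distrib, Finset.sum_mul, Finset.mul_sum, mul_assoc]
    rw [Finset.sum_comm]
    ring

theorem mv_xm_xm (M : R' → R → ℤ) (N : R → R' → ℤ) (D : R ⊕ R' → ℤ) :
    mv (xm N M) (mv (xm M N) D) = D := by
  rw [← Sum.elim_comp_inl_inr D, mv_xm, mv_xm, add_sub_cancel, add_sub_cancel_left]

theorem tp_xm_inl (M : R' → R → ℤ) (N : R → R' → ℤ) (t : R ⊕ R' → ℂ) :
    tp (xm M N) t ∘ .inl = tp M (t ∘ .inl) * t ∘ .inr := by
  funext r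
  simp only [tp, xm, Fintype.prod_sum_type, Sum.elim_inl, Sum.elim_inr, comp, Pi.mul_apply]
  rw [prod_single fun r => t (.inr r)]

theorem tp_xm_inr (M : R' → R → ℤ) (N : R → R' → ℤ) {t : R ⊕ R' → ℂ} (h : IsUnit t) :
    tp (xm M N) t ∘ .inr = t ∘ .inl * (tp N (tp M (t ∘ .inl)))⁻¹ * (tp N (t ∘ .inr))⁻¹ := by
  funext r
  have h1 : IsUnit (t ∘ .inl : R → ℂ) := unit_iff.2 fun r => unit_iff.1 h _
  simp only [Pi.mul_apply, Pi.inv_apply, tp_tp M N h1]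
  simp only [tp, xm, Fintype.prod_sum_type, Sum.elim_inl, Sum.elim_inr, comp, Pi.neg_apply,
    zpow_neg, Finset.prod_inv_distrib, zpow_sub₀ (unit_iff.1 h _), Finset.prod_div_distrib]
  rw [prod_single fun r => t (.inl r), div_eq_mul_inv]

variable {π : J → R} {A : Set (J → ℂ)} {π' : J' → R'} {A' : Set (J' → ℂ)} {M : R' → R → ℤ}
  {N : R → R' → ℤ} {Φ : (J → ℂ) → J' → ℂ} {Ψ : (J' → ℂ) → J → ℂ} {τ : (J → ℂ) → R → ℂ}
  {τ' : (J' → ℂ) → R' → ℂ}

/-- `τ` compares `Θ` with the identity. -/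
def Tau (π : J → R) (A : Set (J → ℂ)) (Θ : (J → ℂ) → J → ℂ) (τ : (J → ℂ) → R → ℂ) : Prop :=
  ∀ y ∈ A, IsUnit (τ y) ∧ scl π (τ y) (Θ y) = y

theorem orb_symm {y y' : J → ℂ} (h : Orb π y y') : Orb π y' y :=
  let ⟨t, ht, e⟩ := h
  ⟨t⁻¹, unit_inv ht, by rw [e, scl_inv_scl ht]⟩

theorem exists_tau {Θ : (J → ℂ) → J → ℂ} (h : ∀ y ∈ A, Orb π y (Θ y)) : ∃ τ, Tau π A Θ τ := by
  choose! τ h1 h2 using fun y hy => orb_symm (h y hy)
  exact ⟨τ, fun y hy => ⟨h1 y hy, (h2 y hy).symm⟩⟩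

theorem Tau.hol {Θ : (J → ℂ) → J → ℂ} (h : Tau π A Θ τ) (hA : MC π A) {y : J → ℂ} (hy : y ∈ A)
    (hΘ : HolOn A Θ y) : HolOn A τ y := by
  refine HolOn.pi fun r => ?_
  obtain ⟨j, rfl, hj⟩ := hA.sub hy r
  have h0 : Θ y j ≠ 0 := fun h0 => hj (by rw [← (h y hy).2, scl, h0, mul_zero])
  have a : AnalyticAt ℂ (fun p : (J → ℂ) × (J → ℂ) => p.1 j / p.2 j) (y, Θ y) :=
    (analyticAt_pi_iff.1 analyticAt_fst j).fun_div (analyticAt_pi_iff.1 analyticAt_snd j) h0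
  refine (((HolOn.of_an analyticAt_id).prod hΘ).comp_an (G := fun p => p.1 j / p.2 j) hy
    a).congr ?_
  filter_upwards [hΘ.ev hy (p := fun v => v j ≠ 0)
    ((continuous_apply j).continuousAt.eventually_ne h0)] with s h1 hs
  rw [eq_div_iff (h1 hs)]
  exact congrFun (h s hs).2 j

/-- The extended map. -/
noncomputable def xt (π' : J' → R') (N : R → R' → ℤ) (Φ : (J → ℂ) → J' → ℂ)
    (τ : (J → ℂ) → R → ℂ) (w : J ⊕ R' → ℂ) : J' ⊕ R → ℂ :=
  Sum.elim (scl π' (w ∘ .inr) (Φ (w ∘ .inl))) (τ (w ∘ .inl) * (tp N (w ∘ .inr))⁻¹)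

theorem xt_inl (w : J ⊕ R' → ℂ) : xt π' N Φ τ w ∘ .inl = scl π' (w ∘ .inr) (Φ (w ∘ .inl)) := rfl

theorem xt_inr (w : J ⊕ R' → ℂ) :
    xt π' N Φ τ w ∘ .inr = τ (w ∘ .inl) * (tp N (w ∘ .inr))⁻¹ := rfl

theorem prP_unit {I : Type} {w : J ⊕ I → ℂ} (h : w ∈ prP A I) : IsUnit (w ∘ .inr : I → ℂ) :=
  Pi.isUnit_iff.2 fun i => (h.2 i).isUnit

theorem sum_ext {α β γ : Type} {f g : α ⊕ β → γ} (h : f ∘ .inl = g ∘ .inl)
    (h' : f ∘ .inr = g ∘ .inr) : f = g := by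
  rw [← Sum.elim_comp_inl_inr f, h, h', Sum.elim_comp_inl_inr]

theorem tau_scl (hA : MC π A) (hΦ : Hm π A π' A' M Φ) (hΨ : Hm π' A' π A N Ψ)
    (h : Tau π A (fun y => Ψ (Φ y)) τ) {t : R → ℂ} (ht : IsUnit t) {y : J → ℂ} (hy : y ∈ A) :
    τ (scl π t y) = t * (tp N (tp M t))⁻¹ * τ y := by
  have e1 := (h _ (hA.inv t ht y hy)).2
  have e2 : Ψ (Φ (scl π t y)) = scl π (tp N (tp M t)) (Ψ (Φ y)) := by
    rw [hΦ.eqv t ht y hy]
    exact hΨ.eqv _ (tp_unit M ht) _ (hΦ.mem hy)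
  simp only [e2] at e1
  conv_rhs at e1 => rw [← (h y hy).2]
  rw [← scl_mul, ← scl_mul] at e1
  have e3 := scl_inj (hA.sub (hΨ.mem (hΦ.mem hy))) e1
  funext r
  have e4 := congrFun e3 r
  have e5 := unit_iff.1 (tp_unit N (tp_unit M ht)) r
  simp only [Pi.mul_apply, Pi.inv_apply] at e4 ⊢
  field_simp
  exact e4

theorem xt_hm (hA : MC π A) (hA' : MC π' A') (hΦ : Hm π A π' A' M Φ) (hΨ : Hm π' A' π A N Ψ)
    (h : Tau π A (fun y => Ψ (Φ y)) τ) :
    Hm (Sum.map π id) (prP A R') (Sum.map π' id) (prP A' R) (xm M N) (xt π' N Φ τ) where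
  hol w hw := by
    have a : ∀ i, AnalyticAt ℂ (fun s : J ⊕ R' → ℂ => s i) w := analyticAt_pi_iff.1 analyticAt_id
    have h0 : HolOn (prP A R') (fun s : J ⊕ R' → ℂ => (s ∘ .inl : J → ℂ)) w :=
      .of_an (analyticAt_pi_iff.2 fun j => a _)
    have hm : ∀ᶠ s in 𝓝 w, s ∈ prP A R' → (s ∘ .inl : J → ℂ) ∈ A := .of_forall fun _ hs => hs.1
    have h1 := HolOn.comp (F := fun s : J ⊕ R' → ℂ => (s ∘ .inl : J → ℂ)) (a := w)
      (hΦ.hol _ hw.1) h0 hw hm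
    have h2 := HolOn.comp (F := fun s : J ⊕ R' → ℂ => (s ∘ .inl : J → ℂ)) (a := w)
      (h.hol hA hw.1 ((hΨ.hol _ (hΦ.mem hw.1)).comp (hΦ.hol _ hw.1) hw.1
        (.of_forall fun _ hs => hΦ.mem hs))) h0 hw hm
    refine HolOn.pi fun i => ?_
    rcases i with j | r
    · exact ((HolOn.of_an (a (.inr (π' j)))).prod h1).comp_an (G := fun p => p.1 * p.2 j) hw
        (analyticAt_fst.mul (analyticAt_pi_iff.1 analyticAt_snd j))
    · have a2 : AnalyticAt ℂ (fun s : J ⊕ R' → ℂ => (∏ r', s (.inr r') ^ N r r')⁻¹) w :=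
        (Finset.analyticAt_fun_prod _ fun r' _ => (a _).fun_zpow (hw.2 r')).fun_inv
          (unit_iff.1 (tp_unit N (prP_unit hw)) r)
      exact ((HolOn.of_an a2).prod h2).comp_an (G := fun p => p.2 r * p.1) hw
        ((analyticAt_pi_iff.1 analyticAt_snd r).mul analyticAt_fst)
  mem w hw := ⟨hA'.inv _ (prP_unit hw) _ (hΦ.mem hw.1),
    unit_iff.1 ((h _ hw.1).1.mul (unit_inv (tp_unit N (prP_unit hw))))⟩
  eqv t ht w hw := by
    have h1 : IsUnit (t ∘ .inl : R → ℂ) := unit_iff.2 fun r => unit_iff.1 ht _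
    have e1 : scl (Sum.map π id) t w ∘ .inl = scl π (t ∘ .inl) (w ∘ .inl) := rfl
    have e2 : scl (Sum.map π id) t w ∘ .inr = (t ∘ .inr) * (w ∘ .inr) := rfl
    refine sum_ext ?_ ?_
    · change _ = scl π' (tp (xm M N) t ∘ .inl) (xt π' N Φ τ w ∘ .inl)
      rw [xt_inl, xt_inl, e1, e2, hΦ.eqv _ h1 _ hw.1, tp_xm_inl, ← scl_mul, ← scl_mul]
      congr 1
      change _ * tp M _ = _
      ring
    · change _ = (tp (xm M N) t ∘ .inr) * (xt π' N Φ τ w ∘ .inr)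
      rw [xt_inr, xt_inr, e1, e2, tau_scl hA hΦ hΨ h h1 hw.1, tp_xm_inr M N ht, tp_mul, mul_inv]
      ring

theorem xt_xt (hA' : MC π' A') (hΦ : Hm π A π' A' M Φ) (hΨ : Hm π' A' π A N Ψ)
    (h : Tau π A (fun y => Ψ (Φ y)) τ) (h' : Tau π' A' (fun y => Φ (Ψ y)) τ') {w : J ⊕ R' → ℂ}
    (hw : w ∈ prP A R') : xt π M Ψ τ' (xt π' N Φ τ w) = w := by
  have hu := prP_unit hw
  have hN := tp_unit N hu
  have m1 := hΦ.mem hw.1
  have m2 := hΨ.mem m1
  have e1 : Ψ (scl π' (w ∘ .inr) (Φ (w ∘ .inl))) = scl π (tp N (w ∘ .inr)) (Ψ (Φ (w ∘ .inl))) :=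
    hΨ.eqv _ hu _ m1
  refine sum_ext ?_ ?_
  · rw [xt_inl, xt_inl, xt_inr, e1, scl_mul, scl_inv_scl hN]
    exact (h _ hw.1).2
  · rw [xt_inr, xt_inl, xt_inr]
    have e2 := (h' _ (hA'.inv _ hu _ m1)).2
    have e3 : Φ (w ∘ .inl) = scl π' (tp M (τ (w ∘ .inl))) (Φ (Ψ (Φ (w ∘ .inl)))) := by
      conv_lhs => rw [← (h _ hw.1).2]
      exact hΦ.eqv _ (h _ hw.1).1 _ m2
    have e4 : Φ (scl π (tp N (w ∘ .inr)) (Ψ (Φ (w ∘ .inl)))) =
      scl π' (tp M (tp N (w ∘ .inr))) (Φ (Ψ (Φ (w ∘ .inl)))) := hΦ.eqv _ hN _ m2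
    simp only [e1, e4] at e2
    conv_rhs at e2 => rw [e3]
    rw [← scl_mul, ← scl_mul] at e2
    have e5 := scl_inj (hA'.sub (hΦ.mem m2)) e2
    rw [tp_mul, tp_inv]
    funext r
    have e6 := congrFun e5 r
    have e7 := unit_iff.1 (tp_unit M hN) r
    have e8 := unit_iff.1 (tp_unit M (h _ hw.1).1) r
    simp only [Pi.mul_apply, Pi.inv_apply] at e6 ⊢
    field_simp
    rw [e6, mul_comm]

theorem hm_add (I : Type) [Fintype I] : Hm π A (Sum.map π (id : I → I)) (prP A I)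
    (Sum.elim (fun r => Pi.single r 1) 0) fun y => Sum.elim y 1 where
  hol y _ := .of_an (analyticAt_pi_iff.2 fun i => by
    rcases i with j | i
    · exact analyticAt_pi_iff.1 analyticAt_id j
    · exact analyticAt_const)
  mem y hy := ⟨hy, fun _ => one_ne_zero⟩
  eqv t _ y _ := by
    funext i
    rcases i with j | i
    · simp only [scl, Sum.elim_inl, Sum.map_inl, prod_single]
    · simp [scl]

theorem hm_proj {i : J' → J} {ρ : R' → R} (hi : ∀ j, π (i j) = ρ (π' j))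
    (hm : ∀ w ∈ A, w ∘ i ∈ A') : Hm π A π' A' (fun r => Pi.single (ρ r) 1) (· ∘ i) where
  hol y _ := .of_an (analyticAt_pi_iff.2 fun j => analyticAt_pi_iff.1 analyticAt_id (i j))
  mem := hm
  eqv t _ y _ := by
    funext j
    simp only [scl, comp, prod_single, hi]

theorem mv_single (ρ : R' → R) (d : R → ℤ) : mv (fun r => Pi.single (ρ r) 1) d = d ∘ ρ :=
  funext fun _ => sum_single d _

theorem eq_single {m : R → ℤ} {r : R} (h : ∀ t : R → ℂ, IsUnit t → ∏ r₂, t r₂ ^ m r₂ = t r) :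
    m = Pi.single r 1 := by
  funext r₀
  have h1 := h (update 1 r₀ 2) (unit_iff.2 fun r => by
    by_cases hr : r = r₀ <;> simp [hr])
  rw [Finset.prod_eq_single r₀ (fun b _ hb => by simp [hb]) (by simp), update_self] at h1
  have h2 : ∀ a b : ℤ, (2 : ℂ) ^ a = 2 ^ b → a = b := fun a b e => by
    have : ((2 : ℝ) ^ a : ℝ) = 2 ^ b := by simpa using congrArg norm e
    exact zpow_right_injective₀ (by norm_num) (by norm_num) this
  apply h2
  rw [h1]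
  by_cases hr : r = r₀
  · simp [hr]
  · simp [hr, Ne.symm hr]

end Eqv

end Vale.Agent.P287Q.Emb
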