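import Vale.Agent.P287Q.Emb.Gr0

/-!
# Holomorphic equivariant fields are determined by polynomial equations
-/

set_option linter.unusedSectionVars false

open Set Filter Topology Function MvPolynomial

namespace Vale.Agent.P287Q.Emb

open P269 P269.Holo

variable {J R S T : Type} [Fintype J] [Fintype R] [Fintype S] [Fintype T]
  {π : J → R} {A : Set (J → ℂ)} {n : ℕ} {σ : (J → ℂ) → T → ℂ} {y : J → ℂ}

/-- The tangent space of the graph is the graph of the differential. -/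
theorem tn_grS {Φ : (J → ℂ) → T → ℂ} (h1 : AnalyticAt ℂ Φ y) (h2 : ∀ᶠ s in 𝓝 y, s ∈ A → σ s = Φ s)
    {x : T → ℂ} {v : J ⊕ T → ℂ} (hv : v ∈ tn (grS A σ) (Sum.elim y x)) :
    v ∘ .inr = fderiv ℂ Φ y (v ∘ .inl) := by
  let L : (J ⊕ T → ℂ) →L[ℂ] J → ℂ := .pi fun j => .proj (.inl j)
  let M : (J ⊕ T → ℂ) →L[ℂ] T → ℂ := .pi fun j => .proj (.inr j)
  let N : (T → ℂ) →L[ℂ] J ⊕ T → ℂ := .pi (Sum.elim 0 .proj)
  have a : AnalyticAt ℂ Φ (L (Sum.elim y x)) := h1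
  have := hv (fun u => N (M u - Φ (L u))) ((N.analyticAt _).comp ((M.analyticAt _).sub
    (a.comp (L.analyticAt _)))) ((L.continuous.continuousAt.eventually h2).mono fun u b c => by
      rw [← b c.1, show M u = σ (L u) from c.2, sub_self, map_zero])
  have b := DFunLike.congr_fun (N.hasFDerivAt.comp _ (M.hasFDerivAt.sub
    (a.differentiableAt.hasFDerivAt.comp _ L.hasFDerivAt))).fderiv v
  exact funext fun t => sub_eq_zero.1 (congrFun (b.symm.trans this) (.inr t))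

/-- With an extra torus. -/
theorem exists_grqT [DecidableEq R] {wt : J → S → ℤ} (hA : PV π A n) (hT : TInv wt A)
    (w : T → R → ℤ) (wt' : T → S → ℤ) (σ : (J → ℂ) → T → ℂ) (hol : ∀ y ∈ A, HolOn A σ y)
    (eqv : ∀ t, IsUnit t → ∀ y ∈ A, ∀ a, σ (scl π t y) a = (∏ r, t r ^ w a r) * σ y a)
    (eqv' : ∀ τ, IsUnit τ → ∀ y ∈ A, ∀ a, σ (tw wt τ y) a = (∏ r, τ r ^ wt' a r) * σ y a) :
    ∃ (k : ℕ) (χ : Fin k → R → ℤ) (κ : Fin k → S → ℤ) (g : Fin k → MvPolynomial (J ⊕ T) ℂ),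
      (∀ i, WHom (Sum.elim (bw π) w) (χ i) (g i)) ∧ (∀ i, WHom (Sum.elim wt wt') (κ i) (g i)) ∧
      (∀ i, (g i).totalDegree ≠ 0) ∧
      (∀ y ∈ A, ∀ x : T → ℂ, gv g (Sum.elim y x) = 0 ↔ x = σ y) ∧
      ∀ y ∈ A, ∀ ξ : T → ℂ, fderiv ℂ (gv g) (Sum.elim y (σ y)) (Sum.elim 0 ξ) = 0 → ξ = 0 := by
  obtain ⟨k, g, χ, κ, a, b, c⟩ := gr_eqs (ω := w) (ωt := wt') hA hT hol
    (fun t h y d => funext (eqv t h y d)) fun t h y d => funext (eqv' t h y d)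
  refine ⟨k, χ, κ, g, fun i => (a i).2.1, fun i => (a i).2.2, fun i => (a i).1,
    fun y d x => b (Sum.elim y x) d, fun y d ξ e => ?_⟩
  obtain ⟨Φ, f1, f2⟩ := hol y d
  exact (tn_grS f1 f2 (c (Sum.elim y (σ y)) ⟨d, rfl⟩ _ e)).trans (map_zero _)

theorem exists_grq {J R T : Type} [Fintype J] [Fintype R] [Fintype T] [DecidableEq R] {π : J → R}
    {A : Set (J → ℂ)} {n : ℕ} (hA : PV π A n) (w : T → R → ℤ) (σ : (J → ℂ) → T → ℂ)
    (hol : ∀ y ∈ A, P269.Holo.HolOn A σ y)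
    (eqv : ∀ t, IsUnit t → ∀ y ∈ A, ∀ a, σ (scl π t y) a = (∏ r, t r ^ w a r) * σ y a) :
    ∃ (k : ℕ) (χ : Fin k → R → ℤ) (g : Fin k → MvPolynomial (J ⊕ T) ℂ),
      (∀ i, WHom (Sum.elim (bw π) w) (χ i) (g i)) ∧ (∀ i, (g i).totalDegree ≠ 0) ∧
      (∀ y ∈ A, ∀ x : T → ℂ, gv g (Sum.elim y x) = 0 ↔ x = σ y) ∧
      ∀ y ∈ A, ∀ ξ : T → ℂ, fderiv ℂ (gv g) (Sum.elim y (σ y)) (Sum.elim 0 ξ) = 0 → ξ = 0 := by
  have e : ∀ (τ : Empty → ℂ) y, tw (fun _ : J => 0) τ y = y := fun _ _ => funext fun _ => by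
    simp [tw]
  obtain ⟨k, χ, -, g, a, -, b⟩ := exists_grqT (S := Empty) (wt := fun _ => 0) hA
    (fun τ _ y h => (e τ y).symm ▸ h) w (fun _ => 0) σ hol eqv fun τ _ y _ _ => by simp [e]
  exact ⟨k, χ, g, a, b⟩

end Vale.Agent.P287Q.Emb
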