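import Vale.Agent.P287Q.Emb.Prs
import Vale.Agent.P287Q.Emb.GrqM
import Vale.Agent.P287Q.Top.BLPRS

/-!
# The invariants do not depend on the presentation
-/

set_option linter.unusedSectionVars false

namespace Vale.Agent.P287Q

open Set Function Topology Filter MvPolynomial P291Z P269 P269.Holo P269.Tq Emb

variable {n : ℕ} {V : Var n} {K : Type} [Fintype K] {F : Fam Empty Empty V.R V.J K} {k : ℕ}

theorem Emb.Mdl.eqv (h : Mdl F V.π V.A) : Eqv F.actT (scl V.π) F.cone V.A Prod.snd :=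
  ⟨fun z => (h.cone z).1, continuousOn_snd, fun t a _ _ =>
    ⟨t.2, (Prod.isUnit_iff.1 a).2, congrArg Prod.snd (actT_eq h.w t _)⟩⟩

/-- The invariants of a presentation are those of a model. -/
theorem Prs.gw_mdl (P : Prs V) (hM : Mdl F V.π V.A) (hD : DET) (hZ : St.PresZ) (hS : St.SelC)
    (hm : F.mov = univ) (hk : F.Big k) (d l) : P.gw d l = F.cor k F.exC 0 F.cone F.cone d (-1)
      (l.map (Prod.map id (H.map hM.eqv.qm))) [] [] := by
  obtain ⟨a, b⟩ := P.cmp_mdl hM grq hD hZ hS hm hk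
  refine (b d _ _ _).trans ?_
  rw [List.map_map]
  refine congrArg (fun u => F.cor k F.exC 0 F.cone F.cone d (-1) (l.map u) [] [])
    (funext fun x => Prod.ext rfl ((Wt.pb_eq a _).trans ((a.map_map P.eqv x.2).trans ?_)))
  rw [(Eqv.comp a P.eqv).qm_ext hM.eqv fun z c =>
    ⟨1, isUnit_one, ((scl_one _).trans (P.tors.sec _ ((hM.cone z).1 c))).symm⟩]
  rfl

/-- **Independence of the presentation.** -/
theorem Prs.gw_eq [Nonempty V.J] (hD : DET) (hZ : St.PresZ) (hS : St.SelC) (P P' : Prs V) (d l) :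
    P.gw d l = P'.gw d l := by
  obtain ⟨k, δ, g, _, a, b, c⟩ := chow V.J V.R Empty V.π (fun _ => Empty.elim) V.A n V.pv
    fun τ _ y e => mem_of_eq_of_mem (funext fun j => by simp [tw]) e
  have h := mdl_fam a V.pv b (fun i => (c i).1) P.det
  exact (P.gw_mdl h hD hZ hS rfl (fam_big le_rfl) d l).trans
    (P'.gw_mdl h hD hZ hS rfl (fam_big le_rfl) d l).symm

end Vale.Agent.P287Q
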