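import Vale.Agent.P287Q.Emb.GwN

/-!
# The invariants do not depend on the presentation: the variety without fields
-/

set_option linter.unusedSectionVars false

namespace Vale.Agent.P287Q

open Set Function Topology Filter MvPolynomial P291Z P269 P269.Holo P269.Tq Emb

namespace Emb

/-- The point. -/
noncomputable def ptF (R : Type) : Fam Empty Empty R Unit Unit :=
  Tgt.fam ⟨0, univ, fun _ => X (), 0⟩ 0

variable {R : Type} [Fintype R] [DecidableEq R] [IsEmpty R]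

theorem ptF_fib (l k) : ((ptF R).fib l).F k = X () := by
  simp [ptF, Tgt.fam, Fam.fib]

theorem mem_ptF {z} : z ∈ (ptF R).cone ↔ z = 0 := by
  simp only [Fam.mem_cone, Fam.eqn, ptF_fib, eval_X, forall_const]
  exact ⟨fun a => Prod.ext (Subsingleton.elim _ _) (funext fun _ => a.2.2),
    fun a => ⟨⟨trivial, trivial, nofun⟩, trivial, a ▸ rfl⟩⟩

theorem ptF_ample : (ptF R).Ample 0 1 :=
  ⟨Subsingleton.elim _ _, one_pos, fun _ _ _ _ => ⟨0, isEmptyElim, by simp⟩⟩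

theorem ptF_ab : Ab (ptF R) :=
  have i : (ptF R).Inv := ⟨fun _ _ _ => isEmptyElim, fun _ _ _ _ _ => isEmptyElim, isOpen_univ,
    fun _ _ _ _ => trivial, isClosed_univ, fun _ _ _ _ => trivial, fun _ _ _ _ _ => trivial,
    empty_disjoint _, isClosed_univ.isLocallyClosed, fun _ _ _ _ => trivial⟩
  .of rfl ⟨fun _ a => (a trivial).elim, rfl⟩ ⟨i, fun _ => by simp [ptF, Tgt.fam],
    fun _ _ _ _ _ => Subsingleton.elim _ _, fun _ _ _ _ _ _ _ _ _ _ => ⟨0, fun _ => isEmptyElim⟩,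
    fun _ _ _ _ _ => Subsingleton.elim _ _, fun _ _ _ _ _ _ _ _ _ => ⟨0, .of_forall
      fun _ => isEmptyElim⟩, fun _ _ _ => ⟨{0}, fun _ => mem_ptF.2, isCompact_singleton,
      fun _ a _ => ⟨1, isUnit_one, (Wt.actT_one _ _).trans (mem_ptF.1 a)⟩⟩, ⟨_, _, ptF_ample⟩,
    univ_nonempty⟩ (Fam.reg_univ i fun _ _ c => ⟨c, fun _ a => (a trivial).elim, fun _ => by
      simp [Fam.jac, ptF_fib]⟩)

theorem ptF_eq {R' J K : Type} [Fintype R'] [Fintype J] [Fintype K] {F : Fam Empty Empty R' J K}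
    {f} (h : (0, f 0) ∈ F.cone) : EQ (ptF R) F f :=
  ⟨fun _ a => mem_ptF.1 a ▸ h, Set.Subsingleton.continuousOn
    (fun _ a _ b => (mem_ptF.1 a).trans (mem_ptF.1 b).symm) _, fun t _ _ _ =>
      ⟨1, isUnit_one, by rw [Wt.actT_one, Subsingleton.elim t 1, Wt.actT_one]⟩⟩

theorem Ab.add_zero {R J K : Type} [Fintype R] [DecidableEq R] [Fintype J] [Fintype K]
    {F : Fam Empty Empty R J K} (h : Ab F) :
    Add F (0 : Unit → _) (0 : Unit → _) (fun _ => X (.inr ())) univ ∅ 0 := by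
  refine ⟨h, fun _ => whom_iff.2 (isWeightedHomogeneous_X _ _ _), fun _ => by simp, isOpen_univ,
    fun _ _ _ _ => trivial, continuousOn_const, fun _ _ x => ?_, fun _ _ ξ _ a => ?_⟩
  · simp [gv, funext_iff, Unique.forall_iff]
  · have b := congrFun a ()
    rw [fderiv_gv] at b
    refine funext fun _ => (HasDerivAt.unique ((fd_line _ _ _).congr_deriv b) ?_).symm
    simpa using (hasDerivAt_id' (0 : ℂ)).mul_const (ξ ())

end Emb

namespace Prs

variable {n m : ℕ} {V : Var n} (P : Prs V) [IsEmpty V.J] [IsEmpty V.R] {χ : Fin m → V.R → ℤ}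
  {g : Fin m → MvPolynomial (V.J ⊕ P.J) ℂ}
  (a₂ : Add P.F P.w₂ (P.χ₂ χ) (P.g₂ g) {u | ∀ r, u (.inr (.inr r)) ≠ 0} ∅ P.σ₂)

theorem ev₃ (z : (Empty → ℂ) × (Unit → ℂ)) :
    evσ (Sum.elim (fun j => C (C (P.f₂ (Sum.elim 0 (P.Φ 0)) j))) X) z =
      Prod.map id (Sum.elim (P.f₂ (Sum.elim 0 (P.Φ 0)))) z :=
  Prod.ext rfl (funext fun j => by cases j <;> simp [evσ, evz])

include a₂

theorem mem₃ : ((0 : Empty → ℂ), P.f₂ (Sum.elim 0 (P.Φ 0))) ∈ (addF P.F P.w₂ (P.χ₂ χ) (P.g₂ g)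
    {u | ∀ r, u (.inr (.inr r)) ≠ 0} ∅).cone := by
  obtain ⟨y, a⟩ := V.conn.nonempty
  obtain rfl := Subsingleton.elim 0 y
  exact P.f₂_eq a ▸ a₂.grf.up (P.tors.mem _ a)

theorem pres₃ : (ptF V.R).Pres (addF (addF P.F P.w₂ (P.χ₂ χ) (P.g₂ g)
    {u | ∀ r, u (.inr (.inr r)) ≠ 0} ∅) (0 : Unit → _) (0 : Unit → _) (fun _ => X (.inr ())) univ ∅)
    .inr (fun r => .inl (.inr (.inr r))) P.M
    (Sum.elim (fun j => C (C (P.f₂ (Sum.elim 0 (P.Φ 0)) j))) X) := by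
  have a₃ := a₂.ab'.add_zero
  refine ⟨Sum.inr_injective, Subsingleton.elim _ _, rfl, fun _ => rfl, fun _ => by simp [f₂],
    fun _ _ _ => isEmptyElim, fun _ _ _ _ _ => isEmptyElim, fun _ _ => Subsingleton.elim _ _,
    fun d a => ⟨d ∘ P.ρ, funext fun r => sub_eq_zero.1 ((P.lnk_d r d).symm.trans (a r))⟩,
    fun c => ⟨c, fun i => (P.lnk_d _ _).trans (by simp)⟩, fun z => ⟨fun a => ?_, ?_⟩,
    fun j => iff_of_true (notMem_empty _) trivial,
    fun j => iff_of_false (fun a => a (notMem_empty _)) nofun,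
    fun _ _ _ _ => trivial, fun _ _ a => .inl a,
    fun _ _ _ _ _ => iff_of_true trivial ⟨1, isUnit_one, fun _ _ a b => (b a).elim⟩⟩
  · obtain ⟨b, c⟩ := a₃.mem.1 a
    obtain ⟨b', c'⟩ := (a₂.grf.cone _).1 b
    obtain ⟨t, d, e⟩ := P.tors.orb _ b'
    have i := P.tors.maps _ b'
    rw [Subsingleton.elim (_ ∘ P.ι) 0] at e i
    refine ⟨t, d, 0, mem_ptF.2 rfl, Prod.ext (Subsingleton.elim _ _) ?_⟩
    have f := (congrArg (fun u => Sum.elim u.2 (P.σ₂ u.2)) e).trans (a₂.grf.σ_act a₂.finv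
      (Prod.isUnit_iff.2 ⟨isUnit_one, d⟩) (P.tors.mem _ i))
    rw [P.f₂_eq i] at f
    rw [ev₃]
    funext j
    cases j with
    | inl j => exact congrFun (c'.trans f) j
    | inr j => exact (congrFun c j).trans (mul_zero _).symm
  · rintro ⟨t, a, u, b, rfl⟩
    rw [ev₃, mem_ptF.1 b]
    exact a₃.finv.cone_act (Prod.isUnit_iff.2 ⟨isUnit_one, a⟩) (a₃.grf.up (P.mem₃ a₂))

omit a₂ in
theorem gw_pt (hD : DET) (hZ : St.PresZ) (hS : St.SelC) (r : C((ptF V.R).X (ptF V.R).cone, V.X))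
    (d l) : P.gw d l = (ptF V.R).cor 30 (ptF V.R).exC 0 (ptF V.R).cone (ptF V.R).cone d (-1)
      (l.map (Prod.map id (H.map r))) [] [] := by
  obtain ⟨m, χ, g, h1, h2, h3, h4⟩ := grq P.w₁ P.Φ V.pv P.tors.hol P.Φ_eqv
  have a₂ := P.add₂ h1 h2 h3 h4
  have a₃ := a₂.ab'.add_zero
  have q1 := ptF_eq (R := V.R) (f := Sum.elim (P.f₂ (Sum.elim 0 (P.Φ 0))))
    (a₃.grf.up (P.mem₃ a₂))
  have q2 := q1.comp a₃.grf.eqv
  have c := ((cmp_of_pres hZ hS (P.pres₃ a₂) ptF_ab.abs.1 subset_rfl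
    (fun _ a => a (notMem_empty _)) ptF_ab.nice a₃.ab'.nice ⟨_, _, ptF_ample, le_rfl⟩
    (a₃.grf.big (a₂.grf.big P.big)) _ P.ev₃).1 d).trans (a₃.cmp hD hZ hS (a₂.grf.big P.big) _)
    q1 a₃.grf.eqv
  refine ((c.trans (a₂.cmp hD hZ hS P.big _) q2 a₂.grf.eqv) _ _ _).trans ?_
  rw [List.map_map]
  have a := q2.comp a₂.grf.eqv
  have : Subsingleton V.X := inferInstanceAs (Subsingleton (Quot _))
  refine congrArg (fun u => (ptF V.R).cor 30 _ 0 _ _ d (-1) (l.map u) [] [])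
    (funext fun x => Prod.ext rfl ((Wt.pb_eq a _).trans ((a.map_map P.eqv x.2).trans ?_)))
  rw [Subsingleton.elim (Eqv.comp a P.eqv).qm r]
  rfl

end Prs

/-- **Independence of the presentation.** -/
theorem Prs.gw_eq' {n : ℕ} {V : Var n} (hD : DET) (hZ : St.PresZ) (hS : St.SelC) (P P' : Prs V)
    (d l) : P.gw d l = P'.gw d l := by
  obtain h | h := isEmpty_or_nonempty V.J
  · obtain ⟨y, a⟩ := V.conn.nonempty
    have : IsEmpty V.R := ⟨fun r => h.elim (V.pv.sub a r).choose⟩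
    exact (P.gw_pt hD hZ hS (.const _ (V.pt ⟨y, a⟩)) d l).trans (P'.gw_pt hD hZ hS _ d l).symm
  · exact Prs.gw_eq hD hZ hS P P' d l

end Vale.Agent.P287Q
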