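import Vale.Agent.P287Q.Emb.AddG
import Vale.Agent.P287Q.Emb.Cmp
import Vale.Agent.P287Q.Emb.Gr0
import Vale.Agent.P287Q.Top.Off

/-!
# The invariants do not depend on the presentation
-/

set_option linter.unusedSectionVars false

namespace Vale.Agent.P287Q

open Set Function Topology Filter MvPolynomial P291Z P269 P269.Holo Emb

namespace Emb

variable {J R S : Type} [Fintype J] [Fintype R] [Fintype S]

theorem wh_sub {w : J → S → ℤ} {χ χ' : S → ℤ} {p q : MvPolynomial J ℂ}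
    {χ'' : S → ℤ} (h : IsWeightedHomogeneous w p χ') (h' : IsWeightedHomogeneous w q χ'')
    (e : χ'' = χ) (e' : χ' = χ) : WHom w χ (p - q) := fun α a => by
  classical
  exact (Finset.mem_union.1 (support_sub _ _ _ a)).elim (whom_iff.2 (e' ▸ h) α)
    (whom_iff.2 (e ▸ h') α)

theorem chr_mat {t : S → ℂ} (ht : IsUnit t) (M : R → S → ℤ) (w : R → ℤ) :
    ∏ r, (∏ s, t s ^ M r s) ^ w r = ∏ s, t s ^ ∑ r, w r * M r s := by
  simp only [← Finset.prod_zpow, ← zpow_mul, zpow_sum_ne (unit_iff.1 ht _), mul_comm (w _)]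
  exact Finset.prod_comm

theorem sum_ext {ρ : S → R} (h : Injective ρ) (a : S → ℤ) (d : R → ℤ) :
    ∑ r, extend ρ a 0 r * d r = ∑ s, a s * d (ρ s) :=
  (Fintype.sum_of_injective ρ h _ _ (fun r b => by rw [extend_apply' _ _ _ b, Pi.zero_apply,
    zero_mul]) fun s => by rw [h.extend_apply]).symm

theorem ext_ext {ρ : S → R} {a b : R → ℤ} (h : ∀ s, a (ρ s) = b (ρ s))
    (h' : ∀ r, (¬∃ s, ρ s = r) → a r = b r) : a = b := funext fun r => by
  by_cases c : ∃ s, ρ s = r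
  exacts [c.choose_spec ▸ h _, h' r c]

theorem bin_iff {t : R → ℂ} (ht : ∀ r, t r ≠ 0) (w : R → ℤ) (a b : ℂ) :
    a * ∏ r, t r ^ (-w r).toNat - b * ∏ r, t r ^ (w r).toNat = 0 ↔ a = (∏ r, t r ^ w r) * b := by
  rw [show ∏ r, t r ^ (w r).toNat = (∏ r, t r ^ w r) * ∏ r, t r ^ (-w r).toNat from
    (Finset.prod_congr rfl fun r _ => by
      rw [← zpow_natCast, ← zpow_natCast, ← zpow_add₀ (ht r)]
      exact congrArg _ (by omega)).trans Finset.prod_mul_distrib, ← mul_assoc, ← sub_mul,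
    mul_eq_zero, or_iff_left (Finset.prod_ne_zero_iff.2 fun r _ => pow_ne_zero _ (ht r)),
    sub_eq_zero, mul_comm]

theorem mon_deriv {t : R → ℂ} (ht : ∀ r, t r ≠ 0) (a : R → ℕ) (η : R → ℂ) :
    HasDerivAt (fun ε : ℂ => ∏ r, (t r + ε * η r) ^ a r)
      ((∏ r, t r ^ a r) * ∑ r, a r * (η r / t r)) 0 := by
  induction (Finset.univ : Finset R) using Finset.cons_induction with
  | empty => simpa using hasDerivAt_const (0 : ℂ) (1 : ℂ)
  | cons r s h ih =>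
    simp only [Finset.prod_cons, Finset.sum_cons]
    refine (((((hasDerivAt_id' (0 : ℂ)).mul_const (η r)).const_add (t r)).fun_pow
      (a r)).fun_mul ih).congr_deriv ?_
    have := ht r
    cases a r <;> simp [pow_succ]
    field_simp

theorem fd_line (p : MvPolynomial J ℂ) (u v : J → ℂ) :
    HasDerivAt (fun ε : ℂ => eval (fun j => u j + ε * v j) p) (fderiv ℂ (fun x => eval x p) u v) 0 :=
  (an_eval p u).differentiableAt.hasFDerivAt.comp_hasDerivAt_of_eq 0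
    (f := fun ε : ℂ => u + ε • v)
    (by simpa using ((hasDerivAt_id (0 : ℂ)).smul_const v).const_add u) (by simp)

theorem deg_ne {p : MvPolynomial J ℂ} {u v : J → ℂ} (h : eval u p ≠ eval v p) :
    p.totalDegree ≠ 0 := fun e => h (by rw [totalDegree_eq_zero_iff_eq_C.1 e, eval_C, eval_C])

end Emb

namespace Prs

variable {n : ℕ} {V : Var n} (P : Prs V) {m : ℕ}

theorem ab : Ab P.F := ⟨P.nice, P.B, P.abs⟩

/-- The weights of the section. -/
def w₁ (j : P.J) (s : V.R) : ℤ := ∑ r, P.F.w j r * P.M r s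

/-- The weights of the new fields. -/
noncomputable def w₂ : (V.J ⊕ P.J) ⊕ P.R → P.R → ℤ :=
  Sum.elim (fun a => extend P.ρ (Sum.elim (bw V.π) P.w₁ a) 0)
    fun r => Pi.single r 1 - extend P.ρ (P.M r) 0

/-- The new equations. -/
noncomputable def g₂ (g : Fin m → MvPolynomial (V.J ⊕ P.J) ℂ) :
    (V.J ⊕ Fin m) ⊕ P.J → MvPolynomial (P.J ⊕ (V.J ⊕ P.J) ⊕ P.R) ℂ :=
  Sum.elim (Sum.elim (fun j => X (.inr (.inl (.inl j))) - X (.inl (P.ι j)))
    fun i => rename (.inr ∘ .inl) (g i)) fun j =>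
      X (.inl j) * ∏ r, X (.inr (.inr r)) ^ (-P.F.w j r).toNat -
        X (.inr (.inl (.inr j))) * ∏ r, X (.inr (.inr r)) ^ (P.F.w j r).toNat

/-- Their weights. -/
noncomputable def χ₂ (χ : Fin m → V.R → ℤ) : (V.J ⊕ Fin m) ⊕ P.J → P.R → ℤ :=
  Sum.elim (Sum.elim (fun j => P.F.w (P.ι j)) fun i => extend P.ρ (χ i) 0)
    fun j => P.F.w j + ∑ r, (-P.F.w j r).toNat • P.w₂ (.inr r)

/-- The values of the new fields. -/
noncomputable def σ₂ (z : P.J → ℂ) : (V.J ⊕ P.J) ⊕ P.R → ℂ :=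
  Sum.elim (Sum.elim (z ∘ P.ι) (P.Φ (z ∘ P.ι))) (P.tau z)

theorem Φ_eqv (t) (ht : IsUnit t) (y) (hy : y ∈ V.A) (j) :
    P.Φ (scl V.π t y) j = (∏ s, t s ^ P.w₁ j s) * P.Φ y j := by
  have := P.tors.eqv t ht y hy
  rw [Wt.act_eq] at this
  exact (congrFun (congrArg Prod.snd this) j).trans (congrArg (· * _) (chr_mat ht _ _))

theorem ext_M (a : V.R → ℤ) (s : V.R) : ∑ r, extend P.ρ a 0 r * P.M r s = a s := by
  simp [sum_ext P.tors.inj', P.tors.M_ρ, Pi.single_apply]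

theorem lnk_d (r : P.R) (d : P.R → ℤ) :
    ∑ r', P.w₂ (.inr r) r' * d r' = d r - ∑ s, P.M r s * d (P.ρ s) := by
  simp [w₂, sub_mul, sum_ext P.tors.inj', Pi.single_apply]

theorem lnk_M (r : P.R) (s : V.R) : ∑ r', P.w₂ (.inr r) r' * P.M r' s = 0 := by
  simp [lnk_d, P.tors.M_ρ, Pi.single_apply]

theorem inf_free {z} (hz : z ∈ P.F.cone) {c : P.R → ℂ}
    (h : ∀ j, z.2 j ≠ 0 → ∑ r, P.F.w j r * c r = 0) : c = 0 := funext fun r => by
  obtain ⟨θ, N, -, -, k⟩ := P.nice.ample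
  have e : ∀ χ : P.R → ℤ, (∃ α : P.J → ℕ, (∀ i, ∑ j, α j * P.F.w j i = χ i) ∧
      ∏ j, z.2 j ^ α j ≠ 0) → ∑ i, χ i * c i = 0 := fun χ ⟨α, a, b⟩ => by
    simp only [← a, Int.cast_sum, Int.cast_mul, Finset.sum_mul, mul_assoc]
    rw [Finset.sum_comm]
    refine Finset.sum_eq_zero fun j _ => ?_
    rw [← Finset.mul_sum]
    by_cases d : α j = 0
    · simp [d]
    · rw [h j fun f => Finset.prod_ne_zero_iff.1 b j (Finset.mem_univ _)
        (by rw [f, zero_pow d]), mul_zero]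
  have a := e _ (k _ (.inr ⟨r, .inl rfl⟩) _ hz)
  simp only [Pi.add_apply, Int.cast_add, add_mul, Finset.sum_add_distrib,
    e _ (k _ (.inl rfl) _ hz)] at a
  simpa [Pi.single_apply] using a

variable {χ : Fin m → V.R → ℤ} {g : Fin m → MvPolynomial (V.J ⊕ P.J) ℂ}

theorem g₂_ren (u) (i : Fin m) :
    eval u (P.g₂ g (.inl (.inr i))) = eval (fun a => u (.inr (.inl a))) (g i) := eval_rename _ _ _

theorem hom₂ (h1 : ∀ i, WHom (Sum.elim (bw V.π) P.w₁) (χ i) (g i)) (k) :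
    WHom (Sum.elim P.F.w P.w₂) (P.χ₂ χ k) (P.g₂ g k) := by
  have i1 := P.tors.inj'
  have hX := fun a => isWeightedHomogeneous_X ℂ (Sum.elim P.F.w P.w₂) a
  have hP := fun a (e : P.R → ℕ) => (hX a).mul
    (IsWeightedHomogeneous.prod Finset.univ _ _ fun r _ => (hX (.inr (.inr r))).pow (e r))
  rcases k with (j | i) | j
  · refine wh_sub (hX _) (hX (.inl (P.ι j))) rfl ?_
    change extend P.ρ (bw V.π j) 0 = P.F.w (P.ι j)
    rw [P.tors.w]
    exact ext_ext (ρ := P.ρ) (fun s => by simp [i1.extend_apply, bw, Pi.single_apply, i1.eq_iff])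
      fun r a => by rw [extend_apply' _ _ _ a, Pi.single_eq_of_ne' fun b => a ⟨_, b⟩]; rfl
  · intro α a r
    obtain ⟨β, b, -, -, c⟩ := ren_sup (Sum.inr_injective.comp Sum.inl_injective) a
    refine (c _).trans (congrFun (ext_ext (ρ := P.ρ) (a := fun r => ∑ j, β j *
      extend P.ρ (Sum.elim (bw V.π) P.w₁ j) 0 r) (b := extend P.ρ (χ i) 0) ?_ ?_) r)
    · simpa only [i1.extend_apply] using h1 i β b
    · intro r d
      simp [extend_apply' _ _ _ d]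
  · refine wh_sub (hP (.inl j) _) (hP (.inr (.inl (.inr j))) _) ?_ rfl
    have e : ∀ r, ((P.F.w j r).toNat : ℤ) = P.F.w j r + (-P.F.w j r).toNat := fun r => by omega
    simp only [χ₂, Sum.elim_inr, ← natCast_zsmul, e, add_smul, Finset.sum_add_distrib,
      ← add_assoc]
    refine congrArg (· + _) (ext_ext (ρ := P.ρ) (fun s => ?_) fun r d => ?_)
    · simp [w₂, i1.extend_apply, w₁, mul_sub, Pi.single_apply]
    · simp [w₂, extend_apply' _ _ _ d, Pi.single_apply]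

theorem cont₂ : ContinuousOn P.σ₂ (Prod.snd '' P.F.cone) := by
  rintro _ ⟨z, hz, rfl⟩
  have e : Prod.snd '' P.F.cone = {y | (0, y) ∈ P.F.cone} := Set.ext fun y =>
    ⟨fun ⟨u, a, b⟩ => b ▸ (show (0, u.2) = u from Prod.ext (Subsingleton.elim _ _) rfl).symm ▸ a,
      fun a => ⟨_, a, rfl⟩⟩
  have a : z.2 ∈ {y | (0, y) ∈ P.F.cone} := e.le ⟨z, hz, rfl⟩
  have b : HolOn {y | (0, y) ∈ P.F.cone} (fun y => y ∘ P.ι) z.2 := .of_an (Gr0.an_cmp _ _)
  rw [e]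
  exact (Gr0.hol_elim a (Gr0.hol_elim a b (HolOn.comp (F := (· ∘ P.ι))
    (P.tors.hol _ (P.tors.maps _ hz)) b a
    (.of_forall fun _ c => P.tors.maps _ c))) (.pi (tau_hol a))).tendsto a

theorem gr₂ (h3 : ∀ y ∈ V.A, ∀ x, gv g (Sum.elim y x) = 0 ↔ x = P.Φ y) {y}
    (hz : (0, y) ∈ P.F.cone) (x : _ → ℂ) :
    ((∀ r, x (.inr r) ≠ 0) ∧ gv (P.g₂ g) (Sum.elim y x) = 0) ↔ x = P.σ₂ y := by
  have hy : y ∘ P.ι ∈ V.A := P.tors.maps _ hz
  obtain ⟨t1, t2⟩ := tau_spec hz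
  refine ⟨fun ⟨a, b⟩ => ?_, ?_⟩
  · have b1 : (x ∘ .inl) ∘ .inl = y ∘ P.ι := funext fun j => by
      simpa [gv, g₂, sub_eq_zero] using congrFun b (.inl (.inl j))
    have b2 : (x ∘ .inl) ∘ .inr = P.Φ (y ∘ P.ι) := (h3 _ hy _).1 (funext fun i => by
      rw [← b1, Sum.elim_comp_inl_inr]
      exact (P.g₂_ren (Sum.elim y x) i).symm.trans (congrFun b (.inl (.inr i))))
    have b3 := tau_eq hz (t := x ∘ .inr) (unit_iff.2 a) (funext fun j => by
      rw [← b2]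
      exact (bin_iff (t := x ∘ .inr) a _ _ _).1 (by simpa [gv, g₂] using congrFun b (.inr j)))
    rw [σ₂, b3, ← b2, ← b1, Sum.elim_comp_inl_inr, Sum.elim_comp_inl_inr]
  · rintro rfl
    refine ⟨unit_iff.1 t1, funext ?_⟩
    rintro ((j | i) | j)
    · simp [gv, g₂, σ₂]
    · exact (P.g₂_ren _ i).trans (congrFun ((h3 _ hy _).2 rfl) i)
    · simpa [gv, g₂, σ₂] using (bin_iff (unit_iff.1 t1) _ _ _).2 (congrFun t2 j)

theorem jac₂
    (h4 : ∀ y ∈ V.A, ∀ ξ, fderiv ℂ (gv g) (Sum.elim y (P.Φ y)) (Sum.elim 0 ξ) = 0 → ξ = 0) {y}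
    (hz : (0, y) ∈ P.F.cone) (ξ : _ → ℂ)
    (e : fderiv ℂ (gv (P.g₂ g)) (Sum.elim y (P.σ₂ y)) (Sum.elim 0 ξ) = 0) : ξ = 0 := by
  obtain ⟨t1, t2⟩ := tau_spec hz
  have d := fun k => (fd_line (P.g₂ g k) (Sum.elim y (P.σ₂ y)) (Sum.elim 0 ξ)).congr_deriv
    ((fderiv_gv _ _ _ k).symm.trans (congrFun e k))
  have b1 : (ξ ∘ .inl) ∘ .inl = 0 := funext fun j => by
    refine (HasDerivAt.unique (d (.inl (.inl j))) ?_).symm
    simpa [g₂, σ₂] using (hasDerivAt_id' (0 : ℂ)).mul_const (ξ (.inl (.inl j)))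
  have b2 : (ξ ∘ .inl) ∘ .inr = 0 := h4 (y ∘ P.ι) (P.tors.maps _ hz) _ (funext fun i => by
    have := d (.inl (.inr i))
    simp only [g₂_ren, Sum.elim_inr, σ₂, Sum.elim_inl] at this
    rw [← b1, Sum.elim_comp_inl_inr, fderiv_gv]
    exact (fd_line _ _ _).unique this)
  have u := unit_iff.1 t1
  have b3 := P.inf_free hz (c := fun r => ξ (.inr r) / P.tau y r) fun j a => by
    have f := (d (.inr j)).unique ((((mon_deriv u (fun r => (-P.F.w j r).toNat)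
      (ξ ∘ .inr)).const_mul (y j)).fun_sub ((mon_deriv u (fun r => (P.F.w j r).toNat)
        (ξ ∘ .inr)).const_mul (P.Φ (y ∘ P.ι) j))).congr_of_eventuallyEq (.of_forall fun ε => by
          simp [g₂, σ₂, show ξ (.inl (.inr j)) = 0 from congrFun b2 j]))
    rw [← mul_assoc, ← mul_assoc, ← sub_eq_zero.1 ((bin_iff u _ _ _).2 (congrFun t2 j)),
      ← mul_sub, ← Finset.sum_sub_distrib] at f
    rw [← neg_eq_zero, ← Finset.sum_neg_distrib]
    refine Eq.trans (Finset.sum_congr rfl fun r _ => ?_) ((mul_eq_zero.1 f.symm).resolve_left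
      (mul_ne_zero a (Finset.prod_ne_zero_iff.2 fun r _ => pow_ne_zero _ (u r))))
    rw [← sub_mul, ← neg_mul, ← Int.cast_natCast, ← Int.cast_natCast (P.F.w j r).toNat,
      ← Int.cast_sub, ← Int.cast_neg]
    exact congrArg (fun a : ℤ => (a : ℂ) * _) (by omega)
  funext a
  rcases a with (j | j) | r
  exacts [congrFun b1 j, congrFun b2 j, (div_eq_zero_iff.1 (congrFun b3 r)).resolve_right (u r)]

theorem add₂ (h1 : ∀ i, WHom (Sum.elim (bw V.π) P.w₁) (χ i) (g i))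
    (h2 : ∀ i, (g i).totalDegree ≠ 0) (h3 : ∀ y ∈ V.A, ∀ x, gv g (Sum.elim y x) = 0 ↔ x = P.Φ y)
    (h4 : ∀ y ∈ V.A, ∀ ξ, fderiv ℂ (gv g) (Sum.elim y (P.Φ y)) (Sum.elim 0 ξ) = 0 → ξ = 0) :
    Add P.F P.w₂ (P.χ₂ χ) (P.g₂ g) {u | ∀ r, u (.inr (.inr r)) ≠ 0} ∅ P.σ₂ := by
  have e : ∀ z ∈ P.F.cone, (0, z.2) ∈ P.F.cone := fun z =>
    mem_of_eq_of_mem (Prod.ext (Subsingleton.elim _ _) rfl)
  refine ⟨P.ab, P.hom₂ h1, ?_, ?_, fun t a y b r => mul_ne_zero (prod_zpow_ne (unit_iff.1 a) _)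
    (b r), P.cont₂, fun z hz x => (and_congr_right' (and_iff_left nofun)).trans
      (P.gr₂ h3 (e z hz) x), fun z hz ξ _ => P.jac₂ h4 (e z hz) ξ⟩
  · rintro ((j | i) | j)
    · exact deg_ne (u := 0) (v := Sum.elim 1 0) (by simp [g₂])
    · exact ren_deg (Sum.inr_injective.comp Sum.inl_injective) (h2 i)
    · exact deg_ne (u := 0) (v := Sum.elim 1 (Sum.elim 0 1)) (by simp [g₂])
  · simp only [ofPred_forall]
    exact isOpen_iInter_of_finite fun r => isOpen_ne.preimage (continuous_apply _)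

/-- The comparison map. -/
def f₂ (y : V.J ⊕ P.J → ℂ) : P.J ⊕ (V.J ⊕ P.J) ⊕ P.R → ℂ := Sum.elim (y ∘ .inr) (Sum.elim y 1)

theorem ev_f₂ (z : (Empty → ℂ) × _) :
    evσ (Sum.elim (fun j => X (.inr j)) (Sum.elim X 1)) z = Prod.map id P.f₂ z :=
  Prod.ext rfl (funext fun j => by rcases j with j | j | j <;> simp [evσ, evz, f₂])

theorem f₂_eq {y} (a : y ∈ V.A) :
    Sum.elim (P.Φ y) (P.σ₂ (P.Φ y)) = P.f₂ (Sum.elim y (P.Φ y)) := by
  rw [σ₂, tau_eq (P.tors.mem y a) isUnit_one (by simp [P.tors.sec y a]), P.tors.sec y a]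
  rfl

variable {K : Type} [Fintype K] {F : Fam Empty Empty V.R V.J K} {k : ℕ} (hM : Mdl F V.π V.A)
  (a₁ : Add F P.w₁ χ g univ ∅ P.Φ)
  (a₂ : Add P.F P.w₂ (P.χ₂ χ) (P.g₂ g) {u | ∀ r, u (.inr (.inr r)) ≠ 0} ∅ P.σ₂)
include hM

theorem w₂_M (a s) : (addF F P.w₁ χ g univ ∅).w a s = ∑ r, P.w₂ (.inl a) r * P.M r s :=
  (congrArg (Sum.elim · P.w₁ a s) hM.w).trans (P.ext_M _ s).symm

section

include a₁ a₂

theorem eq₂ : EQ (addF F P.w₁ χ g univ ∅) (addF P.F P.w₂ (P.χ₂ χ) (P.g₂ g)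
    {u | ∀ r, u (.inr (.inr r)) ≠ 0} ∅) P.f₂ := by
  refine ⟨fun z a => ?_, Continuous.continuousOn (continuous_id.prodMap
    (continuous_pi fun j => ?_)), fun t a u _ => ⟨(1, fun r => ∏ s, t.2 s ^ P.M r s),
      Prod.isUnit_iff.2 ⟨isUnit_one, isUnit_mv _ (Prod.isUnit_iff.1 a).2⟩,
      Prod.ext (Subsingleton.elim _ _) (funext fun j => ?_)⟩⟩
  · obtain ⟨b, c⟩ := (a₁.grf.cone z).1 a
    have d := a₂.grf.up (P.tors.mem _ ((hM.cone _).1 b))
    rw [P.f₂_eq ((hM.cone _).1 b), ← c] at d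
    refine mem_of_eq_of_mem ?_ d
    exact Prod.ext (Subsingleton.elim _ _) rfl
  · rcases j with j | j | j
    exacts [continuous_apply _, continuous_apply _, continuous_const]
  · rw [act_tw, tw, chr_mat (Prod.isUnit_iff.1 a).2]
    rcases j with j | j | j
    · exact congrFun (act_tw (addF F P.w₁ χ g univ ∅).toWt t u) (.inr j)
    · refine (congrFun (act_tw (addF F P.w₁ χ g univ ∅).toWt t u) j).trans ?_
      simp only [tw, P.w₂_M hM]
      rfl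
    · exact Eq.symm ((mul_one _).trans (Finset.prod_eq_one fun s _ =>
        (congrArg _ (P.lnk_M j s)).trans (zpow_zero _)))

theorem pres₂ (hm : F.mov = univ) : (addF F P.w₁ χ g univ ∅).Pres (addF P.F P.w₂ (P.χ₂ χ) (P.g₂ g)
    {u | ∀ r, u (.inr (.inr r)) ≠ 0} ∅) (.inr ∘ .inl)
    (fun i : {r // r ∉ range P.ρ} => .inr (.inr i.1)) P.M
    (Sum.elim (fun j => X (.inr j)) (Sum.elim X 1)) := by
  classical
  have mv : ∀ j, j ∈ (addF F P.w₁ χ g univ ∅).mov := fun j => by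
    cases j
    exacts [hm.ge trivial, notMem_empty _]
  refine ⟨Sum.inr_injective.comp Sum.inl_injective, Subsingleton.elim _ _, rfl, fun _ => rfl,
    fun _ => rfl, ?_, fun _ _ _ _ _ a => a.elim, fun d a => funext fun s => by
      simpa [P.tors.M_ρ, Pi.single_apply] using a (P.ρ s), fun d a => ⟨d ∘ P.ρ, ext_ext (ρ := P.ρ)
        (fun s => by simp [P.tors.M_ρ, Pi.single_apply]) fun r b =>
          sub_eq_zero.1 ((P.lnk_d r d).symm.trans (a ⟨r, b⟩))⟩,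
    fun c => ⟨extend Subtype.val c 0, fun i => (P.lnk_d _ _).trans ?_⟩, fun z => ⟨fun a => ?_, ?_⟩,
    fun j => iff_of_true (notMem_empty _) (mv j),
    fun j => iff_of_false (fun a => a (notMem_empty _)) fun a => a (mv j),
    fun _ _ _ _ => trivial, fun _ _ a => .inl a,
    fun _ _ _ _ _ => iff_of_true trivial ⟨1, isUnit_one, fun _ _ a b => (b a).elim⟩⟩
  · rintro (j | j | j) α a s
    · obtain rfl := Finset.mem_singleton.1 (support_X.le a)
      simp [Finsupp.single_apply, addF, w₁]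
    · obtain rfl := Finset.mem_singleton.1 (support_X.le a)
      refine Eq.trans ?_ (P.w₂_M hM (χ := χ) (g := g) j s)
      simp [Finsupp.single_apply]
    · obtain rfl := Finset.mem_singleton.1 (support_monomial_subset a)
      exact Eq.trans (by simp) (P.lnk_M j s).symm
  · rw [Subtype.val_injective.extend_apply, Finset.sum_eq_zero fun s _ => by
      rw [extend_apply' _ _ _ fun ⟨x, b⟩ => x.2 ⟨s, b.symm⟩, Pi.zero_apply, mul_zero], sub_zero]
  · obtain ⟨b, c⟩ := (a₂.grf.cone z).1 a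
    obtain ⟨t, d, e⟩ := P.tors.orb _ b
    have i := P.tors.maps _ b
    refine ⟨t, d, _, a₁.grf.up ((hM.cone (0, _)).2 i), Prod.ext (Subsingleton.elim _ _) ?_⟩
    rw [c, ev_f₂]
    refine (congrArg (fun u => Sum.elim u.2 (P.σ₂ u.2)) e).trans ((a₂.grf.σ_act a₂.finv
      (Prod.isUnit_iff.2 ⟨isUnit_one, d⟩) (P.tors.mem _ i)).trans ?_)
    rw [P.f₂_eq i]
    rfl
  · rintro ⟨t, a, u, b, rfl⟩
    rw [ev_f₂]
    exact a₂.finv.cone_act (Prod.isUnit_iff.2 ⟨isUnit_one, a⟩) ((P.eq₂ hM a₁ a₂).maps b)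

end

/-- **Comparison with a model.** -/
theorem cmp_mdl (hG : GRQ) (hD : DET) (hZ : St.PresZ) (hS : St.SelC) (hm : F.mov = univ)
    (hk : F.Big k) : EQ F P.F P.Φ ∧ ∀ d, Cmp F k d P.F P.k (P.up d) P.Φ := by
  classical
  obtain ⟨m, χ, g, h1, h2, h3, h4⟩ := hG P.w₁ P.Φ V.pv P.tors.hol P.Φ_eqv
  have a₂ := P.add₂ h1 h2 h3 h4
  have a₁ : Add F P.w₁ χ g univ ∅ P.Φ := ⟨⟨hM.nice, hM.B, hM.abs, hM.E⟩, hM.w ▸ h1, h2, isOpen_univ,
    fun _ _ _ _ => trivial, fun y ⟨z, e, f⟩ => ((P.tors.hol y (f ▸ (hM.cone z).1 e)).tendsto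
      (f ▸ (hM.cone z).1 e)).mono_left (nhdsWithin_mono _ fun _ ⟨z, e, f⟩ => f ▸ (hM.cone z).1 e),
    fun z e x => ⟨fun f => (h3 _ ((hM.cone z).1 e) x).1 f.2.1, fun f => ⟨trivial,
      (h3 _ ((hM.cone z).1 e) x).2 f, nofun⟩⟩, fun z e ξ _ => h4 _ ((hM.cone z).1 e) ξ⟩
  have q1 : EQ F (addF F P.w₁ χ g univ ∅) fun y => Sum.elim y (P.Φ y) :=
    ⟨fun _ a => a₁.grf.up a, continuousOn_fst.prodMk a₁.grf.cont, fun t a u b =>
      ⟨t, a, Prod.ext (Subsingleton.elim _ _) (a₁.grf.σ_act a₁.finv a b)⟩⟩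
  have q2 := P.eq₂ hM a₁ a₂
  have q3 : EQ (addF P.F P.w₂ (P.χ₂ χ) (P.g₂ g) {u | ∀ r, u (.inr (.inr r)) ≠ 0} ∅) P.F
      (· ∘ .inl) := a₂.grf.eqv
  have q4 := (q1.comp q2).comp q3
  refine ⟨q4, fun d => ?_⟩
  have c1 := (a₁.cmp hD hZ hS hk d).symm a₁.grf.eqv q1 fun z a => ⟨1, isUnit_one, by
    rw [Wt.actT_one]
    exact Prod.ext rfl ((a₁.grf.cone z).1 a).2.symm⟩
  have c2 := (cmp_of_pres hZ hS (P.pres₂ hM a₁ a₂ hm) subset_rfl subset_rfl
    (fun _ a => a (notMem_empty _)) a₁.ab'.nice a₂.ab'.nice (a₁.grf.big hk) (a₂.grf.big P.big) _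
    P.ev_f₂).1 d
  have c3 := (c1.trans c2 q1 q2).trans (a₂.cmp hD hZ hS P.big _) (q1.comp q2) q3
  exact c3

end Prs

end Vale.Agent.P287Q
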