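import Vale.Agent.P287Q.G.Prj.Tgt
import Vale.Agent.P287Q.G.Vir.Cone
import Vale.Agent.P287Q.G.Vir.RP
import Vale.Agent.P269.Holo.Set2

/-!
# Graphs over families of targets
-/

set_option linter.unusedSectionVars false

namespace Vale.Agent.P269

open Set Function Topology Filter MvPolynomial Vir Holo RP

variable {S Λ R J K J' K' : Type} [Fintype S] [Fintype Λ] [Fintype R] [Fintype J] [Fintype K]
  [Fintype J'] [Fintype K']

theorem Vir.exists_jac (g : K → J → ℂ) (M : Set J) : ∃ K₀, Jac g M K₀ := by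
  classical
  obtain ⟨K₁, a, b⟩ := Finite.exists_maximal (toFinite {K₁ : Set K | ∀ c : K → ℂ, ∃ η : J → ℂ,
    (∀ j ∉ M, η j = 0) ∧ ∀ k ∈ K₁, ∑ j, g k j * η j = c k})
    ⟨∅, fun _ => ⟨0, fun _ _ => rfl, fun _ e => e.elim⟩⟩
  refine ⟨K₁, a, fun η d e k => by_contra fun f =>
    f (e k (b (y := insert k K₁) (fun c => ?_) (subset_insert _ _) (mem_insert _ _)))⟩
  obtain ⟨η', i, m⟩ := a c
  refine ⟨fun j => η' j + (c k - ∑ j, g k j * η' j) / (∑ j, g k j * η j) * η j,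
    fun j n => by simp [i j n, d j n], fun k' n => ?_⟩
  simp only [mul_add, Finset.sum_add_distrib, mul_left_comm (g k' _), ← Finset.mul_sum]
  rcases n with rfl | n
  · rw [div_mul_cancel₀ _ f, add_sub_cancel]
  · rw [e k' n, m k' n, mul_zero, add_zero]

/-- The cone of `F'` is the graph of `σ` over the cone of `F`. -/
structure Fam.Grf (F : Fam S Λ R J K) (F' : Fam S Λ R J' K') (φ : J → J') (ψ : K → K')
    (σ : (Λ → ℂ) × (J → ℂ) → J' → ℂ) : Prop where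
  inj : Injective φ
  w : ∀ j, F'.w (φ j) = F.w j
  wt : ∀ j, F'.wt (φ j) = F.wt j
  wl : F'.wl = F.wl
  θ : F'.θ = F.θ
  B : F'.B = F.B
  E : ∀ z ∈ F'.E, (z.1, z.2 ∘ φ) ∈ F.E
  mov : ∀ j, φ j ∈ F'.mov ↔ j ∈ F.mov
  zer : ∀ j ∈ F.zer, φ j ∈ F'.zer
  new : ∀ j ∉ range φ, j ∉ F'.mov → j ∈ F'.zer
  G : ∀ k, F'.G (ψ k) = rename φ (F.G k)
  cone : ∀ z, z ∈ F'.cone ↔ (z.1, z.2 ∘ φ) ∈ F.cone ∧ z.2 = σ (z.1, z.2 ∘ φ)
  sec : ∀ z ∈ F.cone, σ z ∘ φ = z.2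
  cont : ContinuousOn σ F.cone
  jac : ∀ z ∈ F'.cone, ∀ η ∈ F'.vert z, η ∘ φ = 0 → η = 0

namespace Fam

theorem trf_fd (F : Fam S Λ R J K) (z : (Λ → ℂ) × (J → ℂ)) (η : J → ℂ) (k : K) :
    fderiv ℂ (fun z => F.eqn z k) z (0, η) = ∑ j, F.jac z k j * η j := by
  have l : HasDerivAt (fun ε : ℂ => z + ε • ((0 : Λ → ℂ), η)) (0, η) 0 := by
    simpa using ((hasDerivAt_id (0 : ℂ)).smul_const ((0 : Λ → ℂ), η)).const_add z
  refine ((an_eqn k z).differentiableAt.hasFDerivAt.comp_hasDerivAt_of_eq 0 l (by simp)).unique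
    ((hasDerivAt_eval _ z.2 η).congr_of_eventuallyEq (.of_forall fun ε => ?_))
  simp only [comp_apply, eqn, Prod.smul_mk, smul_zero, Prod.fst_add, add_zero]
  rfl

namespace Grf

variable {F : Fam S Λ R J K} {F' : Fam S Λ R J' K'} {φ : J → J'} {ψ : K → K'}
  {σ : (Λ → ℂ) × (J → ℂ) → J' → ℂ} (h : F.Grf F' φ ψ σ) {z : (Λ → ℂ) × (J' → ℂ)}
  {u : (Λ → ℂ) × (J → ℂ)} {η : J' → ℂ}
include h

theorem actL : F'.actL = F.actL := funext₂ fun _ _ => funext fun _ => by simp [Wt.actL, h.wl]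

theorem act (t z) : F.actT t (z.1, z.2 ∘ φ) = ((F'.actT t z).1, (F'.actT t z).2 ∘ φ) :=
  Prod.ext (congrFun₂ h.actL _ _).symm (funext fun j => by simp [Wt.actT, h.w, h.wt])

theorem up (hu : u ∈ F.cone) : (u.1, σ u) ∈ F'.cone := by
  rw [h.cone, h.sec u hu]
  exact ⟨hu, rfl⟩

theorem eqn (z) (k : K) : F'.eqn z (ψ k) = F.eqn (z.1, z.2 ∘ φ) k := by
  simp only [Fam.eqn, fib, h.G, map_rename, eval_rename]

theorem sum_jac (z) (η : J' → ℂ) (k : K) :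
    ∑ j, F'.jac z (ψ k) j * η j = ∑ j, F.jac (z.1, z.2 ∘ φ) k j * η (φ j) :=
  (hasDerivAt_eval _ _ _).unique ((hasDerivAt_eval _ _ _).congr_of_eventuallyEq
    (.of_forall fun ε => h.eqn (z.1, fun j => z.2 j + ε * η j) k))

theorem bs (hz : z ∈ F'.bs) : (z.1, z.2 ∘ φ) ∈ F.bs :=
  ⟨h.B ▸ hz.1, h.E _ hz.2.1, fun j a => hz.2.2 _ (h.zer j a)⟩

theorem eqv : Tq.Eqv F'.actT F.actT F'.cone F.cone (Prod.map id (· ∘ φ)) :=
  ⟨fun z a => ((h.cone z).1 a).1, Continuous.continuousOn (by fun_prop),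
    fun t a z _ => ⟨t, a, (h.act t z).symm⟩⟩

theorem σ_act (hF' : F'.Inv) {t} (ht : IsUnit t) (hu : u ∈ F.cone) :
    σ (F.actT t u) = (F'.actT t (u.1, σ u)).2 := by
  rw [((h.cone _).1 (hF'.cone_act ht (h.up hu))).2, ← h.act, h.sec u hu]

variable [DecidableEq R] in
theorem ample {θ₀ N} (a : F.Ample θ₀ N) : F'.Ample θ₀ N := by
  refine ⟨h.θ.trans a.1, a.2.1, fun c hc z hz => ?_⟩
  obtain ⟨α, a1, a2⟩ := a.2.2 c hc _ ((h.cone z).1 hz).1
  have e : ∀ j ∉ range φ, extend φ α 0 j = 0 := fun j b => extend_apply' _ _ _ b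
  refine ⟨extend φ α 0, fun i => (Fintype.sum_of_injective φ h.inj _ _ (fun j b => by simp [e j b])
    fun j => by rw [h.inj.extend_apply, h.w]).symm.trans (a1 i), ?_⟩
  rw [← Fintype.prod_of_injective φ h.inj _ _ (fun j b => by simp [e j b])
    fun j => by rw [h.inj.extend_apply]]
  exact a2

variable [DecidableEq R] in
theorem big {k : ℕ} (a : F.Big k) : F'.Big k :=
  let ⟨θ₀, N, b, c⟩ := a
  ⟨θ₀, N, h.ample b, c⟩

variable [DecidableEq R] in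
theorem good (hF : F.Good) (hF' : F'.Inv) (hd : ∀ k, (F'.G k).totalDegree ≠ 0) : F'.Good where
  toInv := hF'
  deg := hd
  freeB := by rw [h.actL, h.B]; exact hF.freeB
  properB := by rw [h.actL, h.B]; exact hF.properB
  free t a z b c := hF.free t a _ ((h.cone z).1 b).1 (by rw [h.act, c])
  proper t z z' a b c y d e := hF.proper t _ _ a ((h.cone z).1 b).1 ((h.cone z').1 c).1
    (fun n => y n ∘ φ) (tendsto_pi_nhds.2 fun j => tendsto_pi_nhds.1 d (φ j)) fun j f =>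
      (e (φ j) (h.w j ▸ f)).congr fun n =>
        (congrFun (congrArg Prod.snd (h.act (1, t n) (z.1, y n))) j).symm
  cpt B' a b := by
    obtain ⟨C, c, d, e⟩ := hF.cpt B' (h.B ▸ a) b
    refine ⟨(fun u => (u.1, σ u)) '' C, forall_mem_image.2 fun u f => h.up (c f),
      d.image_of_continuousOn (continuousOn_fst.prodMk (h.cont.mono c)), fun z f g => ?_⟩
    obtain ⟨t, i, m⟩ := e _ ((h.cone z).1 f).1 g
    refine ⟨t, i, _, m, ?_⟩
    rw [h.act]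
    exact Prod.ext rfl ((h.cone _).1 (hF'.cone_act (Prod.isUnit_iff.2 ⟨isUnit_one, i⟩) f)).2.symm
  ample := let ⟨θ₀, N, a⟩ := hF.ample; ⟨θ₀, N, h.ample a⟩
  mov_ne := let ⟨j, a⟩ := hF.mov_ne; ⟨φ j, (h.mov j).2 a⟩

theorem ext0 {η : J → ℂ} (a : ∀ j ∉ F.mov, η j = 0) : ∀ j ∉ F'.mov, extend φ η 0 j = 0 :=
  fun j b => by
    by_cases c : j ∈ range φ
    · obtain ⟨j, rfl⟩ := c
      rw [h.inj.extend_apply, a j fun d => b ((h.mov j).2 d)]
    · exact extend_apply' _ _ _ c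

/-- Lifting with prescribed values of the new equations. -/
theorem lift {K₂ : Set K'} (a : Jac (F'.jac z) (F'.mov \ range φ) K₂) {η : J → ℂ}
    (b : ∀ j ∉ F.mov, η j = 0) (c : K' → ℂ) : ∃ η' : J' → ℂ, (∀ j ∉ F'.mov, η' j = 0) ∧
      η' ∘ φ = η ∧ ∀ k ∈ K₂, ∑ j, F'.jac z k j * η' j = c k := by
  obtain ⟨ξ, d, e⟩ := a.ind fun k => c k - ∑ j, F'.jac z k j * extend φ η 0 j
  refine ⟨extend φ η 0 + ξ, fun j f => ?_, funext fun j => ?_, fun k f => ?_⟩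
  · rw [Pi.add_apply, h.ext0 b j f, d j fun g => f g.1, add_zero]
  · rw [comp_apply, Pi.add_apply, h.inj.extend_apply, d _ fun g => g.2 ⟨j, rfl⟩, add_zero]
  · simp only [Pi.add_apply, mul_add, Finset.sum_add_distrib, e k f, add_sub_cancel]

/-- The new equations determine the new fields analytically. -/
theorem inv (hz : z ∈ F'.cone) {K₂ : Set K'} (a : Jac (F'.jac z) (F'.mov \ range φ) K₂) :
    ∃ Φ : (Λ → ℂ) × (J → ℂ) → J' → ℂ, AnalyticAt ℂ Φ (z.1, z.2 ∘ φ) ∧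
      ∀ᶠ x in 𝓝 z, x ∈ F'.bs → (∀ k ∈ K₂, F'.eqn x k = 0) → x.2 = Φ (x.1, x.2 ∘ φ) := by
  classical
  let L : ((Λ → ℂ) × (J' → ℂ)) →L[ℂ] ((Λ → ℂ) × (J → ℂ)) × (F'.zer → ℂ) :=
    ((ContinuousLinearMap.id ℂ _).prodMap (.pi fun j => .proj (φ j))).prod
      ((.pi fun j => .proj j.1) ∘L .snd ℂ _ _)
  have d : ∀ k : K₂, AnalyticAt ℂ (fun x => F'.eqn x k) z := fun k => an_eqn k.1 z
  have b := analyticAt_pi_iff.2 d
  have e : ∀ x ∈ F'.bs, (∀ k ∈ K₂, F'.eqn x k = 0) →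
      (L x, fun k : K₂ => F'.eqn x k) = (((x.1, x.2 ∘ φ), 0), 0) := fun x a1 a2 =>
    Prod.ext (Prod.ext rfl (funext fun j => a1.2.2 j j.2)) (funext fun k => a2 k k.2)
  obtain ⟨w, w1, w2⟩ := Holo.exists_leftInv ((L.analyticAt z).prod b)
    ((injective_iff_map_eq_zero _).2 fun v f => by
      rw [DifferentiableAt.fderiv_prodMk L.differentiableAt b.differentiableAt, L.fderiv,
        fderiv_pi fun k => (d k).differentiableAt] at f
      obtain ⟨l, η⟩ := v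
      have f1 := congrArg Prod.fst f
      obtain rfl : l = 0 := congrArg (·.1.1) f1
      have f2 : η ∘ φ = 0 := congrArg (·.1.2) f1
      have f3 : ∀ j ∉ F'.mov \ range φ, η j = 0 := fun j g => by
        by_cases i : j ∈ range φ
        · exact i.choose_spec ▸ congrFun f2 _
        · exact congrFun (congrArg Prod.snd f1) ⟨j, h.new j i fun m => g ⟨m, i⟩⟩
      exact congrArg (Prod.mk 0) (h.jac z hz η (mem_vert.2 ⟨fun j g => f3 j fun i => g i.1,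
        a.red η f3 fun k g => (F'.trf_fd z η k).symm.trans
          (congrFun (congrArg Prod.snd f) ⟨k, g⟩)⟩) f2))
  rw [e z (F'.mem_cone.1 hz).1 fun k _ => (F'.mem_cone.1 hz).2.2 k] at w1
  exact ⟨fun u => (w ((u, 0), 0)).2, analyticAt_snd.comp (w1.comp (f := fun u => ((u, 0), 0))
    ((analyticAt_id.prod analyticAt_const).prod analyticAt_const)),
    w2.mono fun x a1 a2 a3 => by beta_reduce; rw [← e x a2 a3, a1]⟩

theorem tends (hu : u ∈ F.cone) {p : (Λ → ℂ) × (J' → ℂ) → Prop} (a : ∀ᶠ x in 𝓝 (u.1, σ u), p x) :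
    ∀ᶠ x in 𝓝 u, x ∈ F.cone → p (x.1, σ x) :=
  eventually_nhdsWithin_iff.1
    ((continuousWithinAt_fst.prodMk (h.cont u hu)).tendsto.eventually a)

/-- The section is holomorphic. -/
theorem hol (hu : u ∈ F.cone) : HolOn F.cone σ u := by
  obtain ⟨K₂, a⟩ := exists_jac (F'.jac (u.1, σ u)) (F'.mov \ range φ)
  obtain ⟨Φ, b, c⟩ := h.inv (h.up hu) a
  rw [h.sec u hu] at b
  refine ⟨Φ, b, (h.tends hu c).mono fun x d e => ?_⟩
  have f := F'.mem_cone.1 (h.up e)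
  simpa only [h.sec x e] using d e f.1 fun k _ => f.2.2 k

theorem regAt (hF : F.Inv) (hz : z ∈ F'.cone) {K₁ : Set K} (a : F.RegAt K₁ (z.1, z.2 ∘ φ))
    {K₂ : Set K'} (b : Jac (F'.jac z) (F'.mov \ range φ) K₂) : F'.RegAt (ψ '' K₁ ∪ K₂) z := by
  obtain ⟨Φ, -, c⟩ := h.inv hz b
  obtain ⟨d, e⟩ := (h.cone z).1 hz
  refine ⟨fun v => ?_, ?_⟩
  · obtain ⟨η, f, g⟩ := a.ind (v ∘ ψ)
    obtain ⟨η', i, rfl, m⟩ := h.lift b f v
    refine ⟨η', i, ?_⟩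
    rintro k (⟨k, n, rfl⟩ | n)
    exacts [(h.sum_jac z η' k).trans (g k n), m k n]
  have t : ContinuousAt (fun x : (Λ → ℂ) × (J' → ℂ) => (x.1, x.2 ∘ φ)) z := by fun_prop
  have c' := c
  rw [show 𝓝 z = 𝓝 (z.1, σ (z.1, z.2 ∘ φ)) from congrArg 𝓝 (Prod.ext rfl e)] at c'
  filter_upwards [c, t.eventually a.cut, t.eventually (hF.openU.mem_nhds (F.mem_cone.1 d).2.1),
    t.eventually (h.tends d c')]
    with x a1 a2 a3 a4 a5 a6
  have a7 : (x.1, x.2 ∘ φ) ∈ F.cone := F.mem_cone.2 ⟨h.bs a5, a3, a2 (h.bs a5)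
    fun k n => (h.eqn x k).symm.trans (a6 _ (.inl ⟨k, n, rfl⟩))⟩
  have f := F'.mem_cone.1 (h.up a7)
  have g := a4 a7 f.1 fun k _ => f.2.2 k
  simp only [h.sec _ a7] at g
  exact (F'.mem_cone.1 ((h.cone x).2 ⟨a7, (a1 a5 fun k n => a6 k (.inr n)).trans g.symm⟩)).2.2

theorem vert_map (a : η ∈ F'.vert z) : η ∘ φ ∈ F.vert (z.1, z.2 ∘ φ) :=
  mem_vert.2 ⟨fun j b => (mem_vert.1 a).1 _ fun c => b ((h.mov j).1 c),
    fun k => (h.sum_jac z η k).symm.trans ((mem_vert.1 a).2 _)⟩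

variable {K₀ : RD R} (hF : F.Inv) (hF' : F'.Inv) (hR : F.Reg K₀)
include hF hF' hR

theorem vert_srj (hz : z ∈ F'.cone) {η : J → ℂ} (a : η ∈ F.vert (z.1, z.2 ∘ φ)) :
    ∃ η' ∈ F'.vert z, η' ∘ φ = η := by
  obtain ⟨K₁, b⟩ := hR.loc _ ((h.cone z).1 hz).1
  obtain ⟨K₂, c⟩ := exists_jac (F'.jac z) (F'.mov \ range φ)
  obtain ⟨η', d, rfl, e⟩ := h.lift c (mem_vert.1 a).1 0
  refine ⟨η', mem_vert.2 ⟨d, ((h.regAt hF hz b c).jac hF' hz).red η' d ?_⟩, rfl⟩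
  rintro k (⟨k, -, rfl⟩ | n)
  exacts [(h.sum_jac z η' k).trans ((mem_vert.1 a).2 k), e k n]

theorem reg : F'.Reg K₀ :=
  hR.of_proj' hF' id (LinearMap.funLeft ℂ ℂ φ) (fun z a =>
    let ⟨_, b⟩ := hR.loc _ ((h.cone z).1 a).1
    let ⟨_, c⟩ := exists_jac (F'.jac z) (F'.mov \ range φ)
    ⟨_, h.regAt hF a b c⟩) (fun z a => ((h.cone z).1 a).1)
    (fun z a => ⟨fun _ b => h.vert_map b, fun η b η' c d => sub_eq_zero.1 (h.jac z a _
      (sub_mem b c) (sub_eq_zero.2 d)), fun _ b => h.vert_srj hF hF' hR a b⟩)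
    fun t _ y j => by simp [LinearMap.funLeft_apply, h.w]

end Grf

end Fam

end Vale.Agent.P269
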